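import Vale.Agent.P073Y.B.Defs
import Vale.Agent.P073Y.Zn.Bas

/-!
# Certificates: monotonicity, unions, transport, locality
-/

open Set Metric Topology Filter
open scoped NNReal ENNReal

namespace P073.B

open P073.Top P073.Zn
open P073.An (M3)
open P073.Gc (Bil)
open P073.M2 (hull)

theorem bil_mono {b b' : ℝ} {A : M3} (h : Bil b A) (hb : b ≤ b') : Bil b' A :=
  ⟨h.1.trans hb, fun u => (h.2 u).trans (mul_le_mul_of_nonneg_right hb (norm_nonneg _))⟩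

theorem bil_id : Bil 1 (ContinuousLinearMap.id ℝ E3) :=
  ⟨ContinuousLinearMap.norm_id_le, fun _ => (one_mul _).ge⟩

theorem bil_nonneg {b : ℝ} {A : M3} (h : Bil b A) : 0 ≤ b := (norm_nonneg _).trans h.1

theorem bil_comp {b β : ℝ} {A L : M3} (hL : Bil β L) (h : Bil b A) : Bil (β * b) (L.comp A) :=
  ⟨(L.opNorm_comp_le A).trans (mul_le_mul hL.1 h.1 (norm_nonneg _) (bil_nonneg hL)), fun u =>
    (h.2 u).trans ((mul_le_mul_of_nonneg_left (hL.2 _) (bil_nonneg h)).trans_eq (by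
      rw [← mul_assoc, mul_comm b]; rfl))⟩

theorem bil_inj {b : ℝ} {A : M3} (h : Bil b A) : Function.Injective A :=
  (injective_iff_map_eq_zero A).2 fun u hu =>
    norm_le_zero_iff.1 (by simpa [hu] using h.2 u)

/-- an invertible affine map as a homeomorphism -/
theorem exists_homeo {β lam : ℝ} {L : M3} (hL : Bil β L) (hl : lam ≠ 0) (v : E3) :
    ∃ T : E3 ≃ₜ E3, ∀ y, T y = v + lam • L y :=
  ⟨((LinearEquiv.ofInjectiveEndo (L : E3 →ₗ[ℝ] E3)
    (bil_inj hL)).toContinuousLinearEquiv.toHomeomorph.trans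
      (Homeomorph.smulOfNeZero lam hl)).trans (Homeomorph.addLeft v), fun _ => rfl⟩

/-- a connected set inside an open set lies in a connected open subset -/
theorem exists_comp {G X : Set E3} (hG : IsOpen G) (hX : IsPreconnected X) (h : X ⊆ G) :
    ∃ O, X ⊆ O ∧ O ⊆ G ∧ IsOpen O ∧ IsPreconnected O := by
  rcases X.eq_empty_or_nonempty with rfl | ⟨x, hx⟩
  · exact ⟨∅, Subset.rfl, empty_subset _, isOpen_empty, isPreconnected_empty⟩
  · exact ⟨_, hX.subset_connectedComponentIn hx h, connectedComponentIn_subset _ _,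
      hG.connectedComponentIn, isPreconnected_connectedComponentIn⟩

variable {Ω Λ : Set E3} {S : Src Ω} {g h : E3 → E3} {G G' : Set E3} {b b' l₀ l₀' : ℝ}

namespace Cert

theorem mono (H : Cert S g G b l₀) (hG : G' ⊆ G) (hb : b ≤ b') (hl : l₀ ≤ l₀') :
    Cert S g G' b' l₀' := fun O h1 h2 h3 => by
  obtain ⟨ξ, A, l, y₀, k1, k2, k3, k4⟩ := H O (h1.trans hG) h2 h3
  exact ⟨ξ, A, l, y₀, bil_mono k1 hb, k2, k3.trans hl, k4⟩

theorem subset (H : Cert S g G b l₀) (hG : G' ⊆ G) : Cert S g G' b l₀ := H.mono hG le_rfl le_rfl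

theorem pos (H : Cert S g G b l₀) : 0 < l₀ := by
  obtain ⟨_, _, _, _, _, k2, k3, _⟩ := H ∅ (empty_subset _) isOpen_empty isPreconnected_empty
  exact k2.trans_le k3

theorem empty (S : Src Ω) (g : E3 → E3) (hb : 1 ≤ b) (hl : 0 < l₀) : Cert S g ∅ b l₀ :=
  fun _ h1 _ _ => ⟨AffineEquiv.refl ℝ E3, _, l₀, 0, bil_mono bil_id hb, hl, le_rfl,
    fun _ _ _ h => (h1 h).elim, fun _ _ h => (h1 h).elim⟩

/-- a cover by disjoint open sets -/
theorem of_cover {κ : Type} {V : κ → Set E3} (hb : 1 ≤ b) (hl : 0 < l₀) (hV : ∀ i, IsOpen (V i))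
    (hd : ∀ i j, i ≠ j → Disjoint (V i) (V j)) (hG : G ⊆ ⋃ i, V i)
    (H : ∀ i, Cert S g (G ∩ V i) b l₀) : Cert S g G b l₀ := fun O h1 h2 h3 => by
  rcases O.eq_empty_or_nonempty with rfl | ⟨y, hy⟩
  · exact empty S g hb hl ∅ Subset.rfl h2 h3
  obtain ⟨i, hi⟩ := mem_iUnion.1 (hG (h1 hy))
  refine H i O (subset_inter h1 (h3.subset_left_of_subset_union (v := ⋃ j, ⋃ (_ : j ≠ i), V j)
    (hV i) (isOpen_iUnion fun j => isOpen_iUnion fun _ => hV j)
    (disjoint_iUnion₂_right.2 fun j hj => hd i j hj.symm) (fun u hu => ?_) ⟨y, hy, hi⟩)) h2 h3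
  obtain ⟨j, hj⟩ := mem_iUnion.1 (hG (h1 hu))
  rcases eq_or_ne j i with rfl | e
  exacts [Or.inl hj, Or.inr (mem_iUnion₂.2 ⟨j, e, hj⟩)]

theorem iUnion {κ : Type} {V : κ → Set E3} (hb : 1 ≤ b) (hl : 0 < l₀) (hV : ∀ i, IsOpen (V i))
    (hd : ∀ i j, i ≠ j → Disjoint (V i) (V j)) (H : ∀ i, Cert S g (V i) b l₀) :
    Cert S g (⋃ i, V i) b l₀ :=
  of_cover hb hl hV hd Subset.rfl fun i => (H i).subset inter_subset_right

theorem biUnion {κ : Type} {V : κ → Set E3} {I : Set κ} (hb : 1 ≤ b) (hl : 0 < l₀)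
    (hV : ∀ i ∈ I, IsOpen (V i)) (hd : ∀ i ∈ I, ∀ j ∈ I, i ≠ j → Disjoint (V i) (V j))
    (H : ∀ i ∈ I, Cert S g (V i) b l₀) : Cert S g (⋃ i ∈ I, V i) b l₀ := by
  rw [biUnion_eq_iUnion]
  exact iUnion hb hl (fun i => hV i i.2)
    (fun i j e => hd i i.2 j j.2 fun e' => e (Subtype.ext e')) fun i => H i i.2

theorem union (H : Cert S g G b l₀) (H' : Cert S g G' b l₀) (hG : IsOpen G) (hG' : IsOpen G')
    (hd : Disjoint G G') : Cert S g (G ∪ G') b l₀ := fun O h1 h2 h3 =>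
  (h3.subset_or_subset hG hG' hd h1).elim (fun k => H O k h2 h3) fun k => H' O k h2 h3

/-- only the points which `h` maps into `G` matter -/
theorem congr (H : Cert S g G b l₀) (e : ∀ x ∈ Ω, h x ∈ G → g x = h x) : Cert S h G b l₀ :=
  fun O h1 h2 h3 => by
  obtain ⟨ξ, A, l, y₀, k1, k2, k3, k4, k5⟩ := H O h1 h2 h3
  refine ⟨ξ, A, l, y₀, k1, k2, k3, fun c x hx hy => k4 c x hx ?_, fun x hx hy => ?_⟩
  · rwa [e x (cell_sub c hx.1) (h1 hy)]
  · exact (e x hx (h1 hy)).symm.trans (k5 x hx ((e x hx (h1 hy)).symm ▸ hy))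

end Cert

/-- two homeomorphisms which agree on the preimage of `G` under the first one -/
theorem eq_of_agree (g h : ConHomeo Ω Λ) (e : ∀ x ∈ Ω, g.toFun x ∈ G → h.toFun x = g.toFun x)
    {x : E3} (hx : x ∈ Ω) (hy : h.toFun x ∈ G) : g.toFun x = h.toFun x := by
  have h1 := g.mapsTo_inv (h.mapsTo hx)
  have h2 := g.right_inv (h.mapsTo hx)
  have h3 := h.injOn h1 hx ((e _ h1 (h2.symm ▸ hy)).trans h2)
  rwa [h3] at h2

namespace Cert

theorem congr' {g h : ConHomeo Ω Λ} (H : Cert S g.toFun G b l₀)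
    (e : ∀ x ∈ Ω, g.toFun x ∈ G → h.toFun x = g.toFun x) : Cert S h.toFun G b l₀ :=
  H.congr fun _ hx hy => eq_of_agree g h e hx hy

/-- an affine change of the target -/
theorem target {T : E3 → E3} {β lam : ℝ} {L : M3} {v : E3} (hL : Bil β L) (hl : 0 < lam)
    (hT : ∀ y, T y = v + lam • L y) (H : Cert S g (T ⁻¹' G) b l₀) :
    Cert S (T ∘ g) G (β * b) (lam * l₀) := fun O h1 h2 h3 => by
  obtain ⟨T', e⟩ := exists_homeo hL hl.ne' v
  obtain rfl : T = T' := funext fun y => (hT y).trans (e y).symm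
  obtain ⟨ξ, A, l, y₀, k1, k2, k3, k4, k5⟩ := H _ (preimage_mono h1) (h2.preimage T'.continuous)
    (T'.isPreconnected_preimage.2 h3)
  refine ⟨ξ, L.comp A, lam * l, T' y₀, bil_comp hL k1, mul_pos hl k2,
    mul_le_mul_of_nonneg_left k3 hl.le, k4, fun x hx hy => ?_⟩
  rw [Function.comp_apply, k5 x hx hy, e, e, map_add, map_smul, smul_add, smul_smul, add_assoc]
  rfl

/-- normalised source coordinates -/
theorem source {ν : E3 ≃ᴬ[ℝ] E3} (n : Nrm S ν) :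
    Cert n.src (g ∘ ν.symm) G b l₀ ↔ Cert S g G b l₀ := by
  have oc : ∀ c x, ν x ∈ n.src.Q.ocell c ↔ x ∈ S.Q.ocell c := fun c x =>
    and_congr ν.injective.mem_set_image ν.injective.mem_set_image.not
  refine ⟨fun H O h1 h2 h3 => ?_, fun H O h1 h2 h3 => ?_⟩
  · obtain ⟨ξ, A, l, y₀, k1, k2, k3, k4, k5⟩ := H O h1 h2 h3
    refine ⟨ν.toAffineEquiv.trans ξ, A, l, y₀, k1, k2, k3, fun c x hx hy => ?_,
      fun x hx hy => ?_⟩
    · have := k4 c (ν x) ((oc c x).2 hx) (by simpa using hy)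
      exact (ν.injective.preimage_image _).symm.trans (congrArg (ν ⁻¹' ·) this)
    · simpa using k5 (ν x) (mem_image_of_mem _ hx) (by simpa using hy)
  · obtain ⟨ξ, A, l, y₀, k1, k2, k3, k4, k5⟩ := H O h1 h2 h3
    refine ⟨ν.symm.toAffineEquiv.trans ξ, A, l, y₀, k1, k2, k3, fun c x hx hy => ?_, ?_⟩
    · have := k4 c (ν.symm x) ((oc c _).1 (by simpa using hx)) hy
      exact (congrArg (ν '' ·) this).trans (ν.toEquiv.image_eq_preimage_symm _)
    · rintro _ ⟨x, hx, rfl⟩ hy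
      simpa using k5 x hx (by simpa using hy)

/-- the data on a connected part of the source -/
theorem data (H : Cert S g G b l₀) (hG : IsOpen G) {X : Set E3} (hX : IsPreconnected (g '' X))
    (h : g '' X ⊆ G) : ∃ (ξ : E3 ≃ᵃ[ℝ] E3) (A : M3) (l : ℝ) (y₀ : E3), Bil b A ∧ 0 < l ∧ l ≤ l₀ ∧
      (∀ c, ∀ x ∈ S.Q.ocell c, x ∈ X → S.Q.cell c = ξ ⁻¹' hull (ξ x)) ∧
      ∀ x ∈ Ω, x ∈ X → g x = y₀ + l • A (ξ x) := by
  obtain ⟨O, h1, h2, h3, h4⟩ := exists_comp hG hX h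
  obtain ⟨ξ, A, l, y₀, k1, k2, k3, k4, k5⟩ := H O h2 h3 h4
  exact ⟨ξ, A, l, y₀, k1, k2, k3, fun c x hx hy => k4 c x hx (h1 (mem_image_of_mem _ hy)),
    fun x hx hy => k5 x hx (h1 (mem_image_of_mem _ hy))⟩

/-- `g` is affine on the cells which are mapped into `G` -/
theorem affine (H : Cert S g G b l₀) (hG : IsOpen G) {c : S.Q.ι}
    (hg : ContinuousOn g (S.Q.cell c)) (h : g '' S.Q.cell c ⊆ G) :
    ∃ A : E3 →ᵃ[ℝ] E3, EqOn g A (S.Q.cell c) := by
  obtain ⟨ξ, A, l, y₀, -, -, -, -, k⟩ := H.data hG ((S.cvx c).1.isPreconnected.image g hg) h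
  exact ⟨AffineMap.const ℝ E3 y₀ + l • (A : E3 →ₗ[ℝ] E3).toAffineMap.comp ξ.toAffineMap,
    fun x hx => k x (cell_sub c hx) hx⟩

end Cert

end P073.B
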