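import Vale.Agent.P073Y.B.Defs2
import Vale.Agent.P073Y.B.Cert

/-!
# Certificates with a margin
-/

open Set Metric Topology Filter
open scoped NNReal ENNReal

namespace P073.B

open P073.Top P073.Zn
open P073.M2 (hull)

variable {Ω Λ : Set E3} {S : Src Ω} {g h : E3 → E3} {G G' : Set E3} {μ μ' : ℝ}

namespace Cer

/-- transport: near every point of `G'` the map `h` is an affine image of `g` -/
theorem push (H : Cer S g G μ) (e : ∀ w ∈ G', ∃ y ∈ G, ∃ T : E3 ≃ᵃ[ℝ] E3, ∀ x ∈ Ω,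
    h x ∈ ball w μ' → g x ∈ ball y μ ∧ h x = T (g x)) : Cer S h G' μ' := fun w hw => by
  obtain ⟨y, hy, T, k⟩ := e w hw
  obtain ⟨ξ, a, k1, k2⟩ := H y hy
  exact ⟨ξ, a.trans T, fun c x hx hb => k1 c x hx (k x (cell_sub c hx.1) hb).1,
    fun x hx hb => (k x hx hb).2.trans (congrArg T (k2 x hx (k x hx hb).1))⟩

theorem mono (H : Cer S g G μ) (hG : G' ⊆ G) (hμ : μ' ≤ μ) : Cer S g G' μ' :=
  H.push fun w hw => ⟨w, hG hw, AffineEquiv.refl ℝ E3, fun _ _ hb => ⟨ball_subset_ball hμ hb, rfl⟩⟩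

theorem empty (S : Src Ω) (g : E3 → E3) (μ : ℝ) : Cer S g ∅ μ := fun _ h => h.elim

theorem union (H : Cer S g G μ) (H' : Cer S g G' μ) : Cer S g (G ∪ G') μ :=
  fun y hy => hy.elim (H y) (H' y)

theorem iUnion {κ : Sort _} {V : κ → Set E3} (H : ∀ i, Cer S g (V i) μ) : Cer S g (⋃ i, V i) μ :=
  fun y hy => let ⟨i, hi⟩ := mem_iUnion.1 hy; H i y hi

/-- only the points which `h` maps near `G` matter -/
theorem congr (H : Cer S g G μ) (e : ∀ x ∈ Ω, h x ∈ thickening μ G → g x = h x) : Cer S h G μ :=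
  H.push fun w hw => ⟨w, hw, AffineEquiv.refl ℝ E3, fun x hx hb =>
    have k := e x hx (mem_thickening_iff.2 ⟨w, hw, hb⟩)
    ⟨k.symm ▸ hb, k.symm⟩⟩

theorem congr' {g h : ConHomeo Ω Λ} (H : Cer S g.toFun G μ)
    (e : ∀ x ∈ Ω, g.toFun x ∈ thickening μ G → h.toFun x = g.toFun x) : Cer S h.toFun G μ :=
  H.congr fun _ hx hy => eq_of_agree g h e hx hy

/-- an affine change of the target -/
theorem target (H : Cer S g G μ) (T : E3 ≃ᵃ[ℝ] E3)
    (hT : ∀ y y', dist (T y) (T y') < μ' → dist y y' < μ) : Cer S (T ∘ g) (T '' G) μ' :=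
  H.push (by
    rintro _ ⟨y, hy, rfl⟩
    exact ⟨y, hy, T, fun x _ hb => ⟨hT _ _ hb, rfl⟩⟩)

/-- normalised source coordinates -/
theorem source {ν : E3 ≃ᴬ[ℝ] E3} (n : Nrm S ν) : Cer n.src (g ∘ ν.symm) G μ ↔ Cer S g G μ := by
  have oc : ∀ c x, ν x ∈ n.src.Q.ocell c ↔ x ∈ S.Q.ocell c := fun c x =>
    and_congr ν.injective.mem_set_image ν.injective.mem_set_image.not
  refine ⟨fun H y hy => ?_, fun H y hy => ?_⟩
  · obtain ⟨ξ, a, k4, k5⟩ := H y hy
    refine ⟨ν.toAffineEquiv.trans ξ, ν.toAffineEquiv.trans a, fun c x hx hb => ?_,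
      fun x hx hb => ?_⟩
    · have := k4 c (ν x) ((oc c x).2 hx) (by simpa using hb)
      exact (ν.injective.preimage_image _).symm.trans (congrArg (ν ⁻¹' ·) this)
    · simpa using k5 (ν x) (mem_image_of_mem _ hx) (by simpa using hb)
  · obtain ⟨ξ, a, k4, k5⟩ := H y hy
    refine ⟨ν.symm.toAffineEquiv.trans ξ, ν.symm.toAffineEquiv.trans a, fun c x hx hb => ?_, ?_⟩
    · have := k4 c (ν.symm x) ((oc c _).1 (by simpa using hx)) hb
      exact (congrArg (ν '' ·) this).trans (ν.toEquiv.image_eq_preimage_symm _)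
    · rintro _ ⟨x, hx, rfl⟩ hb
      simpa using k5 x hx (by simpa using hb)

/-- `g` is affine on the small cells whose images meet `G` -/
theorem affine (H : Cer S g G μ) {c : S.Q.ι} (hc : c ∈ hit S g G) (ho : OscC S g c μ')
    (hμ : μ' < μ) : ∃ A : E3 ≃ᵃ[ℝ] E3, EqOn g A (S.Q.cell c) := by
  obtain ⟨x, hx, hy⟩ := mem_hit.1 hc
  obtain ⟨-, a, -, k⟩ := H _ hy
  exact ⟨a, fun u hu => k u (cell_sub c hu) ((ho u hu x hx).trans_lt hμ)⟩

end Cer

end P073.B
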