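import Vale.Agent.P073Y.B.Defs
import Vale.Agent.P073Y.An.All

/-!
# A modulus of continuity from the energy, for exponents at least three
-/

open Set Metric Topology Filter MeasureTheory
open scoped NNReal ENNReal

namespace P073.B

open P073.Top P073.Zn
open P073.An (M3)

namespace Lg

variable {Ω : Set E3}

theorem finite_meet (S : Src Ω) {K : Set E3} (hK : IsCompact K) (hs : K ⊆ Ω) :
    {φ | (S.Q.cell φ ∩ K).Nonempty}.Finite := by
  have hl : ∀ x ∈ K, ∃ U ∈ 𝓝 x, {i | (S.Q.cell i ∩ U).Nonempty}.Finite := fun x hx =>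
    S.Q.lf x (by rw [show ⋃ i, S.Q.cell i = Ω from S.carrier]; exact hs hx)
  choose! U hU hf using hl
  obtain ⟨T, hT, hc⟩ := hK.elim_nhds_subcover U hU
  refine (T.finite_toSet.biUnion fun x hx => hf x (hT x hx)).subset fun φ ⟨y, h1, h2⟩ => ?_
  obtain ⟨x, hx, hy⟩ := mem_iUnion₂.1 (hc h2)
  exact mem_biUnion hx ⟨y, h1, hy⟩

theorem edist_le (f : E3 → E3) {X : Set E3} {x y : E3} (hx : x ∈ X) (hy : y ∈ X) :
    edist (f x) (f y) ≤ lipc f X * edist x y := by
  rcases eq_or_ne x y with rfl | h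
  · simp
  · refine (ENNReal.div_le_iff (edist_pos.2 h).ne' (edist_ne_top _ _)).1 ?_
    exact le_iSup₂_of_le x hx (le_iSup₂_of_le y hy le_rfl)

theorem fd_le (f : E3 → E3) {X : Set E3} {x : E3} (hx : x ∈ interior X) :
    ‖fderiv ℝ f x‖ₑ ≤ lipc f X := by
  rcases eq_or_ne (lipc f X) ⊤ with h | h
  · rw [h]
    exact le_top
  · have hl : LipschitzOnWith (lipc f X).toNNReal f X := fun u hu v hv => by
      rw [ENNReal.coe_toNNReal h]
      exact edist_le f hu hv
    have := norm_fderiv_le_of_lipschitzOn ℝ (mem_interior_iff_mem_nhds.1 hx) hl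
    rw [← ENNReal.coe_toNNReal h, enorm_eq_nnnorm, ENNReal.coe_le_coe]
    exact_mod_cast this

theorem int_cvx (f : E3 → E3) {X : Set E3} (hX : Convex ℝ X) {p : ℝ} (hp : 0 ≤ p) :
    ∫⁻ x in X, ‖fderiv ℝ f x‖ₑ ^ p ≤ volume X * lipc f X ^ p := by
  rw [← setLIntegral_congr (interior_ae_eq_of_null_frontier (hX.addHaar_frontier volume))]
  calc ∫⁻ x in interior X, ‖fderiv ℝ f x‖ₑ ^ p ≤ ∫⁻ _ in interior X, lipc f X ^ p :=
        setLIntegral_mono' isOpen_interior.measurableSet fun x hx =>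
          ENNReal.rpow_le_rpow (fd_le f hx) hp
    _ = volume (interior X) * lipc f X ^ p := by rw [setLIntegral_const, mul_comm]
    _ ≤ _ := mul_le_mul_left (measure_mono interior_subset) _

theorem null_low {X : Set E3} (h : Module.finrank ℝ (vectorSpan ℝ X) ≠ 3) : volume X = 0 := by
  refine measure_mono_null (subset_affineSpan ℝ X)
    (Measure.addHaar_affineSubspace volume _ fun e => h ?_)
  rw [← direction_affineSpan, e, AffineSubspace.direction_top, finrank_top]
  simp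

theorem energy (S : Src Ω) (f : E3 → E3) {K : Set E3} (hK : IsCompact K) (hs : K ⊆ Ω) {p : ℝ}
    (hp : 0 ≤ p) : ∫⁻ x in K, ‖fderiv ℝ f x‖ₑ ^ p ≤
      tot {c | S.Q.dim c = 3 ∧ (S.Q.cell c ∩ K).Nonempty}
        (fun c => volume (S.Q.cell c) * lipc f (S.Q.cell c) ^ p) := by
  have hf := (finite_meet S hK hs).countable.to_subtype
  have hc : K ⊆ ⋃ c : {φ | (S.Q.cell φ ∩ K).Nonempty}, S.Q.cell c := fun x hx => by
    have h1 : x ∈ ⋃ i, S.Q.cell i := by
      rw [show ⋃ i, S.Q.cell i = Ω from S.carrier]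
      exact hs hx
    obtain ⟨i, hi⟩ := mem_iUnion.1 h1
    exact mem_iUnion.2 ⟨⟨i, x, hi, hx⟩, hi⟩
  refine (lintegral_mono_set hc).trans ((lintegral_iUnion_le _ _).trans ?_)
  refine le_trans (ENNReal.tsum_le_tsum fun c => ?_)
    (ENNReal.tsum_comp_le_tsum_of_injective Subtype.val_injective _)
  by_cases h3 : S.Q.dim c = 3
  · rw [indicator_of_mem (show (c : S.Q.ι) ∈ {c | S.Q.dim c = 3 ∧ (S.Q.cell c ∩ K).Nonempty}
      from ⟨h3, c.2⟩)]
    exact int_cvx f (S.cvx c).1 hp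
  · rw [setLIntegral_measure_zero _ _ (null_low (by rw [← (S.cvx c).2.2]; exact h3))]
    exact zero_le

/-- the dyadic shells -/
def shell (x₀ : E3) (j : ℕ) : Set E3 := ball x₀ ((1 / 2) ^ j) \ closedBall x₀ ((1 / 2) ^ (j + 1))

theorem shell_disj (x₀ : E3) {j k : ℕ} (h : j < k) : Disjoint (shell x₀ j) (shell x₀ k) :=
  disjoint_left.2 fun _ h1 h2 => h1.2 (mem_closedBall.2 ((mem_ball.1 h2.1).le.trans
    (pow_le_pow_of_le_one (by norm_num) (by norm_num) h)))

theorem good_shell (x₀ : E3) (g : E3 → ℝ≥0∞) {C a : ℝ≥0∞} {J : ℕ}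
    (h : C * ∫⁻ x in closedBall x₀ 1, g x < J * a) :
    ∃ j < J, C * ∫⁻ x in shell x₀ j, g x ≤ a := by
  by_contra hn
  push Not at hn
  have hd : Set.PairwiseDisjoint (↑(Finset.range J) : Set ℕ) (shell x₀) := fun j _ k _ hjk => by
    rcases lt_or_gt_of_ne hjk with h | h
    · exact shell_disj x₀ h
    · exact (shell_disj x₀ h).symm
  have hs : (⋃ j ∈ Finset.range J, shell x₀ j) ⊆ closedBall x₀ 1 :=
    iUnion₂_subset fun j _ x hx => mem_closedBall.2 ((mem_ball.1 hx.1).le.trans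
      (pow_le_one₀ (by norm_num) (by norm_num)))
  refine absurd h (not_lt.2 ?_)
  calc (J : ℝ≥0∞) * a = ∑ _j ∈ Finset.range J, a := by simp
    _ ≤ ∑ j ∈ Finset.range J, C * ∫⁻ x in shell x₀ j, g x :=
        Finset.sum_le_sum fun j hj => (hn j (Finset.mem_range.1 hj)).le
    _ = C * ∫⁻ x in ⋃ j ∈ Finset.range J, shell x₀ j, g x := by
        rw [lintegral_biUnion_finset hd
          (fun j _ => measurableSet_ball.diff measurableSet_closedBall), Finset.mul_sum]
    _ ≤ _ := mul_le_mul_right (lintegral_mono_set hs) _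

theorem chain {g : E3 → E3} {Z : Set E3} {ρ δ : ℝ}
    (H : ∀ u ∈ Z, ∀ v ∈ Z, dist v u ≤ ρ → dist (g v) (g u) ≤ δ) (n : ℕ) :
    ∀ {u v : E3}, segment ℝ u v ⊆ Z → dist v u ≤ n * ρ → dist (g v) (g u) ≤ n * δ := by
  induction n with
  | zero =>
    intro u v _ h
    rw [Nat.cast_zero, zero_mul, dist_le_zero] at h
    simp [h]
  | succ n ih =>
    intro u v hs h
    have h0 : (0 : ℝ) < n + 1 := by positivity
    have h1 : (0 : ℝ) ≤ 1 / (n + 1) := by positivity
    have h2 : (1 : ℝ) / (n + 1) ≤ 1 := by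
      rw [div_le_one h0]
      linarith [Nat.cast_nonneg (α := ℝ) n]
    have hw : AffineMap.lineMap u v (1 / (n + 1) : ℝ) ∈ segment ℝ u v := by
      rw [segment_eq_image_lineMap]
      exact ⟨_, ⟨h1, h2⟩, rfl⟩
    push_cast at h ⊢
    have h3 : 1 / (n + 1) * dist u v ≤ ρ := by
      rw [one_div, ← div_eq_inv_mul, div_le_iff₀ h0, dist_comm]
      linarith
    have a := H u (hs (left_mem_segment ℝ u v)) _ (hs hw) (by
      rw [dist_lineMap_left, Real.norm_of_nonneg h1]
      exact h3)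
    have b := ih (((convex_segment u v).segment_subset hw (right_mem_segment ℝ u v)).trans hs) (by
      rw [dist_right_lineMap, Real.norm_of_nonneg (sub_nonneg.2 h2)]
      have e : (1 : ℝ) - 1 / (n + 1) = n * (1 / (n + 1)) := by field_simp; ring
      rw [e, mul_assoc]
      exact mul_le_mul_of_nonneg_left h3 (Nat.cast_nonneg n))
    linarith [dist_triangle (g v) (g (AffineMap.lineMap u v (1 / (n + 1) : ℝ))) (g u)]

theorem seg_face {x₀ u v : E3} {t : ℝ} (hu : u ∈ closedBall x₀ t) (hv : v ∈ closedBall x₀ t)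
    {i : Fin 3} (e : u i = v i) (ht : |u i - x₀ i| = t) : segment ℝ u v ⊆ sphere x₀ t := by
  intro z hz
  refine mem_sphere.2 (le_antisymm ((convex_closedBall x₀ t).segment_subset hu hv hz) ?_)
  obtain ⟨a, b, -, -, hab, rfl⟩ := hz
  refine le_trans (le_of_eq ?_) (dist_le_pi_dist _ _ i)
  have : (a • u + b • v) i = u i := by
    rw [Pi.add_apply, Pi.smul_apply, Pi.smul_apply, ← e, ← add_smul, hab, one_smul]
  rw [this, Real.dist_eq, ht]

theorem sph {g : E3 → E3} {x₀ : E3} {t ρ δ : ℝ} (ht : 0 < t) (hρ : 2 * t ≤ 15 * ρ)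
    (H : ∀ u ∈ sphere x₀ t, ∀ v ∈ sphere x₀ t, dist v u ≤ ρ → dist (g v) (g u) ≤ δ) :
    ∀ y ∈ sphere x₀ t, dist (g y) (g fun k => x₀ k + t) ≤ 30 * δ := by
  have key : ∀ u ∈ closedBall x₀ t, ∀ v ∈ closedBall x₀ t, ∀ i, u i = v i → |u i - x₀ i| = t →
      dist (g v) (g u) ≤ 15 * δ := fun u hu v hv i e hi => by
    have := chain H 15 (seg_face hu hv e hi) (by
      have := dist_triangle_right v u x₀
      rw [mem_closedBall] at hu hv
      push_cast
      linarith)
    exact_mod_cast this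
  have hP : (fun k => x₀ k + t) ∈ closedBall x₀ t := mem_closedBall.2
    ((dist_pi_le_iff ht.le).2 fun k => by rw [Real.dist_eq, add_sub_cancel_left, abs_of_pos ht])
  intro y hy
  obtain ⟨i, hi⟩ : ∃ i, |y i - x₀ i| = t := by
    obtain ⟨⟨i, hi⟩, -⟩ := (dist_pi_eq_iff ht).1 (mem_sphere.1 hy)
    exact ⟨i, hi⟩
  obtain ⟨k, hk⟩ := exists_ne i
  have hQ : Function.update (fun k => x₀ k + t) i (y i) ∈ closedBall x₀ t := mem_closedBall.2
    ((dist_pi_le_iff ht.le).2 fun m => by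
      rcases eq_or_ne m i with rfl | h
      · rw [Function.update_self, Real.dist_eq, hi]
      · rw [Function.update_of_ne h, Real.dist_eq, add_sub_cancel_left, abs_of_pos ht])
  have a := key _ hQ y (sphere_subset_closedBall hy) i (Function.update_self _ _ _)
    (by rw [Function.update_self, hi])
  have b := key _ hP _ hQ k (by rw [Function.update_of_ne hk])
    (by rw [add_sub_cancel_left, abs_of_pos ht])
  linarith [dist_triangle (g y) (g (Function.update (fun k => x₀ k + t) i (y i)))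
    (g fun k => x₀ k + t)]

end Lg

open Lg in
theorem log {p : ℝ} (hp : 3 ≤ p) : LOG p := by
  intro E ω hω
  obtain ⟨C, hC⟩ := (An.osc (p := p) (θ := 1) (by linarith) one_pos le_rfl).1
  have hδ : 0 < ω / 60 := by positivity
  have ha : 0 < (ω / 60) ^ p := Real.rpow_pos_of_pos hδ p
  obtain ⟨J, hJ⟩ := exists_nat_gt ((C * E : ℝ) / (ω / 60) ^ p)
  rw [div_lt_iff₀ ha] at hJ
  refine ⟨(1 / 2) ^ (J + 1), by positivity, ?_, ?_⟩
  · exact pow_le_of_le_one (by norm_num) (by norm_num) (Nat.succ_ne_zero J)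
  intro Ω Λ S h x₀ hΩ hΛ hs hE x hx
  have hw := An.wlip hΩ (aeaff hΩ ⟨h.cont, h.conical⟩).1
  have hM : An.Mon Ω h.toFun (fderiv ℝ h.toFun) := ⟨hΩ, h.cont,
    An.mon.1 hΛ ⟨h.mapsTo, h.mapsTo_inv, h.left_inv, h.right_inv, h.cont, h.cont_inv⟩, hw.1, hw.2⟩
  have h1 := (energy S h.toFun (isCompact_closedBall x₀ 1) hs (by linarith : 0 ≤ p)).trans hE
  obtain ⟨j, hj, h2⟩ := good_shell x₀ (fun z => ‖fderiv ℝ h.toFun z‖ₑ ^ p) (C := C)
    (a := ENNReal.ofReal (ω / 60) ^ p) (J := J) ((mul_le_mul_right h1 _).trans_lt (by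
      rw [ENNReal.ofReal_rpow_of_pos hδ, ← ENNReal.coe_mul, ← ENNReal.ofReal_coe_nnreal,
        ← ENNReal.ofReal_natCast, ← ENNReal.ofReal_mul (Nat.cast_nonneg J),
        ENNReal.ofReal_lt_ofReal_iff_of_nonneg (NNReal.coe_nonneg _)]
      exact_mod_cast hJ))
  set s : ℝ := (1 / 2) ^ j with hs'
  have s0 : 0 < s := by positivity
  have s1 : s ≤ 1 := pow_le_one₀ (by norm_num) (by norm_num)
  have H : ∀ u ∈ sphere x₀ (3 / 4 * s), ∀ v ∈ sphere x₀ (3 / 4 * s), dist v u ≤ s / 10 →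
      dist (h.toFun v) (h.toFun u) ≤ ω / 60 := fun u hu v _ huv => by
    have hb : closedBall u ((1 + 1) * (s / 10)) ⊆ shell x₀ j := fun z hz => by
      rw [mem_closedBall] at hz
      rw [mem_sphere] at hu
      refine ⟨mem_ball.2 ?_, fun hz' => ?_⟩
      · linarith [dist_triangle z u x₀]
      · rw [mem_closedBall, pow_succ] at hz'
        linarith [dist_triangle_left u x₀ z]
    have hb' : shell x₀ j ⊆ Ω := fun z hz =>
      hs (mem_closedBall.2 ((mem_ball.1 hz.1).le.trans s1))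
    have h3 := hC hM (by positivity : 0 < s / 10) (hb.trans hb') u
      (mem_closedBall_self (by positivity)) v huv
    have h4 : ENNReal.ofReal ((s / 10) ^ (p - 3)) ≤ 1 := ENNReal.ofReal_le_one.2
      (Real.rpow_le_one (by positivity) (by linarith) (by linarith))
    have h5 := h3.trans
      ((mul_le_mul' (mul_le_of_le_one_right' h4) (lintegral_mono_set hb)).trans h2)
    rw [ENNReal.rpow_le_rpow_iff (by linarith)] at h5
    exact (edist_le_ofReal hδ.le).1 h5
  have t0 : 0 < 3 / 4 * s := by positivity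
  have h6 := sph t0 (by linarith) H
  have h7 := (An.maxp h.cont hM.opn (isCompact_closedBall x₀ (3 / 4 * s))
    ((closedBall_subset_closedBall (by linarith)).trans hs)).2
    (closedBall (h.toFun fun k => x₀ k + 3 / 4 * s) (30 * (ω / 60))) (convex_closedBall _ _)
    isClosed_closedBall (by
      rw [frontier_closedBall x₀ t0.ne']
      rintro _ ⟨y, hy, rfl⟩
      exact h6 y hy)
  have hd : (1 / 2 : ℝ) ^ (J + 1) ≤ 3 / 4 * s := by
    have : (1 / 2 : ℝ) ^ J ≤ s := pow_le_pow_of_le_one (by norm_num) (by norm_num) hj.le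
    rw [pow_succ]
    linarith
  have a := h7 ⟨x, closedBall_subset_closedBall hd hx, rfl⟩
  have b := h7 ⟨x₀, mem_closedBall_self t0.le, rfl⟩
  rw [mem_closedBall] at a b
  linarith [dist_triangle_right (h.toFun x) (h.toFun x₀) (h.toFun fun k => x₀ k + 3 / 4 * s)]

end P073.B
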