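import Vale.Agent.P073Y.B.Defs
import Vale.Agent.P073Y.Pw.Cube

/-!
# The cube trick with regions which are far apart
-/

open Set Metric Topology Filter MeasureTheory
open scoped NNReal ENNReal

namespace P073.B

open P073.Top P073.Zn P073.Pw

namespace Cb

theorem ne {ℓ : E3 →ᵃ[ℝ] ℝ} (h : ℓ.linear ≠ 0) : {u | ℓ u = 0}.Nonempty := by
  obtain ⟨v, hv⟩ : ∃ v, ℓ.linear v ≠ 0 := by
    by_contra hc
    push Not at hc
    exact h (LinearMap.ext hc)
  refine ⟨(-(ℓ 0) / ℓ.linear v) • v, ?_⟩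
  have := ℓ.map_vadd 0 ((-(ℓ 0) / ℓ.linear v) • v)
  rw [vadd_eq_add, vadd_eq_add, map_smul, smul_eq_mul, add_zero, div_mul_cancel₀ _ hv] at this
  rw [mem_ofPred_eq, this, neg_add_cancel]

theorem le_pd {ℓ : E3 →ᵃ[ℝ] ℝ} (h : ℓ.linear ≠ 0) {c : E3} {r : ℝ}
    (hc : ∀ z ∈ closedBall c r, ℓ z ≠ 0) : r ≤ pd ℓ c :=
  (le_infDist (ne h)).2 fun z hz => by
    by_contra h1
    exact hc z (mem_closedBall'.2 (not_le.1 h1).le) hz

theorem pd_le (ℓ : E3 →ᵃ[ℝ] ℝ) (x y : E3) : pd ℓ x ≤ pd ℓ y + dist x y :=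
  infDist_le_infDist_add_dist

theorem avoid (L : Finset (E3 →ᵃ[ℝ] ℝ)) (hL : ∀ ℓ ∈ L, ℓ.linear ≠ 0) (x : E3) (e : ℝ)
    (he : 0 < e) : ∃ c ∈ closedBall x e, closedBall c ((1 / 4) ^ L.card * e) ⊆ closedBall x e ∧
      ∀ ℓ ∈ L, ∀ z ∈ closedBall c ((1 / 4) ^ L.card * e), ℓ z ≠ 0 := by
  classical
  induction L using Finset.induction_on generalizing x e with
  | empty =>
    exact ⟨x, mem_closedBall_self he.le, by simp, fun ℓ h => absurd h (Finset.notMem_empty _)⟩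
  | insert ℓ₀ L h0 ih =>
    obtain ⟨x₁, h1, h2⟩ := exists_far (hL ℓ₀ (Finset.mem_insert_self _ _)) x (half_pos he)
    obtain ⟨c, h3, h4, h5⟩ := ih (fun ℓ h => hL ℓ (Finset.mem_insert_of_mem h)) x₁ (e / 4)
      (by positivity)
    have hsub : closedBall x₁ (e / 4) ⊆ closedBall x e :=
      closedBall_subset_closedBall' (by rw [mem_closedBall] at h1; linarith)
    rw [Finset.card_insert_of_notMem h0,
      show (1 / 4 : ℝ) ^ (L.card + 1) * e = (1 / 4) ^ L.card * (e / 4) by ring]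
    refine ⟨c, hsub h3, h4.trans hsub, fun ℓ h z hz => ?_⟩
    rcases Finset.mem_insert.1 h with rfl | h
    · exact h2 z (closedBall_subset_closedBall (by linarith) (h4 hz))
    · exact h5 ℓ h z hz

/-- pigeonhole for sets of bounded overlap -/
theorem pigeon {α ι : Type} [Fintype ι] (A : ℕ → Set α) (m : ι → α → ℝ≥0∞) (κ : ℝ≥0)
    (n D k : ℕ) (hn : Fintype.card ι ≤ n) (hk : κ * D ≤ k)
    (hA : ∀ φ (s : Finset ℕ), (∀ j ∈ s, j ≤ n * k ∧ φ ∈ A j) → s.card ≤ D) :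
    ∃ j ≤ n * k, ∀ i, κ * tot (A j) (m i) ≤ tot univ (m i) := by
  classical
  have sum : ∀ i (s : Finset ℕ), (∀ j ∈ s, j ≤ n * k) →
      ∑ j ∈ s, tot (A j) (m i) ≤ D * tot univ (m i) := fun i s hs => by
    simp only [tot, indicator_univ]
    rw [← Summable.tsum_finsetSum (fun _ _ => ENNReal.summable), ← ENNReal.tsum_mul_left]
    refine ENNReal.tsum_le_tsum fun φ => ?_
    simp only [indicator_apply]
    rw [← Finset.sum_filter, Finset.sum_const, nsmul_eq_mul]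
    gcongr
    exact hA φ _ fun j hj => ⟨hs j (Finset.mem_filter.1 hj).1, (Finset.mem_filter.1 hj).2⟩
  obtain ⟨B, hB⟩ : ∃ B : ι → Finset ℕ, B = fun i => (Finset.range (n * k + 1)).filter
    fun j => tot univ (m i) < κ * tot (A j) (m i) := ⟨_, rfl⟩
  have mem : ∀ i j, j ∈ B i ↔ j ≤ n * k ∧ tot univ (m i) < κ * tot (A j) (m i) := fun i j => by
    simp [hB]
  have card : ∀ i, (B i).card ≤ k := fun i => by
    rcases (B i).eq_empty_or_nonempty with h | ⟨j, hj⟩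
    · simp [h]
    have h1 := ((mem i j).1 hj).2
    have t0 : tot univ (m i) ≠ 0 := fun h0 => by
      have := sum i {j} (by simpa using ((mem i j).1 hj).1)
      rw [Finset.sum_singleton, h0, mul_zero, nonpos_iff_eq_zero] at this
      rw [this, mul_zero] at h1
      exact absurd h1 not_lt_zero
    have h2 : ((B i).card : ℝ≥0∞) * tot univ (m i) ≤ k * tot univ (m i) := by
      calc _ = ∑ _j ∈ B i, tot univ (m i) := by rw [Finset.sum_const, nsmul_eq_mul]
        _ ≤ ∑ j ∈ B i, κ * tot (A j) (m i) := Finset.sum_le_sum fun j hj => ((mem i j).1 hj).2.le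
        _ ≤ κ * (D * tot univ (m i)) := by
          rw [← Finset.mul_sum]
          gcongr
          exact sum i _ fun j hj => ((mem i j).1 hj).1
        _ ≤ _ := by
          rw [← mul_assoc]
          gcongr
          exact_mod_cast hk
    exact_mod_cast (ENNReal.mul_le_mul_iff_left t0 h1.ne_top).1 h2
  have lt : (Finset.univ.biUnion B).card < (Finset.range (n * k + 1)).card := by
    rw [Finset.card_range, Nat.lt_succ_iff]
    refine Finset.card_biUnion_le.trans ((Finset.sum_le_card_nsmul _ _ _ fun i _ => card i).trans ?_)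
    rw [smul_eq_mul]
    exact Nat.mul_le_mul_right _ hn
  obtain ⟨j, h1, h2⟩ := Finset.exists_mem_notMem_of_card_lt_card lt
  have h3 : j ≤ n * k := Nat.lt_succ_iff.1 (Finset.mem_range.1 h1)
  refine ⟨j, h3, fun i => not_lt.1 fun h => h2 ?_⟩
  exact Finset.mem_biUnion.2 ⟨i, Finset.mem_univ _, (mem i j).2 ⟨h3, h⟩⟩

end Cb

open Cb in
theorem cube2 : CUBE2 := by
  refine ⟨fun n => ⟨(1 / 4) ^ n / 40, by positivity, ?_, ?_⟩, fun L e₀ n κ he => ?_⟩
  · have : (1 / 4 : ℝ) ^ n ≤ 1 := pow_le_one₀ (by norm_num) (by norm_num)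
    linarith
  · rintro L hn hL x e he ⟨ℓ₀, h0, hx⟩
    obtain ⟨x₁, h1, h2⟩ := exists_far (hL ℓ₀ h0) x (r := e / 6) (by positivity)
    obtain ⟨c, h3, -, h5⟩ := avoid L hL x₁ (e / 40) (by positivity)
    have h6 := le_pd (hL ℓ₀ h0) h2
    rw [mem_closedBall] at h1 h3
    have h7 := dist_triangle c x₁ x
    refine ⟨c, by linarith, fun y hy => ⟨ℓ₀, h0, ?_, ?_⟩, fun ℓ h => ?_⟩
    · rw [mem_closedBall] at hy
      linarith [pd_le ℓ₀ x₁ y, dist_triangle_right x₁ y c, dist_comm x₁ c]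
    · rw [mem_closedBall] at hy
      linarith [pd_le ℓ₀ y x, dist_triangle y c x]
    · refine le_trans ?_ (le_pd (hL ℓ h) (h5 ℓ h))
      have : (1 / 4 : ℝ) ^ n ≤ (1 / 4) ^ L.card :=
        pow_le_pow_of_le_one (by norm_num) (by norm_num) hn
      nlinarith
  · classical
    obtain ⟨k, hk⟩ := exists_nat_ge (κ * L.card)
    obtain ⟨o, ho⟩ : ∃ o, o = e₀ / 1024 ^ (n * k) / 1000 := ⟨_, rfl⟩
    have o0 : 0 < o := by rw [ho]; positivity
    refine ⟨n * k, o, o0, fun X m hn hX => pigeon _ m κ n L.card k hn hk fun φ s hs => ?_⟩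
    have ex : ∀ j ∈ s, ∃ ℓ ∈ L, ∃ y ∈ X φ, e₀ / 1024 ^ j / 32 - 2 * o ≤ pd ℓ y ∧
        pd ℓ y ≤ 8 * (e₀ / 1024 ^ j) + 2 * o := fun j hj => by
      obtain ⟨y, h1, h2⟩ := (hs j hj).2
      obtain ⟨z, ⟨ℓ, h3, h4, h5⟩, h6⟩ := mem_thickening_iff.1
        (cthickening_subset_thickening' (δ₂ := 2 * o) (by linarith) (by linarith) _ h2)
      exact ⟨ℓ, h3, y, h1, by linarith [pd_le ℓ z y, dist_comm y z], by linarith [pd_le ℓ y z]⟩
    choose! f f1 y y1 y2 y3 using ex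
    have key : ∀ j ∈ s, ∀ j' ∈ s, f j = f j' → ¬ j < j' := fun j hj j' hj' e lt => by
      have a1 : e₀ / 1024 ^ j' ≤ e₀ / 1024 ^ (j + 1) :=
        div_le_div_of_nonneg_left he.le (by positivity) (pow_le_pow_right₀ (by norm_num) lt)
      have a2 : e₀ / 1024 ^ (n * k) ≤ e₀ / 1024 ^ j :=
        div_le_div_of_nonneg_left he.le (by positivity)
          (pow_le_pow_right₀ (by norm_num) (hs j hj).1)
      rw [pow_succ, ← div_div] at a1
      have a3 := y3 j' hj'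
      rw [← e] at a3
      linarith [y2 j hj, pd_le (f j) (y j) (y j'), hX φ _ (y1 j hj) _ (y1 j' hj')]
    exact Finset.card_le_card_of_injOn f (fun j hj => f1 j hj) fun j hj j' hj' e =>
      le_antisymm (not_lt.1 (key j' hj' j hj e.symm)) (not_lt.1 (key j hj j' hj' e))

end P073.B
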