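import Vale.Agent.P073Y.B.Defs
import Vale.Agent.P073Z.RCX

/-!
# Affine maps on a cell are controlled by the wires
-/

open Set Metric Topology Filter MeasureTheory
open scoped NNReal ENNReal

namespace P073.B

open P073.Top

namespace Af

/-- a ray which is parallel to a compact set meets its relative boundary -/
theorem ray {C : Set E3} (hC : IsCompact C) {x v : E3} (hx : x ∈ C) (hv : v ∈ vectorSpan ℝ C)
    (h0 : v ≠ 0) : ∃ s : ℝ, 0 ≤ s ∧ s • v + x ∈ intrinsicFrontier ℝ C := by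
  have hn : 0 < ‖v‖ := norm_pos_iff.2 h0
  have hT : IsCompact ((fun s : ℝ => s • v + x) ⁻¹' C) := by
    obtain ⟨R, hR⟩ := hC.isBounded.subset_closedBall x
    refine (isCompact_Icc (a := -(R / ‖v‖)) (b := R / ‖v‖)).of_isClosed_subset
      (hC.isClosed.preimage (by fun_prop)) fun s hs => ?_
    have := hR hs
    rw [mem_closedBall, dist_eq_norm, add_sub_cancel_right, norm_smul, Real.norm_eq_abs] at this
    exact abs_le.1 ((le_div_iff₀ hn).2 this)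
  have h1 : (0 : ℝ) ∈ (fun s : ℝ => s • v + x) ⁻¹' C := by simpa using hx
  obtain ⟨s, hs, hm⟩ := hT.exists_isMaxOn ⟨0, h1⟩ continuousOn_id
  refine ⟨s, hm h1, ?_⟩
  by_contra hb
  have hi : s • v + x ∈ intrinsicInterior ℝ C := by
    rw [← intrinsicClosure_sdiff_intrinsicFrontier]
    exact ⟨subset_intrinsicClosure hs, hb⟩
  obtain ⟨y, hy, e⟩ := mem_intrinsicInterior.1 hi
  obtain ⟨r, hr, H⟩ := Metric.mem_nhds_iff.1 (mem_interior_iff_mem_nhds.1 hy)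
  have hp : 0 < r / (2 * ‖v‖) := by positivity
  have h2 : (s + r / (2 * ‖v‖)) • v + x ∈ affineSpan ℝ C :=
    AffineSubspace.vadd_mem_of_mem_direction
      (by rw [direction_affineSpan]; exact Submodule.smul_mem _ _ hv) (subset_affineSpan ℝ C hx)
  have h3 : (s + r / (2 * ‖v‖)) • v + x ∈ C := by
    refine H (a := ⟨_, h2⟩) ?_
    rw [mem_ball, Subtype.dist_eq, e, dist_eq_norm]
    have : (s + r / (2 * ‖v‖)) • v + x - (s • v + x) = (r / (2 * ‖v‖)) • v := by module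
    rw [this, norm_smul, Real.norm_of_nonneg hp.le]
    have : r / (2 * ‖v‖) * ‖v‖ = r / 2 := by field_simp
    linarith
  have h4 : s + r / (2 * ‖v‖) ≤ s := hm h3
  linarith

/-- all values of an affine function on a cell are taken on its wires and vertices -/
theorem lev (K : RCx E3) (hK : K.Cvx) (ℓ : E3 →ᵃ[ℝ] ℝ) (c : K.ι) : ∀ x ∈ K.cell c,
    ∃ e, K.dim e ≤ 1 ∧ K.cell e ⊆ K.cell c ∧ ∃ y ∈ K.cell e, ℓ y = ℓ x := by
  induction hn : K.dim c using Nat.strong_induction_on generalizing c with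
  | _ n ih =>
  intro x hx
  by_cases h1 : K.dim c ≤ 1
  · exact ⟨c, h1, Subset.rfl, x, hx, rfl⟩
  obtain ⟨-, hb, hd⟩ := hK c
  have h2 : LinearMap.ker (ℓ.linear.domRestrict (vectorSpan ℝ (K.cell c))) ≠ ⊥ :=
    LinearMap.ker_ne_bot_of_finrank_lt (by
      rw [Module.finrank_self]; exact (not_le.1 h1).trans_eq hd)
  obtain ⟨v, hv, h0⟩ := Submodule.exists_mem_ne_zero_of_ne_bot h2
  obtain ⟨s, -, hs⟩ := ray (K.isCompact_cell c) hx v.2 (fun h => h0 (Subtype.ext h))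
  obtain ⟨j, h3, h4, h5⟩ := K.bdry c _ (hb ▸ hs)
  obtain ⟨e, h6, h7, y, h8, h9⟩ := ih _ (hn ▸ h5) j rfl _ h3.1
  refine ⟨e, h6, h7.trans (h4.trans (K.bd_subset c)), y, h8, h9.trans ?_⟩
  have h10 : ℓ (s • (v : E3) + x) = ℓ.linear (s • (v : E3)) + ℓ x := ℓ.map_vadd x _
  have h11 : ℓ.linear v = 0 := hv
  rw [h10, map_smul, h11, smul_zero, zero_add]

theorem edist_le (g : E3 → E3) {X : Set E3} {u w : E3} (hu : u ∈ X) (hw : w ∈ X) :
    edist (g u) (g w) ≤ lipc g X * edist u w := by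
  rcases eq_or_ne u w with rfl | h
  · simp
  · exact (ENNReal.div_le_iff (edist_pos.2 h).ne' (edist_ne_top u w)).1
      (le_iSup₂_of_le u hu (le_iSup₂_of_le w hw le_rfl))

/-- the oscillation on a cell -/
theorem osc {Ω : Set E3} (S : Src Ω) {g : E3 → E3} {c : S.Q.ι} (A : E3 →ᵃ[ℝ] E3)
    (hA : EqOn g A (S.Q.cell c)) {d : ℝ≥0∞}
    (hd : ∀ x ∈ S.Q.cell c, ∀ y ∈ S.Q.cell c, edist x y ≤ d) :
    ∀ x ∈ S.Q.cell c, ∀ y ∈ S.Q.cell c, edist (g x) (g y) ≤ S.A g c * d := by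
  classical
  intro x hx y hy
  refine edist_pi_le_iff.2 fun i => ?_
  have := S.Q.countable
  let ℓ : E3 →ᵃ[ℝ] ℝ := (AffineMap.proj i).comp A
  have e : ∀ u ∈ S.Q.cell c, g u i = ℓ u := fun u hu => by rw [hA hu]; rfl
  have h1 : uIcc (ℓ y) (ℓ x) ⊆ ⋃ e, ℓ '' {u ∈ S.Q.cell e | S.Q.dim e ≤ 1 ∧
      S.Q.cell e ⊆ S.Q.cell c} := by
    refine (((S.cvx c).1.affine_image ℓ).ordConnected.uIcc_subset ⟨y, hy, rfl⟩
      ⟨x, hx, rfl⟩).trans ?_
    rintro _ ⟨u, hu, rfl⟩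
    obtain ⟨e, h1, h2, w, h3, h4⟩ := lev S.Q S.cvx ℓ c u hu
    exact mem_iUnion.2 ⟨e, w, ⟨h3, h1, h2⟩, h4⟩
  rw [e x hx, e y hy, edist_dist, Real.dist_eq, ← Real.volume_interval, Src.A,
    ← ENNReal.tsum_mul_right]
  refine (measure_mono h1).trans ((measure_iUnion_le _).trans (ENNReal.tsum_le_tsum fun j => ?_))
  refine (Real.volume_le_diam _).trans (ediam_le ?_)
  rintro _ ⟨u, ⟨hu, h2, h3⟩, rfl⟩ _ ⟨w, ⟨hw, -⟩, rfl⟩
  by_cases h4 : S.Q.dim j = 1
  · rw [if_pos ⟨h4, h3⟩, ← e u (h3 hu), ← e w (h3 hw)]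
    exact (edist_le_pi_edist _ _ i).trans ((edist_le g hu hw).trans
      (mul_le_mul_right (hd u (h3 hu) w (h3 hw)) _))
  · obtain ⟨a, ha⟩ := S.Q.exists_vertex (i := j) (by omega)
    rw [ha] at hu hw
    rw [hu, hw, edist_self]
    exact zero_le

end Af

theorem affa : AFFA := by
  refine ⟨fun M => 2 * M ^ 2, ?_⟩
  rintro Ω S g c hc ⟨A, hA⟩
  obtain ⟨-, φ, hφ, l₁, l₂⟩ := S.chart c hc
  have hr : (0 : ℝ) < S.r c := S.r_pos c
  have hM : (1 : ℝ) ≤ S.M c := S.M_ge c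
  have hd : ∀ x ∈ S.Q.cell c, ∀ y ∈ S.Q.cell c,
      edist x y ≤ ENNReal.ofReal (2 * (S.M c * S.r c)) := fun x hx y hy => by
    have h1 := l₂.dist_le_mul _ (φ.mapsTo hx) _ (φ.mapsTo hy)
    rw [φ.left_inv hx, φ.left_inv hy] at h1
    have h2 := dist_triangle_right (φ.toFun x) (φ.toFun y) 0
    have h3 := mem_closedBall.1 (φ.mapsTo hx)
    have h4 := mem_closedBall.1 (φ.mapsTo hy)
    rw [edist_dist]
    refine ENNReal.ofReal_le_ofReal (h1.trans ?_)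
    push_cast
    nlinarith [mul_pos (one_pos.trans_le hM) hr]
  have ho := Af.osc S A hA hd
  have h0 : (0 : Fin (S.Q.dim c) → ℝ) ∈ closedBall 0 1 := mem_closedBall_self zero_le_one
  have hx₀ := φ.mapsTo_inv h0
  refine iSup₂_le fun x hx => iSup₂_le fun y hy => ENNReal.div_le_of_le_mul ?_
  rcases eq_or_ne x y with rfl | hne
  · simp
  obtain ⟨s, hs, hb⟩ := Af.ray (S.Q.isCompact_cell c) hx₀ (vsub_mem_vectorSpan ℝ hx hy)
    (sub_ne_zero.2 hne)
  rw [← (S.cvx c).2.1] at hb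
  have hb' := S.Q.bd_subset c hb
  have h1 := l₁.dist_le_mul _ hb' _ hx₀
  have h2 : φ.toFun (s • (x -ᵥ y) + φ.invFun 0) ∈ sphere 0 1 := hφ ▸ mem_image_of_mem _ hb
  rw [φ.right_inv h0, mem_sphere.1 h2, dist_eq_norm, add_sub_cancel_right, norm_smul,
    Real.norm_of_nonneg hs, vsub_eq_sub, ← dist_eq_norm] at h1
  have h3 : dist (g (s • (x -ᵥ y) + φ.invFun 0)) (g (φ.invFun 0)) = s * dist (g x) (g y) := by
    rw [hA hb', hA hx₀, hA hx, hA hy]
    have e1 : A (s • (x -ᵥ y) + φ.invFun 0) = A.linear (s • (x -ᵥ y)) + A (φ.invFun 0) :=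
      A.map_vadd _ _
    rw [e1, map_smul, A.linearMap_vsub, dist_eq_norm, add_sub_cancel_right, norm_smul,
      Real.norm_of_nonneg hs, vsub_eq_sub, ← dist_eq_norm]
  have h4 := ho _ hb' _ hx₀
  rcases eq_or_ne (S.A g c) ⊤ with ht | ht
  · have hM0 : S.M c ≠ 0 := (zero_lt_one.trans_le (S.M_ge c)).ne'
    rw [ht, ENNReal.mul_top (by simpa using hM0), ENNReal.top_mul (edist_pos.2 hne).ne']
    exact le_top
  lift S.A g c to ℝ≥0 using ht with a ha
  rw [edist_dist, h3, ← ENNReal.ofReal_coe_nnreal, ← ENNReal.ofReal_mul (NNReal.coe_nonneg _),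
    ENNReal.ofReal_le_ofReal_iff (by positivity)] at h4
  rw [edist_dist, edist_dist, ← ENNReal.coe_mul, ← ENNReal.ofReal_coe_nnreal,
    ← ENNReal.ofReal_mul (NNReal.coe_nonneg _)]
  refine ENNReal.ofReal_le_ofReal ?_
  push_cast at h1 ⊢
  rw [div_mul_eq_mul_div, le_div_iff₀ hr, one_mul] at h1
  have h5 : (0 : ℝ) ≤ dist (g x) (g y) := dist_nonneg
  have h6 : (0 : ℝ) ≤ S.M c * dist x y := by positivity
  refine le_of_mul_le_mul_left ?_ hr
  calc S.r c * dist (g x) (g y) ≤ S.M c * (s * dist x y) * dist (g x) (g y) :=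
        mul_le_mul_of_nonneg_right h1 h5
    _ = S.M c * dist x y * (s * dist (g x) (g y)) := by ring
    _ ≤ S.M c * dist x y * (a * (2 * (S.M c * S.r c))) := mul_le_mul_of_nonneg_left h4 h6
    _ = _ := by ring

end P073.B
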