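import Vale.Agent.P073Y.B.Defs
import Vale.Agent.P073Y.An2.Hole

/-!
# The vertical push in a finite family of lattice boxes
-/

open Set Metric Topology Filter
open scoped NNReal

namespace P073.B

open P073.Top P073.An2

theorem push3 : PUSH3 := by
  refine ⟨12801, by norm_num, fun N t q Bp hN ht ht' hq hq' hB => ?_⟩
  have hN' : (1:ℝ) ≤ N := by exact_mod_cast hN
  have w2 : ∀ z : Z3, crn N z 2 = z 2 := fun z => mul_one _
  have hz : ∀ z : Z3, Zp (crn N z 2) (1 / 1600) (z 2 + q - t) (z 2 + q + t) := fun z => by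
    rw [w2]
    exact ⟨by norm_num, by linarith, by linarith, by linarith⟩
  choose Θ hΘ using fun z => exists_push N (hz z)
  have out : ∀ z y, y ∉ obox N (crn N z) → (Θ z).toFun y = y := fun z y hy => by
    rw [hΘ, pf_out (hz z) hy]
  have lip : ∀ z y y', ‖(Θ z).toFun y - (Θ z).toFun y'‖ ≤ 6400 * ‖vst N t (y - y')‖ :=
    fun z y y' => by
    rw [hΘ, hΘ]
    refine (pf_Dn hN' ht ht' (hz z) (by linarith) y y').trans ?_
    have := Dn_le_vst hN ht (y - y')
    rw [show (N:ℝ) / (1 / 1600) * ‖Dn N t (y - y')‖ = 1600 * (N * ‖Dn N t (y - y')‖) by ring]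
    linarith
  obtain ⟨Φ, e1, e2⟩ := ACC.patch hB.toFinset Θ (fun z => obox N (crn N z))
    (fun z _ z' _ h => disjoint_left.2 fun y h1 h2 => h (eq_of_mem h1 (obox_subset h2)))
    fun z _ => out z
  simp only [Finite.mem_toFinset] at e1 e2
  have m1 : ∀ z ∈ Bp, ∀ y ∈ obox N (crn N z), Φ.toFun y ∈ obox N (crn N z) := fun z hz y hy =>
    e1 z hz hy ▸ ACC.mapsTo_of_id (injOn_univ.1 (Θ z).injOn) (out z) hy
  have m2 : ∀ y, (∃ z ∈ Bp, y ∈ obox N (crn N z)) ∨ ∀ z ∈ Bp, y ∉ obox N (crn N z) := fun y => by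
    simpa only [not_exists, not_and] using em (∃ z ∈ Bp, y ∈ obox N (crn N z))
  have m3 : ∀ z y, Φ.toFun y ∈ lbox N 0 z ↔ y ∈ lbox N 0 z := fun z y => by
    rcases m2 y with ⟨z', hz', h⟩ | h
    · exact ⟨fun h' => eq_of_mem (m1 z' hz' y h) h' ▸ obox_subset h,
        fun h' => eq_of_mem h h' ▸ obox_subset (m1 z' hz' y h)⟩
    · rw [e2 y h]
  have m4 : ∀ z ∈ Bp, ∀ y ∈ lbox N 0 z, Φ.toFun y = (Θ z).toFun y := fun z hz y hy => by
    rcases m2 y with ⟨z', hz', h⟩ | h
    · obtain rfl := eq_of_mem h hy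
      exact e1 z' hz' h
    · rw [e2 y h, out z y (h z hz)]
  refine ⟨Φ, fun y hy => e2 y fun z hz h => hy ?_, fun z => ?_, fun y i hi => ?_,
    fun y y' => ?_, fun z hb y hy hl => ?_⟩
  · exact interior_maximal (obox_subset.trans (subset_biUnion_of_mem (u := lbox N 0) hz))
      (isOpen_obox _ _) h
  · refine Subset.antisymm (image_subset_iff.2 fun y hy => (m3 z y).2 hy) fun w hw => ?_
    exact ⟨Φ.invFun w, (m3 z _).1 (by rwa [Φ.right_inv (mem_univ w)]), Φ.right_inv (mem_univ w)⟩
  · rcases m2 y with ⟨z, hz, h⟩ | h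
    · rw [e1 z hz h, hΘ, pf, Function.update_of_ne hi]
    · rw [e2 y h]
  · rw [dist_eq_norm, dist_eq_norm, vst_sub]
    have h0 := norm_le_vst hN ht ht' (y - y')
    have n0 := norm_nonneg (vst N t (y - y'))
    push_cast
    rcases m2 y with ⟨z, hz, h⟩ | h <;> rcases m2 y' with ⟨z', hz', h'⟩ | h'
    · by_cases e : z = z'
      · subst e
        rw [e1 z hz h, e1 z hz h']
        linarith [lip z y y']
      · have a1 := lip z y y'
        have a2 := lip z' y y'
        rw [out z y' fun k => e (eq_of_mem k (obox_subset h'))] at a1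
        rw [out z' y fun k => e (eq_of_mem h (obox_subset k))] at a2
        rw [e1 z hz h, e1 z' hz' h', show (Θ z).toFun y - (Θ z').toFun y' =
          ((Θ z).toFun y - y') + (y - (Θ z').toFun y') - (y - y') by abel]
        linarith [norm_sub_le (((Θ z).toFun y - y') + (y - (Θ z').toFun y')) (y - y'),
          norm_add_le ((Θ z).toFun y - y') (y - (Θ z').toFun y')]
    · rw [e1 z hz h, e2 y' h', ← out z y' (h' z hz), out z y' (h' z hz)]
      have a1 := lip z y y'
      rw [out z y' (h' z hz)] at a1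
      linarith
    · have a1 := lip z' y y'
      rw [out z' y (h z' hz')] at a1
      rw [e1 z' hz' h', e2 y h]
      linarith
    · rw [e2 y h, e2 y' h']
      linarith
  · have l0 := hl 0 (by decide)
    have l1 := hl 1 (by decide)
    have w0 : wd N 0 = N := rfl
    have w1 : wd N 1 = N := rfl
    have hd : 1 / 1600 ≤ ld N (crn N z) y := by
      simp only [ld, crn, w0, w1, add_mul, one_mul] at l0 l1 ⊢
      exact le_min (le_min (by linarith [l0.1]) (by linarith [l0.2]))
        (le_min (by linarith [l1.1]) (by linarith [l1.2]))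
    have hm := (hz z).strictMono.monotone
    have t2 : z 2 + q + t - (z 2 + q - t) = 2 * t := by ring
    rw [m4 z hb y hy, hΘ, pf_two_of_le (hz z) hd]
    refine ⟨fun h => (hm h).trans_eq ?_, fun h => le_trans (le_of_eq ?_) (hm h), fun h => ?_⟩
    · rw [(hz z).of_mid le_rfl (by linarith), w2]
      ring
    · rw [(hz z).of_mid (by linarith) le_rfl, w2, t2]
      field_simp
      ring
    · rw [abs_le] at h
      rw [(hz z).of_mid (by linarith [h.1]) (by linarith [h.2]), w2, t2]
      field_simp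
      ring

end P073.B
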