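import Vale.Agent.P073Y.B.R1Step

/-!
# The geometry of a round with a constant oscillation bound
-/

open Set Metric Topology Filter
open scoped NNReal

namespace P073.B

open P073.Top P073.Rd

namespace R1

variable {Ω Λ : Set E3} {K C : ℝ≥0} {St : StT Ω Λ} {N : ℕ} {B : Set Z3} {o₁ o₂ o₃ : ℝ}
  {g g₁ g₂ g₃ : ConHomeo Ω Λ} {Ψ₁ Ψ₂ Ψ₃ : E3 → E3}

theorem sub_ubox (hN : 1 ≤ N) {d : ℕ} {a b : ℝ} {w : Z3} (hw : w ∈ sites B d) (ha : a ≤ 1 / 2)
    (hb : 1 / 100 ≤ b) : cube (wd N) a b w ⊆ interior (ubox N 0 (nbr 1 B)) := fun _ h =>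
  mem_interior_site (one_le_wd hN) hw ha hb h

theorem notin (hN : 1 ≤ N) {d : ℕ} {a b : ℝ} {y : E3} (hd : d ≤ 2) (ha : a ≤ 11 / 100)
    (hb : 1 / 100 ≤ b) (hy : y ∉ interior (ubox N 0 (nbr 1 B)) ∨
      ∀ (i : Fin 3) (n : ℤ), 11 / 100 < |y i - n * wd N i|) :
    ∀ w ∈ sites B d, y ∉ cube (wd N) a b w := by
  intro w hw h
  rcases hy with hy | hy
  · exact hy (sub_ubox hN hw (by linarith) hb h)
  · obtain ⟨k, p⟩ : ∃ k, ¬ Odd (w k) := by
      by_contra hc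
      push Not at hc
      have e : dirs w = Finset.univ := Finset.eq_univ_of_forall fun k => mem_dirs.2 (hc k)
      have := hw.1
      rw [e, Finset.card_univ, Fintype.card_fin] at this
      omega
    obtain ⟨n, -, c⟩ := even_ctr (ℓ := wd N) p
    have e := h k
    simp only [rad, if_neg p, c] at e
    linarith [hy k n]

section
variable (hN : 1 ≤ N)
  (P1 : Rd.PS K C St (wd N) (2 / 100) (4 / 100) (2 / 100 + 1 / 200) (4 / 100 - 1 / 200)
    (sites B 2) (fun _ => o₁) g g₁ Ψ₁)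
  (P2 : Rd.PS K C St (wd N) (5 / 100) (8 / 100) (5 / 100 + 1 / 100) (8 / 100 - 1 / 100)
    (sites B 1) (fun _ => o₂) g₁ g₂ Ψ₂)
  (P3 : Rd.PS K C St (wd N) (9 / 100) (14 / 100) (9 / 100 + 2 / 100) (14 / 100 - 2 / 100)
    (sites B 0) (fun _ => o₃) g₂ g₃ Ψ₃)

include hN P1 P2 P3

theorem col : Col N (1 / 200) (nbr 1 B) ((C + 25) ^ 3) fun y => Ψ₃ (Ψ₂ (Ψ₁ y)) := by
  have hℓ := one_le_wd hN
  have hC25 : (0:ℝ) ≤ C + 25 := by positivity
  refine ⟨?_, ?_, ?_, ?_, ?_⟩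
  · refine LipschitzWith.of_dist_le_mul fun y y' => ?_
    have a1 := P1.lip y y'
    have a2 := P2.lip (Ψ₁ y) (Ψ₁ y')
    have a3 := P3.lip (Ψ₂ (Ψ₁ y)) (Ψ₂ (Ψ₁ y'))
    have b2 := mul_le_mul_of_nonneg_left a1 hC25
    have b3 := mul_le_mul_of_nonneg_left (a2.trans b2) hC25
    push_cast
    linarith
  · intro y hy
    rw [P1.fix y (notin hN (by norm_num) (by norm_num) (by norm_num) (Or.inl hy)),
      P2.fix y (notin hN (by norm_num) (by norm_num) (by norm_num) (Or.inl hy)),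
      P3.fix y (notin hN (by norm_num) (by norm_num) (by norm_num) (Or.inl hy))]
  · intro z y hy
    exact P3.mv.keep hℓ (by norm_num) (P2.mv.keep hℓ (by norm_num)
      (P1.mv.keep hℓ (by norm_num) hy))
  · intro z y y' hy hy'
    simp only [lbox_eq, interior_box] at hy hy'
    have c2 := P3.mv.back hℓ (by norm_num) hy
    have c2' := P3.mv.back hℓ (by norm_num) hy'
    have c1 := P2.mv.back hℓ (by norm_num) c2
    have c1' := P2.mv.back hℓ (by norm_num) c2'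
    have a3 := P3.inv z _ _ hy hy'
    have a2 := P2.inv z _ _ c2 c2'
    have a1 := P1.inv z _ _ c1 c1'
    have b2 := mul_le_mul_of_nonneg_left a3 hC25
    have b3 := mul_le_mul_of_nonneg_left (a2.trans b2) hC25
    push_cast
    linarith
  · intro z y hy i hi
    have e := hy.2 i hi
    have f : ∀ n : ℤ, 1 / 2 ≤ |y i - n * wd N i| := by
      intro n
      have hl : 0 ≤ wd N i := by linarith [hℓ i]
      rcases le_or_gt n (z i) with h2 | h2
      · have := int_mono hl h2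
        exact le_abs.2 (Or.inl (by linarith [e.1]))
      · have := int_step hl (show z i + 1 ≤ n from h2)
        exact le_abs.2 (Or.inr (by linarith [e.2]))
    have e1 : Ψ₁ y i = y i := P1.mv.fix fun n => lt_of_lt_of_le (by norm_num) (f n)
    have e2 : Ψ₂ (Ψ₁ y) i = Ψ₁ y i := P2.mv.fix fun n => by
      rw [e1]; exact lt_of_lt_of_le (by norm_num) (f n)
    have e3 : Ψ₃ (Ψ₂ (Ψ₁ y)) i = Ψ₂ (Ψ₁ y) i := P3.mv.fix fun n => by
      rw [e2, e1]; exact lt_of_lt_of_le (by norm_num) (f n)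
    rw [e3, e2, e1]

theorem off (x : E3) (hx : x ∈ Ω) (hy : g.toFun x ∉ interior (ubox N 0 (nbr 1 B)) ∨
    ∀ (i : Fin 3) (n : ℤ), 11 / 100 < |g.toFun x i - n * wd N i|) :
    g₁.toFun x = g.toFun x ∧ g₂.toFun x = g.toFun x ∧ g₃.toFun x = g.toFun x := by
  have e1 := P1.off x hx (notin hN (by norm_num) (by norm_num) (by norm_num) hy)
  have e2 := P2.off x hx (by rw [e1]; exact notin hN (by norm_num) (by norm_num) (by norm_num) hy)
  have e3 := P3.off x hx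
    (by rw [e2, e1]; exact notin hN (by norm_num) (by norm_num) (by norm_num) hy)
  exact ⟨e1, e2.trans e1, e3.trans (e2.trans e1)⟩

omit hN in
theorem err {L : ℝ} (hL : (C : ℝ) + 25 ≤ L) (h0 : 0 ≤ o₁) (h2 : o₂ = L * o₁) (h3 : o₃ = L ^ 2 * o₁)
    (x : E3) (hx : x ∈ Ω) :
    dist (g₃.toFun x) (Ψ₃ (Ψ₂ (Ψ₁ (g.toFun x)))) ≤ 3 * (L ^ 2 * (K * o₁)) := by
  have hL0 : 0 ≤ L := le_trans (by positivity) hL
  have e1 := P1.err x hx o₁ h0 fun _ _ _ => le_rfl
  have e2 := P2.err x hx o₂ (by rw [h2]; positivity) fun _ _ _ => le_rfl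
  have e3 := P3.err x hx o₃ (by rw [h3]; positivity) fun _ _ _ => le_rfl
  have a2 := P2.lip (g₁.toFun x) (Ψ₁ (g.toFun x))
  have a3 := P3.lip (g₂.toFun x) (Ψ₂ (Ψ₁ (g.toFun x)))
  have t2 := dist_triangle (g₂.toFun x) (Ψ₂ (g₁.toFun x)) (Ψ₂ (Ψ₁ (g.toFun x)))
  have t3 := dist_triangle (g₃.toFun x) (Ψ₃ (g₂.toFun x)) (Ψ₃ (Ψ₂ (Ψ₁ (g.toFun x))))
  rw [h2] at e2
  rw [h3] at e3
  have b2 : ((C:ℝ) + 25) * dist (g₁.toFun x) (Ψ₁ (g.toFun x)) ≤ L * (K * o₁) :=
    mul_le_mul hL e1 dist_nonneg hL0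
  have b3 : ((C:ℝ) + 25) * dist (g₂.toFun x) (Ψ₂ (Ψ₁ (g.toFun x))) ≤ L * (2 * (L * (K * o₁))) :=
    mul_le_mul hL (by linarith) dist_nonneg hL0
  linarith

theorem flat (hK : 1 ≤ K) (h0 : 0 ≤ o₁) (k1 : K * o₁ ≤ 1 / 1000)
    (core : ∀ w ∈ sites B 2, ∀ y ∈ cube (wd N) (2 / 100) (4 / 100) w, ∀ i, i ∉ dirs w →
      Ψ₁ y i = ctr (wd N) w i) (z : Z3) (hz : z ∈ B ∨ z - Pi.single 2 1 ∈ B) (x : E3) (hx : x ∈ Ω)
    (hc : g.toFun x ∈ shr N (1 / 200) z) :
    |g₁.toFun x 2 - z 2| ≤ K * o₁ ∧ g₂.toFun x = g₁.toFun x ∧ g₃.toFun x = g₁.toFun x := by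
  have hℓ := one_le_wd hN
  let w : Z3 := fun k => if k = 2 then 2 * z k else 2 * z k + 1
  have hodd : ∀ k, k ≠ 2 → Odd (w k) := fun k hk => by
    simp only [w, if_neg hk]; exact odd_two_mul_add_one _
  have hd : dirs w = {0, 1} := by
    ext k
    rw [mem_dirs]
    fin_cases k <;> simp [w]
  have hs : w ∈ sites B 2 := by
    refine ⟨by rw [hd]; rfl, ?_⟩
    rcases hz with hz | hz
    · refine ⟨z, hz, fun k => ?_⟩
      simp only [w]
      split_ifs <;> simp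
    · refine ⟨_, hz, fun k => ?_⟩
      simp only [w]
      by_cases hk : k = 2
      · subst hk
        simp only [Pi.sub_apply, Pi.single_eq_same, if_true]
        rw [abs_le]; omega
      · simp [hk]
  have c2 : ctr (wd N) w 2 = z 2 := by simp [ctr, w, wd]
  have h1 : g.toFun x ∈ cube (wd N) (1 / 100) (1 / 2) w := by
    intro k
    obtain ⟨e1, e2⟩ := hc
    by_cases hk : k = 2
    · subst hk
      have p : ¬ Odd (w 2) := by simp [w]
      simp only [rad, if_neg p, c2]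
      linarith
    · have e := e2 k hk
      simp only [rad, if_pos (hodd k hk)]
      simp only [ctr, w, if_neg hk]
      push_cast
      rw [abs_le]; constructor <;> linarith [e.1, e.2]
  have h2 := P1.stay (fun _ _ => k1) hK hℓ hx (by norm_num) (by norm_num) h1
  have nf : ∀ {d : ℕ} {a b : ℝ}, d ≤ 1 → a ≤ 1 / 4 → ∀ v ∈ sites B d,
      g₁.toFun x ∉ cube (wd N) a b v := by
    intro d a b hd1 ha v hv hy
    obtain ⟨k, hk, p⟩ := exists_even_lat (hv.1.le.trans hd1)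
    have := far hℓ h2 hy (hodd k hk) p
    linarith
  have f2 := P2.off x hx (nf le_rfl (by norm_num))
  have f3 := P3.off x hx (by rw [f2]; exact nf (by norm_num) (by norm_num))
  refine ⟨?_, f2, f3.trans f2⟩
  rw [← c2, ← core w hs _ (cube_mono (by norm_num) (by norm_num) h1) 2 (by rw [hd]; decide)]
  exact (abs_le_dist _ _ 2).trans (P1.err x hx o₁ h0 fun _ _ _ => le_rfl)

omit P3 in
theorem deep {S : Src Ω} (hK : 1 ≤ K) (k1 : K * o₁ ≤ 1 / 1000) (k2 : K * o₂ ≤ 1 / 1000)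
    (s1 : o₁ ≤ 1 / 10000) (s2 : o₂ ≤ 1 / 10000) (s3 : o₃ ≤ 1 / 10000)
    (ho : S.Osc g.toFun (ubox N 0 (nbr 1 B)) o₁) (c : S.Q.ι)
    (hc : (g.toFun '' S.Q.cell c ∩ cthickening (1 / 400) (ubox N 0 B)).Nonempty)
    (hm : Disjoint (g.toFun '' S.Q.cell c) (ubox N (1 / 200) univ)) :
    DeepIn N B 2 (2 / 100) (4 / 100) o₁ g.toFun (S.Q.cell c) ∨
    DeepIn N B 1 (5 / 100) (8 / 100) o₂ g₁.toFun (S.Q.cell c) ∨
    DeepIn N B 0 (9 / 100) (14 / 100) o₃ g₂.toFun (S.Q.cell c) := by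
  classical
  have hℓ := one_le_wd hN
  obtain ⟨_, ⟨x₀, hx₀, rfl⟩, hy⟩ := hc
  obtain ⟨y, hy, hd⟩ := mem_thickening_iff.1
    (cthickening_subset_thickening' (δ₂ := 26 / 10000) (by norm_num) (by norm_num) _ hy)
  obtain ⟨z, hz, hy⟩ := mem_iUnion₂.1 hy
  have hX := cell_sub S c
  obtain ⟨t, ht, hT⟩ := exists_face hy
  have hk : ∃ k, t k ≤ 1 / 100 := by
    by_contra hc
    push Not at hc
    refine disjoint_left.1 hm (mem_image_of_mem _ hx₀) (mem_biUnion (mem_univ z) ?_)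
    refine mem_box.2 fun k => ?_
    have e := mem_box.1 (ht _ fun k => (hc k).le) k
    have e' := abs_le.1 ((abs_le_dist _ _ k).trans hd.le)
    constructor <;> linarith [e.1, e.2, e'.1, e'.2]
  obtain ⟨k₀, hk₀⟩ := hk
  have all : ∀ {d : ℕ} {w : Z3} {a b : ℝ}, w ∈ sites B d → y ∈ cube (wd N) a b w → a ≤ 1 / 4 →
      2 / 100 ≤ b → ∀ x ∈ S.Q.cell c,
      g.toFun x ∈ cube (wd N) (a + 26 / 10000 + 1 / 10000) (b - 26 / 10000 - 1 / 10000) w :=
    fun hw h ha hb x hx => cube_dist (cube_dist h hd.le) ((ho c ⟨_, mem_image_of_mem _ hx₀,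
      interior_subset (sub_ubox hN hw (by linarith) (by linarith) (cube_dist h hd.le))⟩
      x hx x₀ hx₀).trans s1)
  by_cases c1 : ∀ k, k ≠ k₀ → 45 / 1000 ≤ t k
  · obtain ⟨w, hd, hw, hc⟩ := hT {k₀}
    have hs : w ∈ sites B 2 := ⟨by rw [hd, Finset.card_compl]; simp, z, hz, hw⟩
    have h1 := hc (1 / 100) (45 / 1000) (fun k hk => by rw [Finset.mem_singleton.1 hk]; exact hk₀)
      fun k hk => c1 k fun e => hk (Finset.mem_singleton.2 e)
    exact Or.inl ⟨w, hs, deep_of (all hs h1 (by norm_num) (by norm_num)) (by linarith)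
      (by linarith)⟩
  · push Not at c1
    obtain ⟨k₁, hne, hk₁⟩ := c1
    by_cases c2 : ∀ k, k ≠ k₀ → k ≠ k₁ → 85 / 1000 ≤ t k
    · obtain ⟨w, hd, hw, hc⟩ := hT {k₀, k₁}
      have hs : w ∈ sites B 1 :=
        ⟨by rw [hd, Finset.card_compl, Finset.card_pair hne.symm]; simp, z, hz, hw⟩
      have h1 := hc (45 / 1000) (85 / 1000) (fun k hk => by
          rcases Finset.mem_insert.1 hk with e | e
          · rw [e]; linarith
          · rw [Finset.mem_singleton.1 e]; linarith)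
        fun k hk => c2 k (fun e => hk (by simp [e])) fun e => hk (by simp [e])
      have h2 := all hs h1 (by norm_num) (by norm_num)
      exact Or.inr (Or.inl ⟨w, hs, deep_of (fun x hx => P1.stay (fun _ _ => k1) hK hℓ (hX hx)
        (by norm_num) (by norm_num) (h2 x hx)) (by linarith) (by linarith)⟩)
    · push Not at c2
      obtain ⟨k₂, n0, n1, hk₂⟩ := c2
      obtain ⟨w, hd, hw, hc⟩ := hT Finset.univ
      have hs : w ∈ sites B 0 := ⟨by rw [hd]; simp, z, hz, hw⟩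
      have tri : ∀ k : Fin 3, k = k₀ ∨ k = k₁ ∨ k = k₂ := fun k => tri3 _ _ _ k hne n0 n1
      have h1 := hc (85 / 1000) (2 / 10) (fun k _ => by
          rcases tri k with e | e | e <;> rw [e] <;> linarith)
        fun k hk => absurd (Finset.mem_univ k) hk
      have h2 := all hs h1 (by norm_num) (by norm_num)
      exact Or.inr (Or.inr ⟨w, hs, deep_of (fun x hx => P2.stay (fun _ _ => k2) hK hℓ (hX hx)
        (by norm_num) (by norm_num) (P1.stay (fun _ _ => k1) hK hℓ (hX hx) (by norm_num)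
          (by norm_num) (h2 x hx))) (by linarith) (by linarith)⟩)

end

end R1

open R1

theorem round1 : ROUND1 := by
  intro C hC
  refine ⟨(C + 25) ^ 3, one_le_pow₀ (le_trans hC le_self_add), fun K hK => ?_⟩
  have hK' : (1:ℝ) ≤ K := hK
  have hC' : (1:ℝ) ≤ C := hC
  obtain ⟨L, hLe⟩ : ∃ L : ℝ≥0, (L : ℝ) = C + 25 + 2 * K := ⟨C + 25 + 2 * K, by push_cast; rfl⟩
  have hL : (1:ℝ) ≤ L := by linarith
  have hL3 : (1:ℝ) ≤ L ^ 3 := one_le_pow₀ hL
  refine ⟨10000 * K * L ^ 3, L, ?_, hL, ?_⟩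
  · have : (1:ℝ) ≤ 10000 * K * L ^ 3 := by nlinarith
    exact_mod_cast this
  intro Ω Λ S St g N B o hN hB ho hs hΛ O0 hS h1
  have hℓ := one_le_wd hN
  push_cast at hs
  have k3 : K * (L ^ 3 * o) ≤ 1 / 10000 := by linarith
  have m : ∀ t : ℝ, 0 ≤ t → t ≤ L * t := fun t ht => le_mul_of_one_le_left ht hL
  have m0 := m o ho.le
  have m1 : L * o ≤ L ^ 2 * o := by have := m _ (ho.le.trans m0); linarith
  have m2 : L ^ 2 * o ≤ L ^ 3 * o := by have := m _ ((ho.le.trans m0).trans m1); linarith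
  have k2 := (mul_le_mul_of_nonneg_left m2 K.coe_nonneg).trans k3
  have k1 := (mul_le_mul_of_nonneg_left m1 K.coe_nonneg).trans k2
  have k0 := (mul_le_mul_of_nonneg_left m0 K.coe_nonneg).trans k1
  have s2 : L ^ 2 * o ≤ 1 / 10000 :=
    (le_mul_of_one_le_left ((ho.le.trans m0).trans m1) hK').trans k2
  have su : ∀ {d : ℕ} {a b : ℝ}, a ≤ 1 / 2 → 1 / 100 ≤ b → ∀ w ∈ sites B d,
      cube (wd N) a b w ⊆ ubox N 0 (nbr 1 B) := fun ha hb w hw =>
    (sub_ubox hN hw ha hb).trans interior_subset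
  obtain ⟨g₁, Ψ₁, P1, core⟩ := R1.pstep hℓ (by norm_num) (by norm_num) (by norm_num) (by norm_num)
    (finite_sites hB 2) (fun _ => o) g h1
  have O1 := osc_step P1 (su (by norm_num) (by norm_num)) ho.le O0
  rw [← hLe] at O1
  obtain ⟨g₂, Ψ₂, P2, -⟩ := R1.pstep hℓ (a := 5 / 100) (b := 8 / 100) (μ := 1 / 100) (by norm_num)
    (by norm_num) (by norm_num) (by norm_num) (finite_sites hB 1) (fun _ => L * o) g₁
    fun w hw => one_of hS hℓ (by norm_num) (by norm_num) (by norm_num) (by norm_num) g₁ hw.1.le m0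
      (k1.trans (by norm_num)) ((su (by norm_num) (by norm_num) w hw).trans hΛ)
      (osc_mono O1 (su (by norm_num) (by norm_num) w hw))
  have O2 := osc_step P2 (su (by norm_num) (by norm_num)) (ho.le.trans m0) O1
  rw [← hLe, ← mul_assoc, ← sq] at O2
  obtain ⟨g₃, Ψ₃, P3, -⟩ := R1.pstep hℓ (a := 9 / 100) (b := 14 / 100) (μ := 2 / 100) (by norm_num)
    (by norm_num) (by norm_num) (by norm_num) (finite_sites hB 0) (fun _ => L ^ 2 * o) g₂
    fun w hw => one_of hS hℓ (by norm_num) (by norm_num) (by norm_num) (by norm_num) g₂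
      (hw.1.le.trans zero_le_one) (m0.trans m1) (k2.trans (by norm_num))
      ((su (by norm_num) (by norm_num) w hw).trans hΛ)
      (osc_mono O2 (su (by norm_num) (by norm_num) w hw))
  have O3 := osc_step P3 (su (by norm_num) (by norm_num)) ((ho.le.trans m0).trans m1) O2
  rw [← hLe, ← mul_assoc, ← pow_succ'] at O3
  refine ⟨g₁, g₂, g₃, Ψ₁, Ψ₂, Ψ₃, k3, P1, P2, P3, O1, O2, O3, col hN P1 P2 P3, off hN P1 P2 P3,
    fun x hx => (err P1 P2 P3 (by linarith) ho.le rfl rfl x hx).trans ?_,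
    flat hN P1 P2 P3 hK ho.le (k0.trans (by norm_num)) core,
    deep hN P1 P2 hK (k0.trans (by norm_num)) (k1.trans (by norm_num)) ((m0.trans m1).trans s2)
      (m1.trans s2) s2 O0⟩
  have := mul_le_mul_of_nonneg_left m2 K.coe_nonneg
  have := mul_nonneg K.coe_nonneg (((ho.le.trans m0).trans m1).trans m2)
  push_cast
  linarith

end P073.B
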