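import Vale.Agent.P073Y.B.Ct2
import Vale.Agent.P073Y.B.Round1
import Vale.Agent.P073Y.Rd.Round

/-!
# One round with bounds for Lipschitz constants
-/

open Set Metric Topology Filter MeasureTheory
open scoped NNReal ENNReal

namespace P073.B

open P073.Top P073.Zn
open P073.Rd hiding one_le_wd

namespace R4

variable {Ω Λ : Set E3} {ℓ y : E3} {B : Set Z3} {w z : Z3} {N : ℕ}

/-- the points of the top and of the bottom of a face site -/
theorem rim_pt (hℓ : ∀ k, 1 ≤ ℓ k) (hw : w ∈ sites B 2) {i : Fin 3} (hi : i ∉ dirs w) {s : Bool}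
    (hy : y ∈ Icc (slo ℓ (2 / 100) (4 / 100) w) (shi ℓ (2 / 100) (4 / 100) w))
    (e : y i = sd (slo ℓ (2 / 100) (4 / 100) w) (shi ℓ (2 / 100) (4 / 100) w) s i) :
    ∃ z : Z3, (z = (fun k => w k / 2) ∨ z = fun k => (w k - 1) / 2) ∧ y ∈ box ℓ (1 / 100) z ∧
      (y i = z i * ℓ i + 2 / 100 ∨ y i = (z i + 1) * ℓ i - 2 / 100) := by
  have hc := mem_Icc_iff.1 hy
  obtain ⟨z, -, hn, hb⟩ := cover_site hℓ hw (cube_mono (by norm_num) (by norm_num) hc)
  have p : ¬ Odd (w i) := fun h => hi (mem_dirs.2 h)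
  obtain ⟨m, hm, c⟩ := even_ctr (ℓ := ℓ) p
  have b := mem_box.1 hb i
  have hl := hℓ i
  have h3 : y i = z i * ℓ i + 2 / 100 ∨ y i = (z i + 1) * ℓ i - 2 / 100 := by
    have : z i = m ∨ z i + 1 = m := by
      have := abs_le.1 (hn i)
      omega
    have e' : y i = m * ℓ i + 2 / 100 ∨ y i = m * ℓ i - 2 / 100 := by
      cases s <;> simp only [sd, slo, shi, rad, if_neg p, c] at e <;> simp [e]
    rcases this with rfl | rfl <;> push_cast at e' <;> rcases e' with e' | e'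
    exacts [Or.inl e', absurd b.1 (by linarith), absurd b.2 (by linarith), Or.inr e']
  refine ⟨z, ?_, mem_box.2 fun k => ?_, h3⟩
  · have h4 : ∀ k, k ≠ i → z k = w k / 2 ∧ z k = (w k - 1) / 2 := fun k hk => by
      obtain ⟨n, e⟩ := odd_of_card hw.1 hi hk
      have := abs_le.1 (hn k)
      omega
    have h5 : z i = w i / 2 ∨ z i = (w i - 1) / 2 := by
      have := abs_le.1 (hn i)
      omega
    refine h5.imp (fun h => funext fun k => ?_) fun h => funext fun k => ?_ <;>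
      by_cases hk : k = i
    exacts [hk ▸ h, (h4 k hk).1, hk ▸ h, (h4 k hk).2]
  by_cases hk : k = i
  · subst hk
    rcases h3 with h3 | h3 <;> constructor <;> linarith
  · have f := far_planes hℓ hc (odd_of_card hw.1 hi hk)
    have f1 := f (z k)
    have f2 := f (z k + 1)
    have b' := mem_box.1 hb k
    push_cast at f2
    rw [abs_of_nonneg (by linarith [b'.1])] at f1
    rw [abs_of_nonpos (by linarith [b'.2])] at f2
    constructor <;> linarith

/-- the site of a sharp region -/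
theorem shr_site (hz : z ∈ B ∨ z - Pi.single 2 1 ∈ B) : ∃ w ∈ sites B 2, dirs w = {0, 1} ∧
    ∀ y ∈ shr N (1 / 200) z, y ∈ cube (wd N) (1 / 100) (1 / 2) w := by
  let w : Z3 := fun k => if k = 2 then 2 * z k else 2 * z k + 1
  have hd : dirs w = {0, 1} := by
    ext k
    rw [mem_dirs]
    fin_cases k <;> simp [w]
  refine ⟨w, ⟨by rw [hd]; rfl, ?_⟩, hd, fun y ⟨e1, e2⟩ k => ?_⟩
  · rcases hz with hz | hz <;> refine ⟨_, hz, fun k => ?_⟩ <;> fin_cases k <;> simp [w]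
    rw [abs_le]
    omega
  · by_cases hk : k = 2
    · subst hk
      simp only [rad, ctr, w, wd, if_true, if_neg (show ¬ Odd (2 * z 2) by simp)]
      simp
      linarith
    · have e := e2 k hk
      simp only [rad, ctr, w, if_neg hk, if_pos (odd_two_mul_add_one _)]
      push_cast
      rw [abs_le]
      constructor <;> linarith [e.1, e.2]

theorem cube_sub (hN : 1 ≤ N) {d : ℕ} (hw : w ∈ sites B d) {a b : ℝ} (ha : a ≤ 1 / 2)
    (hb : 1 / 100 ≤ b) : cube (wd N) a b w ⊆ ubox N 0 (nbr 1 B) := fun _ hy =>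
  interior_subset (mem_interior_site (one_le_wd hN) hw ha hb hy)

variable {K C : ℝ≥0} {S : Src Ω} {St : StT Ω Λ} {a b A Bb o : ℝ} {d : ℕ} {g g' : ConHomeo Ω Λ}
  {Ψ : E3 → E3}

/-- on a cell the new map is the old one or the result of one stage -/
theorem alt (h : Rd.PS K C St (wd N) a b A Bb (sites B d) (fun _ => o) g g' Ψ) (hN : 1 ≤ N)
    (hA : 0 ≤ A) (h1 : A + 1 / 100 ≤ Bb) (h2 : A ≤ 11 / 100) (hs : o ≤ 1 / 1000)
    (ho : S.Osc g.toFun (ubox N 0 (nbr 1 B)) o) (c : S.Q.ι) :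
    EqOn g'.toFun g.toFun (S.Q.cell c) ∨
      ∃ h lo hi J, St g h lo hi o J ∧ EqOn g'.toFun h.toFun (S.Q.cell c) := by
  by_cases hx : ∃ w ∈ sites B d, ∃ x ∈ S.Q.cell c, g.toFun x ∈ cube (wd N) A Bb w
  · obtain ⟨w, hw, x, hx, hy⟩ := hx
    obtain ⟨h', e⟩ := h.eqOn (one_le_wd hN) hA h1 h2 (cell_sub c) hw fun x' hx' => ⟨_, hy,
      (ho c ⟨_, mem_image_of_mem _ hx, cube_sub hN hw (by linarith) (by linarith) hy⟩
        x hx x' hx').trans hs⟩
    exact Or.inr ⟨h', _, _, _, e⟩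
  · exact Or.inl fun x hc => h.off x (cell_sub c hc) fun w hw hy => hx ⟨w, hw, x, hc, hy⟩

theorem dalt (h : Rd.PS K C St (wd N) a b A Bb (sites B d) (fun _ => o) g g' Ψ) (hN : 1 ≤ N)
    (hA : 0 ≤ A) (h1 : A + 1 / 100 ≤ Bb) (h2 : A ≤ 11 / 100) (ho : 0 ≤ o) (h3 : a ≤ A)
    (h4 : Bb ≤ b) {X : Set E3} (hX : X ⊆ Ω) (hw : w ∈ sites B d)
    (hd : Deep g.toFun X (slo (wd N) a b w) (shi (wd N) a b w) (2 * o)) :
    ∃ h, St g h (slo (wd N) a b w) (shi (wd N) a b w) o (dirs w) ∧ EqOn g'.toFun h.toFun X :=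
  h.eqOn (one_le_wd hN) hA h1 h2 hX hw fun x hx => ⟨g.toFun x, cube_mono h3 h4 (mem_Icc_iff.1
    ⟨fun i => by linarith [(hd x hx i).1], fun i => by linarith [(hd x hx i).2]⟩),
    by rw [dist_self]; norm_num⟩

theorem thin_union {Z Z' : Set ℝ} {o ϑ : ℝ} (ho : 0 ≤ o) (hϑ : 0 ≤ ϑ) (h : Thin Z (o / 2) (ϑ / 2))
    (h' : Thin Z' (o / 2) (ϑ / 2)) : Thin (Z ∪ Z') o ϑ := ⟨h.1.union h'.1, fun y l hl => by
  rw [union_inter_distrib_right]
  refine (measure_union_le _ _).trans ((add_le_add (h.2 y l hl) (h'.2 y l hl)).trans_eq ?_)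
  rw [← ENNReal.ofReal_add (by positivity) (by positivity)]
  congr 1
  ring⟩

theorem ok_mono {g : E3 → E3} {Bf Bf' : Fin 3 → Set ℝ} {c : S.Q.ι} {i : Fin 3} {v : ℝ}
    (h : Ok S g Bf c i v) (e : ∀ k, Bf k ⊆ Bf' k) : Ok S g Bf' c i v :=
  h.imp_right fun ⟨k, h1, h2⟩ => ⟨k, h1, fun x hx => e k (h2 x hx)⟩

variable {p c θ ϑ : ℝ} {CM : ℝ≥0 → ℝ≥0} {t η : ℝ≥0∞} {𝓢 : ConHomeo Ω Λ → Set S.Q.ι}
  {ψ : S.Q.ι → (E2 →ᵃ[ℝ] E3)} {α : S.Q.ι → ℝ}

/-- the bounds after a parallel stage -/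
theorem ct2_step (h : Rd.PS K C (fun g h lo hi o J => Stc2 p c θ ϑ C CM S g.toFun h.toFun lo hi o J
      t (𝓢 g) ψ α) (wd N) a b A Bb (sites B d) (fun _ => o) g g' Ψ) (hC : 1 ≤ C) (hN : 1 ≤ N)
    (hA : 0 ≤ A) (h1 : A + 1 / 100 ≤ Bb) (h2 : A ≤ 11 / 100) (h3 : a ≤ A) (h4 : Bb ≤ b)
    (h0 : 0 ≤ o) (hs : o ≤ 1 / 1000) (ho : S.Osc g.toFun (ubox N 0 (nbr 1 B)) o) {T : Set S.Q.ι}
    (hT : ∀ c ∉ T, EqOn g'.toFun g.toFun (S.Q.cell c)) (ht : t ≤ η)
    (ht' : ∀ c ∈ T, nw S c * t ≤ η) : Ct2 C (fun M => CM M + C) S g.toFun g'.toFun ∅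
      {c ∈ T | DeepIn N B d a b o g.toFun (S.Q.cell c)} η := by
  have hC1 : (1 : ℝ≥0∞) ≤ C := by exact_mod_cast hC
  have hw : ∀ e, S.Q.dim e = 1 →
      lipc g'.toFun (S.Q.cell e) ≤ C * lipc g.toFun (S.Q.cell e) + t := fun e he => by
    rcases alt h hN hA h1 h2 hs ho e with e1 | ⟨h', lo, hi, J, e1, e2⟩
    · rw [lipc_congr e1]
      exact Ro.step hC1
    · rw [lipc_congr e2]
      exact e1.wire e he
  have hd : ∀ {c}, (S.Q.dim c = 3 ∨ (S.Q.dim c = 2 ∧ c ∉ (∅ : Set S.Q.ι))) → 2 ≤ S.Q.dim c :=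
    fun h => h.elim (fun h => by omega) fun h => h.1.ge
  refine ⟨fun e he _ => (hw e he).trans (by gcongr), fun c _ => ?_, fun c hc => ?_,
    fun c ⟨_, w, e0, e1⟩ hc => ?_⟩ <;> push_cast
  · by_cases hc : c ∈ T
    · exact (A_le fun e he _ => hw e he).trans (add_le_add (by gcongr; exact le_add_self) (ht' c hc))
    · rw [A_congr (hT c hc)]
      exact Ro.step (hC1.trans le_add_self)
  · rcases alt h hN hA h1 h2 hs ho c with e1 | ⟨h', lo, hi, J, e1, e2⟩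
    · rw [lipc_congr e1]
      exact le_self_add.trans (Ro.step (hC1.trans le_add_self))
    · rw [lipc_congr e2]
      exact (e1.keep c (hd hc)).trans (by gcongr; exact le_self_add)
  · obtain ⟨h', e2, e3⟩ := dalt h hN hA h1 h2 h0 h3 h4 (cell_sub c) e0 e1
    rw [lipc_congr e3]
    exact (e2.gain c (hd hc) e1).trans (by gcongr; exact le_self_add)

end R4

open R4

theorem round4_of {p : ℝ} (h0 : ROUND1) (hS : STAGE4 p) : ROUND4 p := by
  obtain ⟨c, hc, H⟩ := hS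
  refine ⟨c, hc, fun θ h1 h2 => ?_⟩
  obtain ⟨C, CM, hC, H⟩ := H θ h1 h2
  obtain ⟨C', hC', h0⟩ := h0 C hC
  refine ⟨C' + C * (C * C),
    fun M => (CM M + C + 1) * (2 * ((CM M + C + 1) * (2 * (CM M + C) + C)) + C * C),
    hC'.trans le_self_add, fun ϑ h3 h4 => ?_⟩
  obtain ⟨K, hK, H⟩ := H ϑ h3 h4
  obtain ⟨K', L, hK', hL, h0⟩ := h0 K hK
  refine ⟨K' + 200 * K, hK'.trans le_self_add, ?_⟩
  intro Ω Λ S g N B o Bf η 𝓢 ψ a hF hΩ hΛ hN hB hη ho hKo hs hO hth hR hM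
  have hℓ := one_le_wd hN
  have k1 : (1 : ℝ) ≤ K := hK
  have k3 : (1 : ℝ) ≤ L := hL
  push_cast at hKo ⊢
  rw [add_mul, mul_assoc] at hKo ⊢
  have k4 : 0 ≤ K * o := by positivity
  have k5 : 0 ≤ K' * o := by positivity
  have hT := hit_finite S g ((nbr_finite hB 1).isCompact_biUnion fun z _ => isCompact_lbox N 0 z) hs
  obtain ⟨η₁, a1, -, c1⟩ := ct2_comp S hT C (fun M => CM M + C) hη
  obtain ⟨η₂, a2, a3, c2⟩ := ct2_comp S hT C (fun M => CM M + C) a1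
  obtain ⟨t, ⟨t1, t2⟩, t3, t0⟩ := ((((eventually_all_finite hT).2 fun c _ =>
    ev_small (a := nw S c) (by finiteness) a2).and (ev_small ENNReal.one_ne_top a2)).and
      ((ev_small ENNReal.one_ne_top hη).and self_mem_nhdsWithin)).exists
  rw [one_mul] at t2 t3
  obtain ⟨g₁, g₂, g₃, Ψ₁, Ψ₂, Ψ₃, T⟩ := h0 S (fun g h lo hi o J => Stc2 p c θ ϑ C CM S g.toFun
      h.toFun lo hi o J t {φ ∈ 𝓢 | Marked S g.toFun θ φ (ψ φ) (a φ)} ψ a) g N B o hN hB ho
    (by linarith) hs hO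
    (fun g lo hi μ o' J b1 b2 b3 b4 b5 b6 b7 => H S g lo hi μ o' J (fun _ => ∅) t _ ψ a hF hΩ hΛ
      (by omega) (ho.trans_le b2) b3 b4 b5 b6 b7 (fun _ => ⟨isClosed_empty, fun _ _ _ => by simp⟩)
      (fun e => by omega) t0 fun _ h => h.2)
    fun w hw => by
      obtain ⟨z₀, hz₀, hn⟩ := hw.2
      have n1 : (fun k => w k / 2) ∈ nbr 1 B := mem_nbr hz₀ fun k => by
        have := abs_le.1 (hn k)
        rw [abs_le]
        omega
      have n2 : (fun k => (w k - 1) / 2) ∈ nbr 1 B := mem_nbr hz₀ fun k => by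
        have := abs_le.1 (hn k)
        rw [abs_le]
        omega
      have b1 := (mbox_eq (1 / 200)).le.trans (cube_sub hN hw
        (a := 2 / 100 + 1 / 200) (b := 4 / 100 - 1 / 200) (by norm_num) (by norm_num))
      refine H S g _ _ _ o _ (fun k => Bf (fun k => w k / 2) k ∪ Bf (fun k => (w k - 1) / 2) k) t _
        ψ a hF hΩ hΛ hw.1.le ho (by linarith) (fun i => ?_) (fun i hi => ?_) (b1.trans hs)
        (R1.osc_mono hO b1) (fun k => thin_union ho.le h3.le (hth _ n1 k) (hth _ n2 k))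
        (fun _ i hi s _ c hc x hx e1 e2 => ?_) t0 fun _ h => h.2
      · have := hℓ i
        simp only [slo, shi, rad]
        split_ifs <;> linarith
      · simp only [slo, shi, rad, if_neg fun h => hi (mem_dirs.2 h)]
        linarith
      · obtain ⟨z, rfl | rfl, e3, e4⟩ := rim_pt hℓ hw hi e1 e2 <;> rw [← e2]
        · exact ok_mono (hR _ n1 _ rfl c hc x hx e3 i e4) fun _ => subset_union_left
        · exact ok_mono (hR _ n2 _ rfl c hc x hx e3 i e4) fun _ => subset_union_right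
  have s3 : L ^ 3 * o ≤ 1 / 10000 := (le_mul_of_one_le_left (by positivity) k1).trans T.small
  have s2 : L ^ 2 * o ≤ 1 / 10000 := le_trans (by gcongr; omega) s3
  have s1 : L * o ≤ 1 / 10000 := le_trans (by gcongr; exact le_self_pow₀ k3 two_ne_zero) s2
  have s0 : o ≤ 1 / 10000 := (le_mul_of_one_le_left ho.le k3).trans s1
  have hout := fun c (hc : c ∉ hit S g.toFun (ubox N 0 (nbr 1 B))) x (hx : x ∈ S.Q.cell c) =>
    T.off x (cell_sub c hx) (Or.inl fun h => hc (mem_hit.2 ⟨x, hx, interior_subset h⟩))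
  have e2 : ∀ c ∉ hit S g.toFun (ubox N 0 (nbr 1 B)), EqOn g₂.toFun g₁.toFun (S.Q.cell c) :=
    fun c hc x hx => (hout c hc x hx).2.1.trans (hout c hc x hx).1.symm
  have e3 : ∀ c ∉ hit S g.toFun (ubox N 0 (nbr 1 B)), EqOn g₃.toFun g₂.toFun (S.Q.cell c) :=
    fun c hc x hx => (hout c hc x hx).2.2.trans (hout c hc x hx).2.1.symm
  have q1 := ct2_step T.p₁ hC hN (by norm_num) (by norm_num) (by norm_num) (by norm_num)
    (by norm_num) ho.le (by linarith) hO (fun c hc x hx => (hout c hc x hx).1) t2 t1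
  have q2 := ct2_step T.p₂ hC hN (by norm_num) (by norm_num) (by norm_num) (by norm_num)
    (by norm_num) (by positivity) (by linarith) T.o₁ e2 t2 t1
  have q3 := ct2_step T.p₃ hC hN (by norm_num) (by norm_num) (by norm_num) (by norm_num)
    (by norm_num) (by positivity) (by linarith) T.o₂ e3 (t2.trans a3) fun c hc => (t1 c hc).trans a3
  have q := c1 (c2 q1 q2 up_empty fun c hc => ⟨e2 c hc, fun h => absurd h.1 hc⟩) q3
    (up_empty.union up_empty) fun c hc => ⟨e3 c hc, fun h => absurd h.1 hc⟩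
  refine ⟨g₃, _, ⟨T.col.lip.weaken le_self_add, T.col.off, T.col.keep, fun z y y' b1 b2 =>
    (T.col.inv z y y' b1 b2).trans (by gcongr; exact le_self_add), T.col.lat⟩,
    fun x b1 b2 => (T.off x b1 b2).2.2, fun x hx => (T.err x hx).trans (by linarith),
    q.mono le_add_self (fun _ => le_rfl) (by simp) (fun c ⟨b1, b2⟩ => ?_) le_rfl,
    fun z hz => ⟨fun x b1 b2 => by
      linarith [(T.flat z hz x b1 b2).2.2 ▸ (T.flat z hz x b1 b2).1], ?_⟩⟩
  · have b3 := hit_mono (biUnion_subset_biUnion_left (sub_nbr 1 B)) b1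
    rcases T.deep c (hit_mono (self_subset_cthickening _) b1)
      (not_nonempty_iff_eq_empty.1 b2 |> disjoint_iff_inter_eq_empty.2) with h | h | h
    exacts [Or.inl (Or.inl ⟨b3, h⟩), Or.inl (Or.inr ⟨b3, h⟩), Or.inr ⟨b3, h⟩]
  obtain ⟨w, hw, hd, hy⟩ := shr_site (N := N) hz
  have key : ∀ φ, g.toFun '' S.Q.cell φ ⊆ shr N (1 / 200) z → ∃ (h : ConHomeo Ω Λ) (lo hi : E3),
      Stc2 p c θ ϑ C CM S g.toFun h.toFun lo hi o {0, 1} t
        {φ ∈ 𝓢 | Marked S g.toFun θ φ (ψ φ) (a φ)} ψ a ∧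
      EqOn g₃.toFun h.toFun (S.Q.cell φ) ∧ Deep g.toFun (S.Q.cell φ) lo hi (2 * o) := by
    intro φ hφ
    have b1 := deep_of (r := 2 * o) (a := 2 / 100) (b := 4 / 100)
      (fun x hx => hy _ (hφ (mem_image_of_mem _ hx))) (by linarith) (by linarith)
    obtain ⟨h, b2, b3⟩ := dalt T.p₁ hN (by norm_num) (by norm_num) (by norm_num) ho.le
      (by norm_num) (by norm_num) (cell_sub φ) hw b1
    exact ⟨h, _, _, hd ▸ b2, fun x hx => (T.flat z hz x (cell_sub φ hx)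
      (hφ (mem_image_of_mem _ hx))).2.2.trans (b3 hx), b1⟩
  constructor
  · intro e x y he hs hz'
    obtain ⟨h, lo, hi, b1, b2, b3⟩ := key e hz'
    obtain ⟨b4, b5⟩ := b1.shE rfl e x y he hs b3
    rw [hs] at b2
    refine ⟨fun u hu w hw => ?_, ?_⟩
    · rw [b2 hu, b2 hw]
      exact (b4 u hu w hw).trans (by gcongr)
    · rw [Rise, b2 (left_mem_segment ℝ x y), b2 (right_mem_segment ℝ x y)]
      exact b5.trans (by gcongr)
  · intro φ hφ hz' b0
    obtain ⟨h, lo, hi, b1, b2, b3⟩ := key φ hz'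
    have b4 : ∀ v ∈ closedBall (0 : E2) 1, g₃.toFun (ψ φ v) = h.toFun (ψ φ v) := fun v hv =>
      b2 ((hM φ hφ).cell ▸ mem_image_of_mem _ hv)
    rw [EN.en_congr measurableSet_closedBall
      (h' := fun v => h.toFun (ψ φ v) - a φ • (![v 0, v 1, 0] : E3)) fun v hv => by
        simp only [b4 v hv]]
    refine (b1.shF rfl φ ⟨hφ, hM φ hφ⟩ b3 fun i s hs => ?_).trans (by gcongr)
    rw [← b4 _ (Ro.cor_mem i (Or.inl rfl) hs), ← b4 _ (Ro.cor_mem i (Or.inr rfl) hs)]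
    exact b0 i s hs

theorem round4 {p : ℝ} (hS : STAGE4 p) : ROUND4 p := round4_of round1 hS

end P073.B
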