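import Vale.Agent.P073Y.B.Defs
import Vale.Agent.P073Y.An2.Hole

/-!
# The aligned hole
-/

open Set Metric Topology Filter MeasureTheory
open scoped NNReal ENNReal

namespace P073.B

open P073.Top P073.An2
open P073.An (M3)
open P073.Gc (Bil)

namespace HoleA

theorem exists_conj (Θ : Hom) (m : E3) {s : ℝ} (hs : 0 < s) :
    ∃ Θ' : Hom, ∀ y, Θ'.toFun y = m + s • Θ.toFun (s⁻¹ • (y - m)) := by
  refine ⟨((diagHomeo m (fun _ => s) fun _ => hs.ne').trans Θ).trans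
    (diagHomeo m (fun _ => s) fun _ => hs.ne').symm, fun y => ?_⟩
  have e : (diagHomeo m (fun _ => s) fun _ => hs.ne').toFun y = s⁻¹ • (y - m) :=
    funext fun i => div_eq_inv_mul _ _
  exact congrArg (fun v => m + s • Θ.toFun v) e

theorem norm_conj {Θ : E3 → E3} {m y y' : E3} {s K : ℝ} (hs : 0 < s)
    (h : ‖Θ (s⁻¹ • (y - m)) - Θ (s⁻¹ • (y' - m))‖ ≤ K * ‖s⁻¹ • (y - m) - s⁻¹ • (y' - m)‖) :
    ‖m + s • Θ (s⁻¹ • (y - m)) - (m + s • Θ (s⁻¹ • (y' - m)))‖ ≤ K * ‖y - y'‖ := by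
  rw [← smul_sub, sub_sub_sub_cancel_right, norm_smul_of_nonneg (inv_pos.2 hs).le] at h
  rw [add_sub_add_left_eq_sub, ← smul_sub, norm_smul_of_nonneg hs.le]
  refine (mul_le_mul_of_nonneg_left h hs.le).trans (le_of_eq ?_)
  field_simp

/-- the radial map of the unit box -/
theorem exists_rad {o c : E3} {β : ℝ} (hc : ‖c - o‖ ≤ 1 / 4) (hβ : 0 < β) (hβ' : β ≤ 1 / 8) :
    ∃ R : Hom, (∀ y, 1 / 2 ≤ ‖y - o‖ → R.toFun y = y) ∧
      (∀ y, ‖y - c‖ ≤ β / 2 → R.toFun y = o + (199 / 200 / β) • (y - c)) ∧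
      (∀ y y', ‖R.toFun y - R.toFun y'‖ ≤ 40 / β * ‖y - y'‖) ∧
      ∀ y y', 1 / 32 ≤ ‖y - c‖ → 1 / 32 ≤ ‖y' - c‖ → ‖R.toFun y - R.toFun y'‖ ≤ 640 * ‖y - y'‖ := by
  have h2 : (0:ℝ) < 1 / 2 := by norm_num
  have hn : ∀ v : E3, ‖(1 / 2 : ℝ)⁻¹ • v‖ = 2 * ‖v‖ := fun v => by
    rw [norm_smul_of_nonneg (by norm_num)]; norm_num
  have hd : ∀ y, (1 / 2 : ℝ)⁻¹ • (y - o) - (1 / 2 : ℝ)⁻¹ • (c - o) = (1 / 2 : ℝ)⁻¹ • (y - c) :=
    fun y => by rw [← smul_sub, sub_sub_sub_cancel_right]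
  obtain ⟨ρ, a1, a2, a3, -⟩ := rad2 2 (c := (1 / 2 : ℝ)⁻¹ • (c - o)) (r := 199 / 200)
    (by rw [hn]; linarith) hβ hβ' (by norm_num) (by norm_num)
  obtain ⟨R, hR⟩ := exists_conj ρ o h2
  refine ⟨R, fun y hy => ?_, fun y hy => ?_, fun y y' => ?_, fun y y' hy hy' => ?_⟩
  · rw [hR, a1 _ (by rw [hn]; linarith), smul_inv_smul₀ h2.ne', add_sub_cancel]
  · rw [hR, a2 _ (by rw [hd, hn]; linarith), hd, smul_comm, smul_inv_smul₀ h2.ne']
  · rw [hR, hR]
    refine norm_conj h2 ?_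
    simpa only [max_eq_right hβ.le] using a3 0 _ _ zero_le_one (norm_nonneg _) (norm_nonneg _)
  · rw [hR, hR]
    refine norm_conj h2 ((a3 (1 / 16) _ _ (by norm_num) (by rw [hd, hn]; linarith)
      (by rw [hd, hn]; linarith)).trans (mul_le_mul_of_nonneg_right ?_ (norm_nonneg _)))
    rw [div_le_iff₀ (lt_max_of_lt_right hβ)]
    linarith [le_max_left (1 / 16) β]

theorem mem_lbox_one {κ : ℝ} {z : Z3} {y : E3} (hκ : κ ≤ 1 / 2) :
    y ∈ lbox 1 κ z ↔ ‖y - cen z‖ ≤ 1 / 2 - κ := by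
  rw [mem_lbox, pi_norm_le_iff_of_nonneg (by linarith)]
  refine forall_congr' fun i => ?_
  have e1 : crn 1 z i = z i := by fin_cases i <;> simp [crn, wd]
  have e2 : sz (1 : ℕ) i = 1 := by fin_cases i <;> simp [sz]
  rw [e1, e2, Real.norm_eq_abs, abs_le, Pi.sub_apply, cen]
  constructor <;> exact fun h => ⟨by linarith [h.1], by linarith [h.2]⟩

end HoleA

open HoleA

theorem holea_of (hL : LIN) : HOLEA := by
  refine ⟨640, by norm_num, fun a b ha ha' hb => ?_⟩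
  obtain ⟨r, C, r0, r1, hl⟩ := hL b hb
  obtain ⟨β₁, hβ₁⟩ : ∃ β₁ : ℝ, β₁ = a * r / (2 * b) := ⟨_, rfl⟩
  have b0 : 0 < b := by linarith
  have p0 : 0 < β₁ := by rw [hβ₁]; positivity
  have p1 : b * β₁ = a * r / 2 := by rw [hβ₁]; field_simp
  have p2 : a * r ≤ a := mul_le_of_le_one_right ha.le r1
  have p3 : β₁ ≤ b * β₁ := le_mul_of_one_le_left p0.le hb
  refine ⟨(80 / β₁).toNNReal * C + 1, le_add_self, fun s₀ hs₀ => ⟨min (β₁ / 4) (s₀ * β₁ / 2),
    by positivity, fun z c y₀ A l hc hA l0 l1 => ?_⟩⟩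
  obtain ⟨l2, l3⟩ := le_min_iff.1 l1
  obtain ⟨Ψ, ε, e1, e2, e3, e4⟩ := hl A hA
  have hinj : Function.Injective A := (injective_iff_map_eq_zero A).2 fun u hu => by
    simpa [hu] using hA.2 u
  obtain ⟨u₀, hu₀⟩ := (LinearMap.injective_iff_surjective (f := (A : E3 →ₗ[ℝ] E3))).1 hinj
    (l⁻¹ • (c - y₀))
  have hA1 : ∀ u, ‖l • A u‖ ≤ b * ‖l • u‖ := fun u => by
    rw [← map_smul]; exact A.le_of_opNorm_le hA.1 _
  obtain ⟨c', hc'⟩ : ∃ c', c' = y₀ + l • A fun i => round (u₀ i) := ⟨_, rfl⟩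
  have c1 : ‖c' - c‖ ≤ a / 8 := by
    have h1 : c' - c = l • A ((fun i => (round (u₀ i) : ℝ)) - u₀) := by
      rw [map_sub, smul_sub, show A u₀ = _ from hu₀, smul_inv_smul₀ l0.ne', hc']; abel
    have h2 : ‖(fun i => (round (u₀ i) : ℝ)) - u₀‖ ≤ 1 :=
      (pi_norm_le_iff_of_nonneg zero_le_one).2 fun i => by
        rw [Pi.sub_apply, Real.norm_eq_abs, abs_sub_comm]
        linarith [abs_sub_round (u₀ i)]
    rw [h1]
    refine (hA1 _).trans ?_
    rw [norm_smul_of_nonneg l0.le]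
    nlinarith [mul_le_mul_of_nonneg_left (mul_le_of_le_one_right l0.le h2) b0.le,
      mul_le_mul_of_nonneg_left l2 b0.le]
  rw [dist_eq_norm] at hc
  have c2 : ‖c' - cen z‖ ≤ 1 / 4 := by linarith [norm_sub_le_norm_sub_add_norm_sub c' c (cen z)]
  obtain ⟨m, hm⟩ : ∃ m : ℕ, m = ⌊β₁ / (199 / 96 * l)⌋₊ := ⟨_, rfl⟩
  have m1 : m * (199 / 96 * l) ≤ β₁ := by
    rw [← le_div_iff₀ (by positivity), hm]; exact Nat.floor_le (by positivity)
  have m2 : β₁ < (m + 1) * (199 / 96 * l) := by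
    rw [← div_lt_iff₀ (by positivity), hm]; exact Nat.lt_floor_add_one _
  have m3 : 1 ≤ m := Nat.one_le_iff_ne_zero.2 fun h => by
    rw [h] at m2; push_cast at m2; linarith
  have m4 : (1:ℝ) ≤ m := by exact_mod_cast m3
  obtain ⟨β, hβ⟩ : ∃ β : ℝ, β = m * (199 / 96 * l) := ⟨_, rfl⟩
  have q1 : β ≤ β₁ := hβ ▸ m1
  have q2 : β₁ / 2 ≤ β := by nlinarith
  have q0 : 0 < β := by linarith
  have q3 : 48 / (100 * m) = 199 / 200 / β * l := by rw [hβ]; field_simp; norm_num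
  obtain ⟨R, a1, a2, a3, a4⟩ := exists_rad c2 q0 (by linarith)
  obtain ⟨Ψ', hΨ⟩ := exists_conj Ψ c' (half_pos ha)
  have hΦ : ∀ y, (Ψ'.trans R).toFun y = R.toFun (Ψ'.toFun y) := fun y => rfl
  have f1 : ∀ y, a / 2 ≤ ‖y - c'‖ → Ψ'.toFun y = y := fun y hy => by
    rw [hΨ, e3, smul_inv_smul₀ (half_pos ha).ne', add_sub_cancel]
    rwa [norm_smul_of_nonneg (by positivity), ← div_eq_inv_mul, one_le_div (half_pos ha)]
  refine ⟨Ψ'.trans R, ε, fun i => round (u₀ i), m, e1, m3, ?_, fun y hy => ?_, ?_, ?_,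
    fun y hy => ?_⟩
  · rw [q3, div_mul_eq_mul_div, div_le_iff₀ q0]
    nlinarith
  · have h1 : 1 / 2 ≤ ‖y - cen z‖ := not_lt.1 fun h => hy (interior_maximal (t := ball (cen z) (1 / 2))
      (fun w hw => (mem_lbox_one (by norm_num)).2 (by
        rw [sub_zero]; exact (mem_ball_iff_norm.1 hw).le)) isOpen_ball (mem_ball_iff_norm.2 h))
    rw [hΦ, f1 y (by linarith [norm_sub_le_norm_sub_add_norm_sub y c' (cen z)]), a1 y h1]
  · refine LipschitzWith.of_dist_le_mul fun y y' => ?_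
    have h1 : ‖Ψ'.toFun y - Ψ'.toFun y'‖ ≤ C * ‖y - y'‖ := by
      rw [hΨ, hΨ]; exact norm_conj (half_pos ha) (e2.norm_sub_le _ _)
    have h2 : 40 / β ≤ 80 / β₁ := by rw [div_le_div_iff₀ q0 p0]; linarith
    rw [dist_eq_norm, dist_eq_norm, hΦ, hΦ]
    push_cast
    rw [Real.coe_toNNReal _ (by positivity), add_mul, mul_assoc]
    refine ((a3 _ _).trans (mul_le_mul h2 h1 (norm_nonneg _) (by positivity))).trans ?_
    exact le_add_of_nonneg_right (by positivity)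
  · refine LipschitzOnWith.of_dist_le_mul fun y hy y' hy' => ?_
    have h1 : ∀ y ∈ (ball c (1 / 16))ᶜ, 1 / 32 ≤ ‖y - c'‖ := fun y hy => by
      linarith [not_lt.1 fun h => hy (mem_ball_iff_norm.2 h),
        norm_sub_le_norm_sub_add_norm_sub y c' c]
    rw [dist_eq_norm, dist_eq_norm, hΦ, hΦ, f1 y (by linarith [h1 y hy]),
      f1 y' (by linarith [h1 y' hy'])]
    exact a4 y y' (h1 y hy) (h1 y' hy')
  · generalize hw : (Ψ'.trans R).toFun y = w at hy ⊢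
    rw [mem_lbox_one (by norm_num)] at hy
    have ee : ∀ i, ε i * ε i = 1 := fun i => by rcases e1 i with h | h <;> rw [h] <;> norm_num
    let v : E3 := fun i => ε i * (β / (199 / 200) * (w - cen z) i)
    have v1 : ‖v‖ ≤ β / 2 := (pi_norm_le_iff_of_nonneg (by positivity)).2 fun i => by
      have h1 : |ε i| = 1 := by rcases e1 i with h | h <;> rw [h] <;> norm_num
      have h2 := (Cone.abs_le_norm (w - cen z) i).trans hy
      rw [Real.norm_eq_abs, abs_mul, h1, one_mul, abs_mul, abs_of_pos (by positivity)]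
      nlinarith
    have v2 : Ψ'.toFun (c' + A v) - c' = (β / (199 / 200)) • (w - cen z) := by
      rw [hΨ, add_sub_cancel_left, add_sub_cancel_left, ← map_smul, e4]
      · funext i
        simp only [v, Pi.smul_apply, smul_eq_mul]
        rw [mul_left_comm (ε i), mul_inv_cancel_left₀ (half_pos ha).ne', ← mul_assoc, ee, one_mul]
      · rw [norm_smul_of_nonneg (by positivity), ← div_eq_inv_mul, div_le_iff₀ (half_pos ha)]
        linarith
    have v3 : (Ψ'.trans R).toFun (c' + A v) = w := by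
      rw [hΦ, a2, v2, smul_smul, show 199 / 200 / β * (β / (199 / 200)) = 1 by field_simp,
        one_smul, add_sub_cancel]
      rw [v2, norm_smul_of_nonneg (by positivity)]
      nlinarith
    have v4 : y = c' + A v := (Ψ'.trans R).injOn (mem_univ _) (mem_univ _) (hw.trans v3.symm)
    refine ⟨mem_ball_iff_norm.2 ?_, fun u hu => funext fun i => ?_⟩
    · have h1 : ‖y - c'‖ ≤ b * ‖v‖ := by
        rw [v4, add_sub_cancel_left]; exact A.le_of_opNorm_le hA.1 _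
      nlinarith [norm_sub_le_norm_sub_add_norm_sub y c' c, mul_le_mul_of_nonneg_left v1 b0.le,
        mul_le_mul_of_nonneg_left q1 b0.le]
    · have h1 : l • (u - fun i => (round (u₀ i) : ℝ)) = v := hinj (by
        rw [map_smul, map_sub, smul_sub, ← add_right_inj c', ← v4, hc', hu]; abel)
      have h2 : l * (u i - round (u₀ i)) = ε i * (β / (199 / 200) * (w i - cen z i)) :=
        congrFun h1 i
      rw [q3, mul_assoc, mul_left_comm l, h2, ← mul_assoc (ε i), ee]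
      field_simp
      ring

end P073.B
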