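import Vale.Agent.P073Y.B.Ct2
import Vale.Agent.P073Y.B.Cer
import Vale.Agent.P073Y.B.HoleA
import Vale.Agent.P073Y.Mo.Tool

/-!
# A zone of the second batch
-/

open Set Metric Topology Filter MeasureTheory
open scoped NNReal ENNReal

namespace P073.B

open P073.Top P073.Zn P073.Mo.Tl HoleA

namespace Z0

/-- the radial map of the unit box -/
theorem rad1 {a : ℝ} (ha : 0 < a) (ha' : a ≤ 1 / 16) (z : Z3) {c : E3}
    (hc : dist c (cen z) ≤ 1 / 4) :
    ∃ R : Hom, (∀ y, y ∉ interior (lbox 1 0 z) → R.toFun y = y) ∧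
      (∀ y ∈ closedBall c a, R.toFun y = cen z + (799 / 1600 / a) • (y - c)) ∧
      ∀ y y', dist (R.toFun y) (R.toFun y') ≤ 20 / a * dist y y' := by
  have h2 : (0:ℝ) < 1 / 2 := by norm_num
  have hn : ∀ v : E3, ‖(1 / 2 : ℝ)⁻¹ • v‖ = 2 * ‖v‖ := fun v => by
    rw [norm_smul_of_nonneg (by norm_num)]; norm_num
  have hd : ∀ y, (1 / 2 : ℝ)⁻¹ • (y - cen z) - (1 / 2 : ℝ)⁻¹ • (c - cen z) =
      (1 / 2 : ℝ)⁻¹ • (y - c) := fun y => by rw [← smul_sub, sub_sub_sub_cancel_right]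
  rw [dist_eq_norm] at hc
  obtain ⟨ρ, a1, a2, a3, -⟩ := An2.rad2 2 (c := (1 / 2 : ℝ)⁻¹ • (c - cen z)) (β := 2 * a)
    (r := 799 / 800) (by rw [hn]; linarith) (by linarith) (by linarith) (by norm_num) (by norm_num)
  obtain ⟨R, hR⟩ := exists_conj ρ (cen z) h2
  refine ⟨R, fun y hy => ?_, fun y hy => ?_, fun y y' => ?_⟩
  · have h1 : 1 / 2 ≤ ‖y - cen z‖ := not_lt.1 fun h => hy (interior_maximal
      (t := ball (cen z) (1 / 2)) (fun w hw => (mem_lbox_one (by norm_num)).2 (by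
        rw [sub_zero]; exact (mem_ball_iff_norm.1 hw).le)) isOpen_ball (mem_ball_iff_norm.2 h))
    rw [hR, a1 _ (by rw [hn]; linarith), smul_inv_smul₀ h2.ne', add_sub_cancel]
  · rw [hR, a2 _ (by rw [hd, hn]; linarith [mem_closedBall_iff_norm.1 hy]), hd, smul_comm,
      smul_inv_smul₀ h2.ne', show 799 / 800 / (2 * a) = 799 / 1600 / a by field_simp; norm_num]
  · rw [dist_eq_norm, dist_eq_norm, hR, hR]
    refine norm_conj h2 ?_
    have := a3 0 _ _ zero_le_one (norm_nonneg ((1 / 2 : ℝ)⁻¹ • (y - cen z) - _))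
      (norm_nonneg ((1 / 2 : ℝ)⁻¹ • (y' - cen z) - _))
    rwa [max_eq_right (by linarith), show 40 / (2 * a) = 20 / a by field_simp; norm_num] at this

/-- the radial maps in all boxes of `Bp` -/
theorem rads {a : ℝ} (ha : 0 < a) (ha' : a ≤ 1 / 16) {Bp : Set Z3} (hB : Bp.Finite) (c : Z3 → E3)
    (hc : ∀ z ∈ Bp, dist (c z) (cen z) ≤ 1 / 4) :
    ∃ Φ : Hom, (∀ y, y ∉ interior (ubox 1 0 Bp) → Φ.toFun y = y) ∧
      (∀ z y, Φ.toFun y ∈ lbox 1 0 z ↔ y ∈ lbox 1 0 z) ∧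
      (∀ y y', dist (Φ.toFun y) (Φ.toFun y') ≤ 41 / a * dist y y') ∧
      ∀ z ∈ Bp, ∀ y, Φ.toFun y ∈ lbox 1 (1 / 1600) z → y ∈ closedBall (c z) a ∧
        Φ.toFun y = cen z + (799 / 1600 / a) • (y - c z) := by
  have : Nonempty Hom := ⟨ConHomeo.refl (IsOpen.conicalSet isOpen_univ)⟩
  choose! R a1 a2 a3 using fun z (hz : z ∈ Bp) => rad1 ha ha' z (hc z hz)
  obtain ⟨Φ, b1, b2, b3, b4⟩ := glue hB R a1
  have e : ∀ z ∈ Bp, ∀ y ∈ closedBall (c z) a,
      Φ.toFun y = cen z + (799 / 1600 / a) • (y - c z) := fun z hz y hy => by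
    rw [b3 z hz y ((mem_lbox_one (by norm_num)).2 ?_), a2 z hz y hy]
    rw [← dist_eq_norm]
    linarith [dist_triangle y (c z) (cen z), mem_closedBall.1 hy, hc z hz]
  refine ⟨Φ, fun y hy => b1 y fun z hz h => hy (int_sub hz h), b2, fun y y' => ?_,
    fun z hz y hy => ?_⟩
  · refine (b4 (20 / a) univ (by positivity) (fun z hz y _ y' _ => a3 z hz y y') y trivial y'
      trivial).trans (mul_le_mul_of_nonneg_right ?_ dist_nonneg)
    rw [show 41 / a = 2 * (20 / a) + 1 / a by ring, add_le_add_iff_left, one_le_div ha]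
    linarith
  · have h1 : c z + (799 / 1600 / a)⁻¹ • (Φ.toFun y - cen z) ∈ closedBall (c z) a := by
      rw [mem_closedBall_iff_norm, add_sub_cancel_left, norm_smul_of_nonneg (by positivity),
        inv_mul_le_iff₀ (by positivity), div_mul_cancel₀ _ ha.ne']
      linarith [(mem_lbox_one (by norm_num)).1 hy]
    have h2 := e z hz _ h1
    rw [add_sub_cancel_left, smul_inv_smul₀ (by positivity), add_sub_cancel] at h2
    rw [Φ.injOn (mem_univ _) (mem_univ _) h2] at h1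
    exact ⟨h1, e z hz y h1⟩

theorem vol_image (o c : E3) {l : ℝ} (hl : 0 ≤ l) (A : Set E3) :
    volume ((fun y => o + l • (y - c)) '' A) = ENNReal.ofReal (l ^ 3) * volume A := by
  have e : (fun y => o + l • (y - c)) '' A =
      (fun y => (o - c) + y) '' (AffineMap.homothety c l '' A) := by
    rw [image_image]
    refine image_congr fun y _ => ?_
    rw [AffineMap.homothety_apply, vsub_eq_sub, vadd_eq_add]
    abel
  rw [e, image_add_left, measure_preimage_add, Measure.addHaar_image_homothety,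
    abs_of_nonneg (pow_nonneg hl _)]
  simp

end Z0

theorem zone0_of {p : ℝ} (hM : MOS2) (hR : ROUND4 p) : ZONE0 := by
  obtain ⟨v₀, C₁, CM₁, v0, -, hM⟩ := hM
  obtain ⟨δ, -, hM⟩ := hM 1 1 le_rfl one_pos
  obtain ⟨c₀, -, hR⟩ := hR
  obtain ⟨C₂, CM₂, -, hR⟩ := hR (1 / 1000) (by norm_num) le_rfl
  obtain ⟨K, hK, hR⟩ := hR (1 / 1000) (by norm_num) le_rfl
  have K1 : (1:ℝ) ≤ K := hK
  have o0 : (0:ℝ) < 1 / K := by positivity
  have o1 : (1:ℝ) / K ≤ 1 := (div_le_one (by positivity)).2 K1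
  have oK : (K:ℝ) * (1 / K) = 1 := by field_simp
  obtain ⟨r₁, r0, hM⟩ := hM (1 / K / 2) (1 / 1000 / 2) (by positivity) (by norm_num)
  refine ⟨v₀, v0, fun a ha ha' => ?_⟩
  obtain ⟨L, hL⟩ : ∃ L : ℝ≥0, (L:ℝ) = 41 / a := ⟨⟨41 / a, by positivity⟩, rfl⟩
  have L0 : (0:ℝ) < L := by rw [hL]; positivity
  refine ⟨C₂ * (C₁ * L), fun M => (CM₂ M + 1) * (2 * ((CM₁ M + 1) * (2 * L + L)) + C₁ * L),
    r₁ / (1600 * L), 1 / K / L, by positivity, by positivity, ?_⟩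
  intro Ω Λ S g B G c μ η hF hΩ hΛ hB hG hη hs ho hz
  have hBp := nbr_finite hB 1
  obtain ⟨Φ, a1, a2, a3, a4⟩ := Z0.rads ha ha' hBp c fun z h => (hz z h).1
  rw [← hL] at a3
  obtain ⟨g₁, e₁⟩ := post g Φ hΛ fun y hy => a1 y fun h => hy (hs (interior_subset h))
  have e1 : ∀ x, g₁.toFun x = Φ.toFun (g.toFun x) := fun x => congrFun e₁ x
  have l1 : 1 ≤ 799 / 1600 / a := by rw [one_le_div ha]; linarith
  have osc : ∀ {φ t}, OscC S g.toFun φ t → OscC S g₁.toFun φ (L * t) := fun h x hx y hy => by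
    rw [e1, e1]
    exact (a3 _ _).trans (mul_le_mul_of_nonneg_left (h x hx y hy) L0.le)
  obtain ⟨η₁, η0, -, hC⟩ := ct2_comp S (hit_finite S g
    (hBp.isCompact_biUnion fun z _ => isCompact_lbox 1 0 z) hs) C₂ CM₂ hη
  obtain ⟨g₂, Bf, G', b1, b2, b3, b4, -, b5⟩ := hM S g₁ (nbr 1 B) (Φ.invFun ⁻¹' G)
    (fun z => μ z / 1600) η₁ hF hΩ hΛ hBp (hG.preimage (continuousOn_univ.1 Φ.cont_inv)) η0 hs
    fun z h => by
      obtain ⟨-, m0, m1, m2, m3, m4⟩ := hz z h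
      have k : ∀ w ∈ lbox 1 (1 / 800) z, Φ.toFun (Φ.invFun w) ∈ lbox 1 (1 / 1600) z :=
        fun w hw => by
          rw [Φ.right_inv (mem_univ w)]
          exact lbox_mono 1 (by norm_num) z hw
      refine ⟨by positivity, by linarith, ?_, m3.push fun w hw => ?_, fun φ hφ x hx y hy => ?_⟩
      · refine (measure_mono (t := (fun y => cen z + (799 / 1600 / a) • (y - c z)) ''
          (closedBall (c z) a \ G)) fun w hw => ⟨Φ.invFun w, ⟨(a4 z h _ (k w hw.1)).1, hw.2⟩,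
            (a4 z h _ (k w hw.1)).2.symm.trans (Φ.right_inv (mem_univ w))⟩).trans ?_
        rw [Z0.vol_image _ _ (by positivity)]
        refine (mul_le_mul_right m2 _).trans ?_
        rw [← ENNReal.ofReal_mul (by positivity)]
        refine ENNReal.ofReal_le_ofReal ?_
        rw [show (799 / 1600 / a) ^ 3 * (v₀ * a ^ 3) = (799 / 1600) ^ 3 * v₀ by field_simp]
        linarith
      · refine ⟨Φ.invFun w, ⟨hw.1, (a4 z h _ (k w hw.2)).1⟩,
          ((AffineEquiv.constVAdd ℝ E3 (-c z)).trans (LinearEquiv.smulOfNeZero ℝ E3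
            (799 / 1600 / a) (by positivity)).toAffineEquiv).trans
            (AffineEquiv.constVAdd ℝ E3 (cen z)), fun x _ hx => ?_⟩
        rw [e1] at hx ⊢
        rw [mem_ball] at hx ⊢
        have k1 := (a4 z h (g.toFun x) (lbox_mono 1 (by linarith) z (lbox_dist hw.2 hx.le))).2
        have k2 := (a4 z h _ (k w hw.2)).2
        rw [Φ.right_inv (mem_univ w)] at k2
        refine ⟨?_, k1.trans (by rw [sub_eq_neg_add]; rfl)⟩
        rw [k1] at hx
        nth_rw 1 [k2] at hx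
        rw [dist_add_left, dist_smul₀, dist_sub_right, Real.norm_of_nonneg (by positivity)] at hx
        linarith [le_mul_of_one_le_left (dist_nonneg (x := g.toFun x) (y := Φ.invFun w)) l1]
      · obtain ⟨u, hu, h1⟩ := mem_hit.1 hφ
        rw [e1] at h1
        refine (osc (m4 φ (mem_hit.2 ⟨u, hu, (a4 z h _ (lbox_mono 1 (by norm_num) z h1)).1⟩))
          x hx y hy).trans (le_of_eq ?_)
        field_simp
  have f1 : ∀ x ∈ Ω, g.toFun x ∉ interior (ubox 1 0 (nbr 1 B)) → g₂.toFun x = g.toFun x :=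
    fun x hx h => by
      have k := (e1 x).trans (a1 _ h)
      rw [b1 x hx fun h' => h ?_, k]
      obtain ⟨z, h1, h2⟩ := mem_iUnion₂.1 h'
      exact k ▸ int_sub h1 (sub_int (by norm_num) z h2)
  have f2 : ∀ x ∈ Ω, ∀ z, g.toFun x ∈ lbox 1 0 z → g₂.toFun x ∈ lbox 1 0 z := fun x hx z h => by
    have k : g₁.toFun x ∈ lbox 1 0 z := e1 x ▸ (a2 z _).2 h
    by_cases h' : g₁.toFun x ∈ ubox 1 (1 / 800) (nbr 1 B)
    · obtain ⟨z', h1, h2⟩ := mem_iUnion₂.1 h'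
      rw [eq_of_mem (by norm_num) k h2]
      exact lbox_mono 1 (by norm_num) z' (b2 x hx z' h1 h2)
    · rwa [b1 x hx h']
  have f3 := hit_eq S g g₂ (Z := ubox 1 0 (nbr 1 B)) fun x hx h => f1 x hx (mt (interior_subset ·) h)
  have f4 : S.Osc g₂.toFun (ubox 1 0 (nbr 1 B)) (1 / K) := fun φ hφ x hx y hy => by
    by_cases h : ∃ z ∈ nbr 1 B, φ ∈ hit S g₁.toFun (lbox 1 (1 / 1000) z)
    · obtain ⟨z, h1, h2⟩ := h
      refine ((b5 z h1).2.1 φ h2 x hx y hy).trans ?_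
      nlinarith [(hz z h1).2.2.1]
    · have k : EqOn g₂.toFun g₁.toFun (S.Q.cell φ) := fun u hu => b1 u (cell_sub φ hu) fun h' => by
        obtain ⟨z, h1, h2⟩ := mem_iUnion₂.1 h'
        exact h ⟨z, h1, mem_hit.2 ⟨u, hu, lbox_mono 1 (by norm_num) z h2⟩⟩
      rw [k hx, k hy]
      refine (osc (ho φ (f3.le hφ)) x hx y hy).trans (le_of_eq ?_)
      field_simp
  obtain ⟨h, Ψ, d1, d2, d3, d4, -⟩ := hR S g₂ 1 B (1 / K) Bf η₁ ∅ (fun _ => 0) (fun _ => 0) hF hΩ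
    hΛ le_rfl hB η0 o0 oK.le hs f4 (fun z h k => ⟨((b5 z h).1 k).1, fun y l hl =>
      (((b5 z h).1 k).2 y l hl).trans (ENNReal.ofReal_le_ofReal (by
        nlinarith [(hz z h).2.2.1]))⟩) b4 fun _ h => h.elim
  refine ⟨h, fun x hx k => ?_, fun x hx => ?_, ?_⟩
  · rw [d2 x hx (Or.inl (by rwa [f1 x hx k])), f1 x hx k]
  · obtain ⟨z, k⟩ := exists_lbox le_rfl (g.toFun x)
    linarith [dist_triangle (h.toFun x) (Ψ (g₂.toFun x)) (g.toFun x), d3 x hx,
      dist_le_one (d1.keep z (f2 x hx z k)) k]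
  · have k0 : Ct2 L (fun _ => L) S g.toFun g₁.toFun ∅ ∅ 0 :=
      e₁ ▸ Ct2.of_lipschitz (LipschitzWith.of_dist_le_mul a3)
    refine (hC (k0.comp0 b3 up_empty) d4 (up_empty.union (up_hit _ _)) fun φ hφ => ?_).mono le_rfl
      (fun _ => le_rfl) (subset_univ _) (fun φ hφ => ?_) le_rfl
    · replace hφ : φ ∉ hit S g₂.toFun (ubox 1 0 (nbr 1 B)) := fun k => hφ (f3.le k)
      exact ⟨eqOn_of_not_hit (fun x hx k => d2 x hx (Or.inl (mt (interior_subset ·) k))) hφ,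
        fun k => absurd (hit_mono (biUnion_subset_biUnion_left (sub_nbr 1 B)) k.1) hφ⟩
    · obtain ⟨x, hx, k⟩ := mem_hit.1 hφ
      obtain ⟨z, k1, k2⟩ := mem_iUnion₂.1 k
      have k3 := f2 x (cell_sub φ hx) z k2
      by_cases k4 : φ ∈ hit S g₂.toFun (ubox 1 (1 / 200) univ)
      · obtain ⟨y, hy, k5⟩ := mem_hit.1 k4
        obtain ⟨z', -, k6⟩ := mem_iUnion₂.1 k5
        have k7 := f4 φ (mem_hit.2 ⟨x, hx, mem_biUnion (sub_nbr 1 B k1) k3⟩) y hy x hx
        exact Or.inl (Or.inr (mem_hit.2 ⟨y, hy, mem_biUnion (nbr_mono le_rfl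
          (singleton_subset_iff.2 k1) (near_of_mem le_rfl (by linarith) k6 (lbox_dist k3 k7))) k6⟩))
      · exact Or.inr ⟨mem_hit.2 ⟨x, hx, mem_biUnion k1 k3⟩, k4⟩

end P073.B
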