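import Vale.Agent.P073Y.B.Lin
import Vale.Agent.P073Y.Op.Open
import Mathlib.Analysis.Matrix.Order

/-!
# A conformal model near the origin at a universal cost
-/

open Set Metric Topology Filter MeasureTheory
open scoped NNReal ENNReal

namespace P073.B

open P073.An (M3)
open P073.Gc (Bil)

/-- `Φ ∘ A` is a homothety near the origin and is Lipschitz relative to the norm of `A` -/
def LINU : Prop := ∃ (r : ℝ) (C : ℝ≥0), 0 < r ∧ r ≤ 1 ∧ 1 ≤ C ∧ ∀ A : M3, Function.Injective A →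
  ∃ (Φ : Hom) (ε : Fin 3 → ℝ), (∀ i, ε i = 1 ∨ ε i = -1) ∧ (∀ y, 1 ≤ ‖y‖ → Φ.toFun y = y) ∧
    (∀ u u', ‖Φ.toFun (A u) - Φ.toFun (A u')‖ ≤ C * ‖A‖ * ‖u - u'‖) ∧
    ∀ u, ‖A‖ * ‖u‖ ≤ r → Φ.toFun (A u) = fun i => ε i * (‖A‖ * u i)

namespace Lu

open Matrix

theorem norm_le_two {v w : E3} (h : v ⬝ᵥ v = w ⬝ᵥ w) : ‖v‖ ≤ 2 * ‖w‖ := by
  refine (pi_norm_le_iff_of_nonneg (by positivity)).2 fun i => ?_
  have h1 : v i * v i ≤ v ⬝ᵥ v :=
    Finset.single_le_sum (f := fun j => v j * v j) (fun j _ => mul_self_nonneg _)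
      (Finset.mem_univ i)
  have h2 : ∀ j, w j * w j ≤ ‖w‖ * ‖w‖ := fun j => by
    have := norm_le_pi_norm w j
    rw [Real.norm_eq_abs] at this
    rw [← abs_mul_abs_self]
    exact mul_self_le_mul_self (abs_nonneg _) this
  have h3 : w ⬝ᵥ w ≤ 3 * (‖w‖ * ‖w‖) := by
    simp only [dotProduct, Fin.sum_univ_three]
    linarith [h2 0, h2 1, h2 2]
  rw [Real.norm_eq_abs]
  refine abs_le_of_sq_le_sq' ?_ (by positivity) |> abs_le.2
  nlinarith [mul_self_nonneg ‖w‖]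

open scoped MatrixOrder in
/-- the positive part of the polar decomposition -/
theorem exists_pos (A : M3) : ∃ P : E3 →ₗ[ℝ] E3, (∀ u, 0 ≤ P u ⬝ᵥ u) ∧
    ∀ u, P u ⬝ᵥ P u = A u ⬝ᵥ A u := by
  let N : Matrix (Fin 3) (Fin 3) ℝ := LinearMap.toMatrix' (A : E3 →ₗ[ℝ] E3)
  have hN : ∀ u, N *ᵥ u = A u := fun u => LinearMap.toMatrix'_mulVec _ u
  have h0 : (0 : Matrix (Fin 3) (Fin 3) ℝ) ≤ Nᴴ * N :=
    nonneg_iff_posSemidef.2 (posSemidef_conjTranspose_mul_self N)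
  have h1 : (CFC.sqrt (Nᴴ * N)).PosSemidef := nonneg_iff_posSemidef.1 (CFC.sqrt_nonneg _)
  have h2 : CFC.sqrt (Nᴴ * N) * CFC.sqrt (Nᴴ * N) = Nᴴ * N := CFC.sqrt_mul_sqrt_self _ h0
  generalize CFC.sqrt (Nᴴ * N) = S at h1 h2
  have h3 : Sᵀ = S := by simpa [conjTranspose_eq_transpose_of_trivial] using h1.1.eq
  refine ⟨Matrix.toLin' S, fun u => ?_, fun u => ?_⟩
  · have := h1.dotProduct_mulVec_nonneg u
    rwa [star_trivial, dotProduct_comm] at this
  · rw [toLin'_apply, ← hN, dotProduct_mulVec, dotProduct_mulVec, vecMul_mulVec, vecMul_mulVec,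
      h3, h2, conjTranspose_eq_transpose_of_trivial]

/-- a linear homeomorphism -/
noncomputable def hom (e : E3 ≃ₗ[ℝ] E3) : Hom where
  toFun := e
  invFun := e.symm
  mapsTo := mapsTo_univ _ _
  mapsTo_inv := mapsTo_univ _ _
  left_inv := fun y _ => e.symm_apply_apply y
  right_inv := fun y _ => e.apply_symm_apply y
  cont := e.toLinearMap.continuous_of_finiteDimensional.continuousOn
  cont_inv := e.symm.toLinearMap.continuous_of_finiteDimensional.continuousOn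
  conical := conicalOn_linear e.toLinearMap A2.conicalSet_univ

/-- the polar decomposition, the positive part normalised by the norm of `A` -/
theorem polar {A : M3} (hA : Function.Injective A) : ∃ R G : E3 ≃ₗ[ℝ] E3,
    (∀ u, A u = R (G (‖A‖ • u))) ∧ (∀ u, ‖R u‖ ≤ 2 * ‖u‖) ∧ (∀ u, ‖u‖ ≤ 2 * ‖R u‖) ∧
    (∀ u, ‖G u‖ ≤ 2 * ‖u‖) ∧ (∀ u, 0 ≤ G u ⬝ᵥ u) ∧ 0 < ‖A‖ := by
  obtain ⟨P, h1, h2⟩ := exists_pos A
  have a0 : 0 < ‖A‖ := norm_pos_iff.2 fun h => by
    have := hA (show A 1 = A 0 by rw [h]; rfl)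
    exact one_ne_zero (congrFun this 0)
  have hP : Function.Injective P := (injective_iff_map_eq_zero P).2 fun u hu => by
    have := norm_le_two (h2 u).symm
    rw [hu, norm_zero, mul_zero] at this
    exact hA ((norm_le_zero_iff.1 this).trans (map_zero A).symm)
  let p := LinearEquiv.ofInjectiveEndo P hP
  let a := LinearEquiv.ofInjectiveEndo (A : E3 →ₗ[ℝ] E3) hA
  have e1 : ∀ u, P (p.symm u) = u := p.apply_symm_apply
  refine ⟨p.symm.trans a, (LinearEquiv.smulOfNeZero ℝ E3 _ (inv_pos.2 a0).ne').trans p,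
    fun u => ?_, fun u => ?_, fun u => ?_, fun u => ?_, fun u => ?_, a0⟩
  · change A u = A (p.symm (p (‖A‖⁻¹ • ‖A‖ • u)))
    rw [p.symm_apply_apply, inv_smul_smul₀ a0.ne']
  · have := norm_le_two (h2 (p.symm u)).symm
    rwa [e1] at this
  · have := norm_le_two (h2 (p.symm u))
    rwa [e1] at this
  · change ‖P (‖A‖⁻¹ • u)‖ ≤ _
    refine (norm_le_two (h2 _)).trans ?_
    have := A.le_opNorm (‖A‖⁻¹ • u)
    rw [norm_smul_of_nonneg (inv_pos.2 a0).le, mul_inv_cancel_left₀ a0.ne'] at this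
    linarith
  · change 0 ≤ P (‖A‖⁻¹ • u) ⬝ᵥ u
    rw [map_smul, smul_dotProduct]
    exact mul_nonneg (inv_pos.2 a0).le (h1 u)

end Lu

open Lu

theorem linu : LINU := by
  obtain ⟨r, C, r0, r1, hl⟩ := lin 64 (by norm_num)
  refine ⟨min r (1 / 1536), 1200 * C + 1, by positivity, (min_le_left _ _).trans r1, le_add_self,
    fun A hA => ?_⟩
  obtain ⟨R, G, h1, h2, h3, h4, h5, a0⟩ := polar hA
  obtain ⟨H, k1, k2, -, k4⟩ := Op.open_thm 2 (hom G) (Finset.univ : Finset Unit) (fun _ => 0)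
    (1 / 2) (by norm_num)
    (LipschitzWith.of_dist_le_mul fun x y => by
      rw [dist_eq_norm, dist_eq_norm]
      change ‖G x - G y‖ ≤ _
      rw [← map_sub]
      exact h4 _)
    (fun y y' => by
      have := h5 (y - y')
      rw [map_sub] at this
      exact this)
    (by norm_num) (fun i _ j _ h => absurd rfl h)
  let B : M3 := (32 : ℝ) • (R : E3 →ₗ[ℝ] E3).toContinuousLinearMap
  have hB : ∀ u, B u = (32 : ℝ) • R u := fun u => rfl
  obtain ⟨Ψ, ε, e1, e2, e3, e4⟩ := hl B ⟨B.opNorm_le_bound (by norm_num) fun u => by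
      rw [hB, norm_smul_of_nonneg (by norm_num)]
      linarith [h2 u], fun u => by
      rw [hB, norm_smul_of_nonneg (by norm_num)]
      linarith [h3 u, norm_nonneg (R u)]⟩
  let Φ : Hom := (((hom (G.trans R)).symm.trans H).trans (hom R)).trans Ψ
  have hΦ : ∀ x, Φ.toFun (R (G x)) = Ψ.toFun (R (H.toFun x)) := fun x =>
    congrArg (fun w => Ψ.toFun (R (H.toFun w))) ((G.trans R).symm_apply_apply x)
  refine ⟨Φ, ε, e1, fun y hy => ?_, fun u u' => ?_, fun u hu => ?_⟩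
  · obtain ⟨x, rfl⟩ := (G.trans R).surjective y
    change 1 ≤ ‖R (G x)‖ at hy
    change Φ.toFun (R (G x)) = R (G x)
    rw [hΦ, k2 x fun _ _ => ?_]
    · exact e3 _ hy
    · change 1 / 2 ≤ dist (G x) (G 0)
      rw [map_zero, dist_zero_right]
      linarith [h2 (G x)]
  · rw [h1, h1, hΦ, hΦ]
    have b1 := e2.norm_sub_le (R (H.toFun (‖A‖ • u))) (R (H.toFun (‖A‖ • u')))
    have b2 := h2 (H.toFun (‖A‖ • u) - H.toFun (‖A‖ • u'))
    have b3 := k1.norm_sub_le (‖A‖ • u) (‖A‖ • u')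
    rw [← smul_sub, norm_smul_of_nonneg a0.le] at b3
    rw [map_sub] at b2
    push_cast at b3 ⊢
    have b4 : 0 ≤ ‖A‖ * ‖u - u'‖ := by positivity
    have b5 := mul_le_mul_of_nonneg_left (b2.trans (mul_le_mul_of_nonneg_left b3 zero_le_two))
      C.coe_nonneg
    nlinarith
  · obtain ⟨u1, u2⟩ := le_min_iff.1 hu
    have hn : ‖‖A‖ • u‖ = ‖A‖ * ‖u‖ := norm_smul_of_nonneg a0.le _
    rw [h1, hΦ, k4 () (Finset.mem_univ _) _ (by
      rw [mem_closedBall_zero_iff, hn]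
      refine u2.trans (le_of_eq ?_)
      norm_num)]
    have : R ((hom G).toFun 0 + (16 * (2 : ℝ≥0) : ℝ) • (‖A‖ • u - 0)) = B (‖A‖ • u) := by
      change R (G 0 + _) = _
      rw [map_zero, zero_add, sub_zero, map_smul, hB]
      norm_num
    rw [this, e4 _ (hn.trans_le u1)]
    rfl

end P073.B
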