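import Vale.Agent.P073Y.B.Defs2
import Vale.Agent.P073Y.B.HoleA
import Vale.Agent.P073Y.B.Linu

/-!
# The aligned hole at a universal price
-/

open Set Metric Topology Filter MeasureTheory
open scoped NNReal ENNReal

namespace P073.B

open P073.Top P073.An2 HoleA

theorem holeb_of (hL : LINU) : HOLEB := by
  intro a ha ha'
  obtain ⟨r, C, r0, r1, -, hl⟩ := hL
  obtain ⟨β₁, p1⟩ : ∃ β₁ : ℝ, β₁ = a * r / 2 := ⟨_, rfl⟩
  have p0 : 0 < β₁ := by rw [p1]; positivity
  have p2 : a * r ≤ a := mul_le_of_le_one_right ha.le r1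
  refine ⟨(80 / β₁).toNNReal * (C + 1) + 1, le_add_self, fun s₀ hs₀ =>
    ⟨min (β₁ / 4) (s₀ * β₁ / 2), by positivity, fun z c y₀ A hc l1 => ?_⟩⟩
  obtain ⟨Ψ, ε, e1, e3, e2, e4⟩ := hl A A.injective
  simp only [ContinuousLinearEquiv.coe_coe] at e2 e4
  have hA : ∀ u, ‖A u‖ ≤ ‖(A : E3 →L[ℝ] E3)‖ * ‖u‖ := fun u => (A : E3 →L[ℝ] E3).le_opNorm u
  have l0 : 0 < ‖(A : E3 →L[ℝ] E3)‖ := A.norm_pos
  generalize ‖(A : E3 →L[ℝ] E3)‖ = l at *
  obtain ⟨l2, l3⟩ := le_min_iff.1 l1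
  obtain ⟨u₀, hu₀⟩ := A.surjective (c - y₀)
  obtain ⟨c', hc'⟩ : ∃ c', c' = y₀ + A fun i => round (u₀ i) := ⟨_, rfl⟩
  have c1 : ‖c' - c‖ ≤ a / 8 := by
    have h1 : c' - c = A ((fun i => (round (u₀ i) : ℝ)) - u₀) := by
      rw [map_sub, hu₀, hc']; abel
    have h2 : ‖(fun i => (round (u₀ i) : ℝ)) - u₀‖ ≤ 1 :=
      (pi_norm_le_iff_of_nonneg zero_le_one).2 fun i => by
        rw [Pi.sub_apply, Real.norm_eq_abs, abs_sub_comm]
        linarith [abs_sub_round (u₀ i)]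
    rw [h1]
    linarith [hA ((fun i => (round (u₀ i) : ℝ)) - u₀), mul_le_of_le_one_right l0.le h2]
  rw [dist_eq_norm] at hc
  have c2 : ‖c' - cen z‖ ≤ 1 / 4 := by linarith [norm_sub_le_norm_sub_add_norm_sub c' c (cen z)]
  obtain ⟨m, hm⟩ : ∃ m : ℕ, m = ⌊β₁ / (199 / 96 * l)⌋₊ := ⟨_, rfl⟩
  have m1 : m * (199 / 96 * l) ≤ β₁ := by
    rw [← le_div_iff₀ (by positivity), hm]; exact Nat.floor_le (by positivity)
  have m2 : β₁ < (m + 1) * (199 / 96 * l) := by
    rw [← div_lt_iff₀ (by positivity), hm]; exact Nat.lt_floor_add_one _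
  have m3 : 1 ≤ m := Nat.one_le_iff_ne_zero.2 fun h => by
    rw [h] at m2; push_cast at m2; linarith
  have m4 : (1:ℝ) ≤ m := by exact_mod_cast m3
  obtain ⟨β, hβ⟩ : ∃ β : ℝ, β = m * (199 / 96 * l) := ⟨_, rfl⟩
  have q1 : β ≤ β₁ := hβ ▸ m1
  have q2 : β₁ / 2 ≤ β := by nlinarith
  have q0 : 0 < β := by linarith
  have q3 : 48 / (100 * m) = 199 / 200 / β * l := by rw [hβ]; field_simp; norm_num
  have q4 : 40 / β ≤ 80 / β₁ := by rw [div_le_div_iff₀ q0 p0]; linarith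
  have q5 : (((80 / β₁).toNNReal * (C + 1) + 1 : ℝ≥0) : ℝ) = 80 / β₁ * (C + 1) + 1 := by
    push_cast; rw [Real.coe_toNNReal _ (by positivity)]
  have q6 : 0 ≤ 80 / β₁ := by positivity
  have q7 : 0 ≤ 80 / β₁ * C := by positivity
  obtain ⟨R, a1, a2, a3, -⟩ := exists_rad c2 q0 (by linarith)
  obtain ⟨Ψ', hΨ⟩ := exists_conj Ψ c' (half_pos ha)
  have hΦ : ∀ y, (Ψ'.trans R).toFun y = R.toFun (Ψ'.toFun y) := fun y => rfl
  have f1 : ∀ y, a / 2 ≤ ‖y - c'‖ → Ψ'.toFun y = y := fun y hy => by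
    rw [hΨ, e3, smul_inv_smul₀ (half_pos ha).ne', add_sub_cancel]
    rwa [norm_smul_of_nonneg (by positivity), ← div_eq_inv_mul, one_le_div (half_pos ha)]
  have f2 : ∀ u, y₀ + A u - c' = A (u - fun i => (round (u₀ i) : ℝ)) := fun u => by
    rw [map_sub, hc']; abel
  refine ⟨Ψ'.trans R, ε, fun i => round (u₀ i), m, e1, m3, ?_, fun y hy => ?_, ?_,
    fun u u' => ?_, fun y hy => ?_⟩
  · rw [q3, div_mul_eq_mul_div, div_le_iff₀ q0]
    nlinarith
  · have h1 : 1 / 2 ≤ ‖y - cen z‖ := not_lt.1 fun h => hy (interior_maximal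
      (t := ball (cen z) (1 / 2)) (fun w hw => (mem_lbox_one (by norm_num)).2 (by
        rw [sub_zero]; exact (mem_ball_iff_norm.1 hw).le)) isOpen_ball (mem_ball_iff_norm.2 h))
    rw [hΦ, f1 y (by linarith [norm_sub_le_norm_sub_add_norm_sub y c' (cen z)]), a1 y h1]
  · refine LipschitzOnWith.of_dist_le_mul fun y hy y' hy' => ?_
    have h1 : ∀ y ∈ (ball c a)ᶜ, a / 2 ≤ ‖y - c'‖ := fun y hy => by
      linarith [not_lt.1 fun h => hy (mem_ball_iff_norm.2 h),
        norm_sub_le_norm_sub_add_norm_sub y c' c]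
    rw [dist_eq_norm, dist_eq_norm, hΦ, hΦ, f1 y (h1 y hy), f1 y' (h1 y' hy'), q5]
    exact (a3 y y').trans (mul_le_mul_of_nonneg_right (by linarith) (norm_nonneg _))
  · have h1 : ‖Ψ'.toFun (y₀ + A u) - Ψ'.toFun (y₀ + A u')‖ ≤ C * l * ‖u - u'‖ := by
      have h2 := e2 ((a / 2)⁻¹ • (u - fun i => (round (u₀ i) : ℝ)))
        ((a / 2)⁻¹ • (u' - fun i => (round (u₀ i) : ℝ)))
      rw [← smul_sub, sub_sub_sub_cancel_right, norm_smul_of_nonneg (by positivity), map_smul,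
        map_smul, ← f2, ← f2] at h2
      rw [hΨ, hΨ, add_sub_add_left_eq_sub, ← smul_sub, norm_smul_of_nonneg (half_pos ha).le]
      refine (mul_le_mul_of_nonneg_left h2 (half_pos ha).le).trans (le_of_eq ?_)
      field_simp
    rw [dist_eq_norm, dist_eq_norm, hΦ, hΦ, q5]
    refine ((a3 _ _).trans (mul_le_mul q4 h1 (norm_nonneg _) q6)).trans ?_
    rw [← mul_assoc, ← mul_assoc]
    gcongr
    linarith
  · generalize hw : (Ψ'.trans R).toFun y = w at hy ⊢
    rw [mem_lbox_one (by norm_num)] at hy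
    have ee : ∀ i, ε i * ε i = 1 := fun i => by rcases e1 i with h | h <;> rw [h] <;> norm_num
    let v : E3 := fun i => ε i * (β / (199 / 200) * (w - cen z) i)
    have v1 : ‖v‖ ≤ β / 2 := (pi_norm_le_iff_of_nonneg (by positivity)).2 fun i => by
      have h1 : |ε i| = 1 := by rcases e1 i with h | h <;> rw [h] <;> norm_num
      have h2 := (Cone.abs_le_norm (w - cen z) i).trans hy
      rw [Real.norm_eq_abs, abs_mul, h1, one_mul, abs_mul, abs_of_pos (by positivity)]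
      nlinarith
    have v0 : l * ‖l⁻¹ • v‖ = ‖v‖ := by
      rw [norm_smul_of_nonneg (by positivity), mul_inv_cancel_left₀ l0.ne']
    have v2 : Ψ'.toFun (c' + A (l⁻¹ • v)) - c' = (β / (199 / 200)) • (w - cen z) := by
      rw [hΨ, add_sub_cancel_left, add_sub_cancel_left, ← map_smul, e4]
      · funext i
        simp only [v, Pi.smul_apply, smul_eq_mul]
        calc _ = ε i * ε i * (β / (199 / 200) * (w - cen z) i) := by field_simp
          _ = _ := by rw [ee, one_mul]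
      · rw [norm_smul_of_nonneg (by positivity), mul_left_comm, v0, ← div_eq_inv_mul,
          div_le_iff₀ (half_pos ha)]
        linarith
    have v3 : (Ψ'.trans R).toFun (c' + A (l⁻¹ • v)) = w := by
      rw [hΦ, a2, v2, smul_smul, show 199 / 200 / β * (β / (199 / 200)) = 1 by field_simp,
        one_smul, add_sub_cancel]
      rw [v2, norm_smul_of_nonneg (by positivity)]
      nlinarith
    have v4 : y = c' + A (l⁻¹ • v) :=
      (Ψ'.trans R).injOn (mem_univ _) (mem_univ _) (hw.trans v3.symm)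
    refine ⟨mem_ball_iff_norm.2 ?_, fun u hu => funext fun i => ?_⟩
    · have h1 : ‖y - c'‖ ≤ ‖v‖ := by rw [v4, add_sub_cancel_left, ← v0]; exact hA _
      linarith [norm_sub_le_norm_sub_add_norm_sub y c' c]
    · have h1 : (u - fun i => (round (u₀ i) : ℝ)) = l⁻¹ • v := A.injective (by
        rw [← f2, ← hu, v4, add_sub_cancel_left])
      have h2 : u i - round (u₀ i) = l⁻¹ * (ε i * (β / (199 / 200) * (w i - cen z i))) :=
        congrFun h1 i
      rw [q3, h2, mul_left_comm (ε i), ← mul_assoc (ε i), ee]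
      field_simp
      ring

theorem holeb : HOLEB := holeb_of linu

end P073.B
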