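import Vale.Agent.P073Y.B.Defs
import Vale.Agent.P073Y.An2.Zeta
import Vale.Agent.P073Z.PUSH.B

/-!
# Squeezing the neighbourhood of the sides of a box
-/

open Set Metric Topology Filter
open scoped NNReal

namespace P073.B

open P073.An2 P073.A2

namespace Sqz

/-- the signed distance to the sides -/
noncomputable def dm (lo hi y : E3) : ℝ :=
  Finset.univ.inf' Finset.univ_nonempty fun i => min (y i - lo i) (hi i - y i)

variable {lo hi y : E3} {t l h a ε σ τ : ℝ}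

theorem le_dm : t ≤ dm lo hi y ↔ ∀ i, lo i + t ≤ y i ∧ y i ≤ hi i - t := by
  simp only [dm, Finset.le_inf'_iff, Finset.mem_univ, true_imp_iff, le_min_iff]
  exact forall_congr' fun i => and_congr le_sub_iff_add_le' le_sub_comm

theorem lt_dm : t < dm lo hi y ↔ ∀ i, lo i + t < y i ∧ y i < hi i - t := by
  simp only [dm, Finset.lt_inf'_iff, Finset.mem_univ, true_imp_iff, lt_min_iff]
  exact forall_congr' fun i => and_congr lt_sub_iff_add_lt' lt_sub_comm

theorem mem_iff : y ∈ Icc (fun i => lo i + t) (fun i => hi i - t) ↔ t ≤ dm lo hi y := by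
  simp only [le_dm, mem_Icc, Pi.le_def, forall_and]

theorem dm_sub (lo hi y y' : E3) : dm lo hi y - dm lo hi y' ≤ ‖y - y'‖ := by
  refine sub_le_comm.1 (le_dm.2 fun i => ?_)
  have h1 := le_dm.1 (le_refl (dm lo hi y)) i
  have h2 := abs_le.1 (norm_le_pi_norm (y - y') i)
  rw [Pi.sub_apply] at h2
  exact ⟨by linarith [h1.1, h2.2], by linarith [h1.2, h2.1]⟩

theorem clp_eq {x : ℝ} (h0 : 0 ≤ τ) (h1 : τ ≤ a) (ha : 0 < a) :
    clp 0 a x = τ ↔ (τ = 0 ∨ τ ≤ x) ∧ (τ = a ∨ ¬ τ < x) := by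
  unfold clp
  simp only [max_def, min_def, not_lt]
  split_ifs <;> grind

/-- the map of one coordinate -/
noncomputable def f1 (l h a ε τ s : ℝ) : ℝ :=
  med (fun s => l + ε + (h - l - 2 * ε) / (h - l - 2 * a) * (s - l - a)) s ((1 - ε / a) * τ)

section one
variable (hε : 0 < ε) (ha : ε ≤ a) (hl : l + 4 * a ≤ h)
include hε ha hl

theorem sig : 1 ≤ (h - l - 2 * ε) / (h - l - 2 * a) ∧ (h - l - 2 * ε) / (h - l - 2 * a) ≤ 2 ∧
    (h - l - 2 * ε) / (h - l - 2 * a) * (h - l - 2 * a) = h - l - 2 * ε :=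
  ⟨(one_le_div (by linarith)).2 (by linarith), (div_le_iff₀ (by linarith)).2 (by linarith),
    div_mul_cancel₀ _ (by linarith)⟩

theorem f1_mono (τ : ℝ) : StrictMono (f1 l h a ε τ) := fun s s' hs =>
  max_lt_max (by linarith) (min_lt_min (by nlinarith [(sig hε ha hl).1]) (by linarith))

theorem f1_ends (h0 : 0 ≤ τ) (h1 : τ ≤ a) :
    f1 l h a ε τ (l + τ) = l + ε / a * τ ∧ f1 l h a ε τ (h - τ) = h - ε / a * τ := by
  obtain ⟨s1, -, s3⟩ := sig hε ha hl
  have r1 : ε / a ≤ 1 := (div_le_one (hε.trans_le ha)).2 ha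
  have r2 : ε / a * a = ε := div_mul_cancel₀ _ (hε.trans_le ha).ne'
  have r3 := mul_le_mul_of_nonneg_right (r1.trans s1) (sub_nonneg.2 h1)
  have r4 := mul_nonneg (sub_nonneg.2 r1) h0
  unfold f1 med
  constructor
  · rw [max_eq_left ((min_le_left _ _).trans (by linarith))]
    ring
  · rw [min_eq_right (by linarith), max_eq_right (by linarith)]
    ring

theorem f1_mid {s : ℝ} (h0 : l + a ≤ s) (h1 : s ≤ h - a) :
    f1 l h a ε a s = l + ε + (h - l - 2 * ε) / (h - l - 2 * a) * (s - l - a) := by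
  obtain ⟨s1, -, s3⟩ := sig hε ha hl
  have r2 : ε / a * a = ε := div_mul_cancel₀ _ (hε.trans_le ha).ne'
  have r3 := mul_le_mul_of_nonneg_right s1 (sub_nonneg.2 h0)
  have r4 := mul_le_mul_of_nonneg_right s1 (sub_nonneg.2 h1)
  exact med_of_near (abs_le.2 ⟨by linarith, by linarith⟩)

theorem f1_lip (τ τ' s s' : ℝ) {e : ℝ} (h0 : |s - s'| ≤ e) (h1 : |τ - τ'| ≤ e) :
    |f1 l h a ε τ s - f1 l h a ε τ' s'| ≤ 4 * e := by
  obtain ⟨s1, s2, -⟩ := sig hε ha hl
  have e0 := (abs_nonneg _).trans h0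
  have r0 : 0 ≤ ε / a := div_nonneg hε.le (hε.le.trans ha)
  have r1 : ε / a ≤ 1 := (div_le_one (hε.trans_le ha)).2 ha
  refine (abs_med_sub _ _ _ _ _).trans (max_le ?_ ?_)
  · rw [add_sub_add_left_eq_sub, ← mul_sub, abs_mul, abs_of_nonneg (by linarith),
      sub_sub_sub_cancel_right, sub_sub_sub_cancel_right]
    linarith [mul_le_mul s2 h0 (abs_nonneg _) zero_le_two]
  · rw [← mul_sub, abs_mul, abs_of_nonneg (sub_nonneg.2 r1)]
    linarith [mul_le_mul (by linarith : 1 - ε / a ≤ 1) h1 (abs_nonneg _) zero_le_one]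

end one

theorem f1_surj (l h a ε τ : ℝ) (h0 : 0 ≤ (1 - ε / a) * τ) :
    Function.Surjective (f1 l h a ε τ) := by
  refine Continuous.surjective (by unfold f1 med; fun_prop) ?_ ?_
  · exact tendsto_atTop_mono (fun s => le_max_left _ _) (tendsto_atTop_add_const_right _ _ tendsto_id)
  · exact tendsto_atBot_mono (f := fun s => s + (1 - ε / a) * τ) (fun s => max_le (by linarith)
      (min_le_right _ _)) (tendsto_atBot_add_const_right _ _ tendsto_id)

theorem key (hε : 0 < ε) (ha : ε ≤ a) (hl : ∀ i, lo i + 4 * a ≤ hi i) (h0 : 0 ≤ τ) (h1 : τ ≤ a)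
    (y : E3) : clp 0 a (dm lo hi y) = τ ↔
      clp 0 ε (dm lo hi fun i => f1 (lo i) (hi i) a ε τ (y i)) = ε / a * τ := by
  have a0 := hε.trans_le ha
  have r0 : 0 < ε / a := div_pos hε a0
  have r2 : ε / a * a = ε := div_mul_cancel₀ _ a0.ne'
  rw [clp_eq h0 h1 a0, clp_eq (mul_nonneg r0.le h0)
    ((mul_le_mul_of_nonneg_left h1 r0.le).trans_eq r2) hε, le_dm, le_dm, lt_dm, lt_dm]
  refine and_congr (or_congr (by simp [hε.ne', a0.ne']) (forall_congr' fun i => ?_))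
    (or_congr ⟨fun e => e ▸ r2, fun e => mul_left_cancel₀ r0.ne' (e.trans r2.symm)⟩
      (not_congr (forall_congr' fun i => ?_)))
  · rw [← (f1_ends hε ha (hl i) h0 h1).1, ← (f1_ends hε ha (hl i) h0 h1).2,
      (f1_mono hε ha (hl i) τ).le_iff_le, (f1_mono hε ha (hl i) τ).le_iff_le]
  · rw [← (f1_ends hε ha (hl i) h0 h1).1, ← (f1_ends hε ha (hl i) h0 h1).2,
      (f1_mono hε ha (hl i) τ).lt_iff_lt, (f1_mono hε ha (hl i) τ).lt_iff_lt]

end Sqz

open Sqz in
theorem sqz : SQZ := by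
  intro lo hi a ε hε ha hl
  have a0 := hε.trans_le ha
  have r0 : 0 < ε / a := div_pos hε a0
  have r1 : ε / a ≤ 1 := (div_le_one a0).2 ha
  have r2 : ε / a * a = ε := div_mul_cancel₀ _ a0.ne'
  have c0 : ∀ b x : ℝ, 0 ≤ clp 0 b x := fun b x => le_max_left _ _
  have c1 : ∀ b x : ℝ, 0 ≤ b → clp 0 b x ≤ b := fun b x hb => max_le hb (min_le_right _ _)
  have c2 : ∀ b x : ℝ, 0 < b → (clp 0 b x = b ↔ b ≤ x) := fun b x hb => by
    simp [clp_eq hb.le le_rfl hb, hb.ne']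
  let f : E3 → E3 := fun y i => f1 (lo i) (hi i) a ε (clp 0 a (dm lo hi y)) (y i)
  have k1 : ∀ y, clp 0 ε (dm lo hi (f y)) = ε / a * clp 0 a (dm lo hi y) := fun y =>
    (key hε ha hl (c0 _ _) (c1 _ _ a0.le) y).1 rfl
  have out : ∀ y, y ∉ interior (Icc lo hi) → f y = y := fun y hy => funext fun i => by
    have h1 : dm lo hi y ≤ 0 := not_lt.1 fun h => hy (by
      rw [← pi_univ_Icc, interior_pi_set finite_univ]
      intro i _
      simpa using lt_dm.1 h i)
    simp only [f, f1, clp_of_le h1, mul_zero, med_zero]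
  have hu := conicalSet_univ (E := E3)
  have p0 : PLOn (fun y => (1 - ε / a) * clp 0 a (dm lo hi y)) univ :=
    pl_mul _ (pl_max (pl_const _ hu) (pl_min (pl_inf' _ _ fun i _ => pl_min
      (pl_sub (pl_proj i hu) (pl_const _ hu)) (pl_sub (pl_const _ hu) (pl_proj i hu)))
      (pl_const _ hu)))
  obtain ⟨R, hR⟩ := (isCompact_Icc (a := lo) (b := hi)).isBounded.subset_ball 0
  obtain ⟨Φ, hΦ⟩ := PU.exists_ofBij (f := f) (pl_pi hu fun i => pl_max (pl_sub (pl_proj i hu) p0)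
    (pl_min (pl_add (pl_const _ hu) (pl_mul _ (pl_sub (pl_sub (pl_proj i hu) (pl_const _ hu))
      (pl_const _ hu)))) (pl_add (pl_proj i hu) p0))) ⟨fun y y' e => funext fun i => by
      have h1 := mul_left_cancel₀ r0.ne' ((k1 y).symm.trans (e ▸ k1 y'))
      have h2 := congrFun e i
      simp only [f, h1] at h2
      exact (f1_mono hε ha (hl i) _).injective h2, fun w => by
      obtain ⟨τ, hτ⟩ : ∃ τ, clp 0 ε (dm lo hi w) = ε / a * τ := ⟨_, (mul_div_cancel₀ _ r0.ne').symm⟩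
      have h0 : 0 ≤ τ := nonneg_of_mul_nonneg_right (hτ ▸ c0 _ _) r0
      have h1 : τ ≤ a := le_of_mul_le_mul_left (hτ ▸ r2.symm ▸ c1 _ _ hε.le) r0
      choose y hy using fun i => f1_surj (lo i) (hi i) a ε τ (mul_nonneg (sub_nonneg.2 r1) h0) (w i)
      refine ⟨y, funext fun i => ?_⟩
      simp only [f, (key hε ha hl h0 h1 y).2 (by simpa only [hy] using hτ), hy]⟩ (R := R)
    fun y hy => out y fun h => (mem_ball_zero_iff.1 (hR (interior_subset h))).not_ge hy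
  refine ⟨Φ, hΦ ▸ LipschitzWith.of_dist_le_mul fun y y' => ?_, hΦ ▸ out, fun y => ⟨?_, fun h i => ?_⟩⟩
  · rw [dist_eq_norm, dist_eq_norm]
    refine (pi_norm_le_iff_of_nonneg (by positivity)).2 fun i => f1_lip hε ha (hl i) _ _ _ _
      (norm_le_pi_norm (y - y') i) ((abs_max_sub_max_le_max _ _ _ _).trans (max_le (by simp)
        ((abs_min_sub_min_le_max _ _ _ _).trans (max_le (abs_sub_le_iff.2
          ⟨dm_sub _ _ _ _, norm_sub_rev y y' ▸ dm_sub _ _ _ _⟩) (by simp)))))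
  · rw [hΦ, mem_iff, mem_iff, ← c2 _ _ hε, ← c2 _ _ a0, k1]
    exact ⟨fun e => mul_left_cancel₀ r0.ne' (e.trans r2.symm), fun e => e.symm ▸ r2⟩
  · simp only [hΦ, f, (c2 _ _ a0).2 (mem_iff.1 h)]
    exact f1_mid hε ha (hl i) (h.1 i) (h.2 i)

end P073.B
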