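import Vale.Agent.P073Y.B.Ct2

/-!
# Gluing of modifications with disjoint supports, cell by cell
-/

open Set Metric Topology Filter
open scoped NNReal ENNReal

namespace P073.B

open P073.Top P073.Zn

variable {Ω Λ : Set E3} {S : Src Ω}

/-- `H` is glued from the maps `h i`, which agree with `g` off the preimages of the `M i` -/
structure Glued {ι : Type} (S : Src Ω) (M : ι → Set E3) (g : E3 → E3) (h : ι → E3 → E3)
    (H : E3 → E3) : Prop where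
  off : ∀ x ∈ Ω, (∀ j, g x ∉ M j) → H x = g x
  on : ∀ i, ∀ x ∈ Ω, g x ∈ M i → H x = h i x
  on' : ∀ i, ∀ x ∈ Ω, (∀ j, j ≠ i → g x ∉ M j) → H x = h i x
  iff : ∀ i, ∀ x ∈ Ω, H x ∈ M i ↔ g x ∈ M i

theorem layer4 {ι : Type} (S : Src Ω) (g : ConHomeo Ω Λ) (h : ι → ConHomeo Ω Λ) (M : ι → Set E3)
    (hc : ∀ i, IsClosed (M i)) (hl : LFIn M Λ) (hd : ∀ i j, i ≠ j → Disjoint (M i) (M j))
    (he : ∀ i, ∀ x ∈ Ω, g.toFun x ∉ M i → (h i).toFun x = g.toFun x) :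
    ∃ H : ConHomeo Ω Λ, Glued S M g.toFun (fun i => (h i).toFun) H.toFun := by
  obtain ⟨H, H0, Hi⟩ := Rd.par g h M (fun i y _ hy => (hc i).closure_subset hy) hl hd he
  have on : ∀ i, ∀ x ∈ Ω, g.toFun x ∈ M i → H.toFun x = (h i).toFun x := fun i x hx hi =>
    Hi i x hx fun j hj h1 => disjoint_left.1 (hd j i hj) h1 hi
  have fw : ∀ i, ∀ x ∈ Ω, g.toFun x ∈ M i → H.toFun x ∈ M i := fun i x hx hi => by
    rw [on i x hx hi]
    exact (Rd.mem_iff g (h i) (he i) hx).2 hi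
  refine ⟨H, H0, on, Hi, fun i x hx => ⟨fun h1 => ?_, fw i x hx⟩⟩
  by_cases h2 : ∃ j, g.toFun x ∈ M j
  · obtain ⟨j, hj⟩ := h2
    by_cases hij : i = j
    · exact hij ▸ hj
    · exact (disjoint_left.1 (hd i j hij) h1 (fw j x hx hj)).elim
  · rwa [H0 x hx (not_exists.1 h2)] at h1

namespace Glued

variable {ι : Type} {M : ι → Set E3} {g H : E3 → E3} {h : ι → E3 → E3} {c : S.Q.ι}

theorem eqOn (G : Glued S M g h H) {i : ι} (hc : ∀ j, j ≠ i → c ∉ hit S g (M j)) :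
    EqOn H (h i) (S.Q.cell c) := fun x hx =>
  G.on' i x (cell_sub c hx) fun j hj h1 => hc j hj (mem_hit.2 ⟨x, hx, h1⟩)

theorem eqOn_off (G : Glued S M g h H) (hc : ∀ j, c ∉ hit S g (M j)) :
    EqOn H g (S.Q.cell c) := fun x hx =>
  G.off x (cell_sub c hx) fun j h1 => hc j (mem_hit.2 ⟨x, hx, h1⟩)

theorem hit_iff (G : Glued S M g h H) (i : ι) : c ∈ hit S H (M i) ↔ c ∈ hit S g (M i) := by
  simp only [mem_hit]
  exact exists_congr fun x => and_congr_right fun hx => G.iff i x (cell_sub c hx)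

/-- the bounds for the Lipschitz constants, if every cell hits at most one support -/
theorem ct2 (G : Glued S M g h H) {C : ℝ≥0} {CM : ℝ≥0 → ℝ≥0} {η : ℝ≥0∞} (hC : 1 ≤ C)
    (hM : ∀ m, 1 ≤ CM m) {X K : ι → Set S.Q.ι} {X' K' : Set S.Q.ι}
    (one : ∀ i j, i ≠ j → Disjoint (hit S g (M i)) (hit S g (M j)))
    (ct : ∀ i, Ct2 C CM S g (h i) (X i) (K i) η)
    (hX : ∀ i, ∀ c ∈ hit S g (M i), c ∈ X i → c ∈ X')
    (hK : ∀ c ∈ K', ∃ i, c ∈ hit S g (M i) ∧ c ∈ K i) : Ct2 C CM S g H X' K' η := by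
  refine Ct2.of_local fun c => ?_
  by_cases h1 : ∃ i, c ∈ hit S g (M i)
  · obtain ⟨i, hi⟩ := h1
    refine ⟨g, h i, X i, K i, ct i, fun _ _ => rfl,
      G.eqOn fun j hj h2 => disjoint_left.1 (one j i hj) h2 hi, hX i c hi, fun h2 => ?_⟩
    obtain ⟨j, j1, j2⟩ := hK c h2
    by_cases hij : j = i
    · exact hij ▸ j2
    · exact (disjoint_left.1 (one j i hij) j1 hi).elim
  · refine ⟨g, g, ∅, ∅, (Ct2.refl S g).mono hC hM Subset.rfl Subset.rfl zero_le, fun _ _ => rfl,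
      G.eqOn_off (not_exists.1 h1), fun h2 => h2.elim, fun h2 => ?_⟩
    obtain ⟨j, j1, -⟩ := hK c h2
    exact h1 ⟨j, j1⟩

end Glued

theorem lfIn_finite {ι : Type} [Finite ι] (M : ι → Set E3) (Λ : Set E3) : LFIn M Λ :=
  fun _ _ => ⟨univ, univ_mem, toFinite _⟩

/-- different boxes, one of them shrunk, are disjoint -/
theorem eq_of_lbox {N : ℕ} (hN : 1 ≤ N) {κ κ' : ℝ} (h : 0 < κ + κ') {z z' : Z3} {y : E3}
    (h1 : y ∈ lbox N κ z) (h2 : y ∈ lbox N κ' z') : z = z' := by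
  funext i
  have a := mem_lbox.1 h1 i
  have b := mem_lbox.1 h2 i
  have c := one_le_wd hN i
  have d : ((z i : ℝ) - z' i) < 1 := by
    by_contra hn
    nlinarith [a.1, b.2, not_lt.1 hn]
  have e : ((z' i : ℝ) - z i) < 1 := by
    by_contra hn
    nlinarith [a.2, b.1, not_lt.1 hn]
  have d' : z i - z' i < 1 := by exact_mod_cast d
  have e' : z' i - z i < 1 := by exact_mod_cast e
  omega

theorem OscC.congr {g h : E3 → E3} {c : S.Q.ι} {o : ℝ} (H : OscC S g c o)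
    (e : EqOn h g (S.Q.cell c)) : OscC S h c o := fun x hx y hy => by
  rw [e hx, e hy]
  exact H x hx y hy

theorem Ali.congr {g h : E3 → E3} {c : S.Q.ι} (H : Ali S g c) (e : EqOn h g (S.Q.cell c)) :
    Ali S h c := by
  obtain ⟨⟨A, hA⟩, k⟩ := H
  refine ⟨⟨A, e.trans hA⟩, fun φ hφ => ?_⟩
  rw [(e.mono hφ).image_eq]
  exact k φ hφ

theorem Ok.congr {g h : E3 → E3} {Bf : Fin 3 → Set ℝ} {c : S.Q.ι} {i : Fin 3} {v : ℝ}
    (H : Ok S g Bf c i v) (e : EqOn h g (S.Q.cell c)) : Ok S h Bf c i v := by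
  rcases H with ⟨H, k⟩ | ⟨k, hk, H⟩
  · exact Or.inl ⟨H.congr e, k.imp (fun k x hx => e hx ▸ k x hx) fun k x hx => e hx ▸ k x hx⟩
  · exact Or.inr ⟨k, hk, fun x hx => e hx ▸ H x hx⟩

end P073.B
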