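import Vale.Agent.P073Y.B.Defs

/-!
# The top chain for exponents from three on, second form: holes of universal relative size
-/

open Set Metric Topology Filter MeasureTheory
open scoped NNReal ENNReal

namespace P073.B

open P073.Top P073.Zn
open P073.M2 (hull)

variable {Ω Λ : Set E3}

/-- round the points of `G`, up to distance `μ`, the complex is a cubic lattice and `g` is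
affine -/
def Cer (S : Src Ω) (g : E3 → E3) (G : Set E3) (μ : ℝ) : Prop :=
  ∀ y ∈ G, ∃ ξ a : E3 ≃ᵃ[ℝ] E3,
    (∀ c, ∀ x ∈ S.Q.ocell c, g x ∈ ball y μ → S.Q.cell c = ξ ⁻¹' hull (ξ x)) ∧
    ∀ x ∈ Ω, g x ∈ ball y μ → g x = a x

/-- the faces of a cell have charts with the constants of the cell -/
def Fc (S : Src Ω) : Prop := ∀ c l, S.Q.cell l ⊆ S.Q.cell c → 2 ≤ S.Q.dim l →
  Bd.Chart (S.Q.dim l) (S.Q.cell l) (S.Q.bd l) (S.M c / S.r c) (S.M c * S.r c)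

/-- the oscillation on a cell -/
def OscC (S : Src Ω) (g : E3 → E3) (c : S.Q.ι) (o : ℝ) : Prop :=
  ∀ x ∈ S.Q.cell c, ∀ y ∈ S.Q.cell c, dist (g x) (g y) ≤ o

/-- the Lipschitz constants of `h` on the cells; `X` is the set of exceptional cells, `H` the set
of cells where control is gained -/
structure Ct2 (C : ℝ≥0) (CM : ℝ≥0 → ℝ≥0) (S : Src Ω) (g h : E3 → E3) (X H : Set S.Q.ι)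
    (η : ℝ≥0∞) : Prop where
  wire : ∀ e, S.Q.dim e = 1 → e ∉ X → lipc h (S.Q.cell e) ≤ C * lipc g (S.Q.cell e) + η
  sum : ∀ c, S.Q.dim c = 3 → S.A h c ≤ CM (S.M c) * S.A g c + η
  keep : ∀ c, (S.Q.dim c = 3 ∨ (S.Q.dim c = 2 ∧ c ∉ X)) →
    lipc h (S.Q.cell c) ≤ CM (S.M c) * (lipc g (S.Q.cell c) + S.A g c) + η
  gain : ∀ c ∈ H, (S.Q.dim c = 3 ∨ (S.Q.dim c = 2 ∧ c ∉ X)) →
    lipc h (S.Q.cell c) ≤ CM (S.M c) * S.A g c + η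

/-! ### one box, one round -/

/-- the analytic content of a stage -/
structure Stc2 (p c θ ϑ : ℝ) (C : ℝ≥0) (CM : ℝ≥0 → ℝ≥0) (S : Src Ω) (g h : E3 → E3)
    (lo hi : E3) (o : ℝ) (J : Finset (Fin 3)) (η : ℝ≥0∞) (𝓢 : Set S.Q.ι)
    (ψ : S.Q.ι → (E2 →ᵃ[ℝ] E3)) (a : S.Q.ι → ℝ) : Prop where
  wire : ∀ e, S.Q.dim e = 1 → lipc h (S.Q.cell e) ≤ C * lipc g (S.Q.cell e) + η
  keep : ∀ φ, 2 ≤ S.Q.dim φ →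
    lipc h (S.Q.cell φ) ≤ CM (S.M φ) * (lipc g (S.Q.cell φ) + S.A g φ) + η
  gain : ∀ φ, 2 ≤ S.Q.dim φ → Deep g (S.Q.cell φ) lo hi (2 * o) →
    lipc h (S.Q.cell φ) ≤ CM (S.M φ) * S.A g φ + η
  shE : J = {0, 1} → ∀ e x y, S.Q.dim e = 1 → S.Q.cell e = segment ℝ x y →
    Deep g (S.Q.cell e) lo hi (2 * o) → SharpE g h x y θ η ∧ Rise g h x y ϑ η
  shF : J = {0, 1} → ∀ φ ∈ 𝓢, Deep g (S.Q.cell φ) lo hi (2 * o) →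
    SharpF p h (ψ φ) (a φ) θ c η

/-- normalisation in one box, all rims are real -/
def STAGE4 (p : ℝ) : Prop := ∃ c : ℝ, 1 ≤ c ∧ ∀ θ : ℝ, 0 < θ → θ ≤ 1 / 1000 →
  ∃ (C : ℝ≥0) (CM : ℝ≥0 → ℝ≥0), 1 ≤ C ∧ ∀ ϑ : ℝ, 0 < ϑ → ϑ ≤ θ → ∃ K : ℝ≥0, 1 ≤ K ∧
  ∀ {Ω Λ : Set E3} (S : Src Ω) (g : ConHomeo Ω Λ) (lo hi : E3) (μ o : ℝ) (J : Finset (Fin 3))
    (Bf : Fin 3 → Set ℝ) (η : ℝ≥0∞) (𝓢 : Set S.Q.ι)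
    (ψ : S.Q.ι → (E2 →ᵃ[ℝ] E3)) (a : S.Q.ι → ℝ),
  Fc S → IsOpen Ω → IsOpen Λ → J.card ≤ 2 → 0 < o → K * o ≤ μ → (∀ i, lo i + μ ≤ hi i) →
  (∀ i, i ∉ J → hi i - lo i ≤ 16 * μ) → mbox lo hi μ ⊆ Λ → S.Osc g.toFun (mbox lo hi μ) o →
  (∀ k, Thin (Bf k) o ϑ) → Real S g.toFun lo hi J (fun _ => False) Bf →
  0 < η → (∀ φ ∈ 𝓢, Marked S g.toFun θ φ (ψ φ) (a φ)) →
  One K C (fun g h lo hi o J => Stc2 p c θ ϑ C CM S g.toFun h.toFun lo hi o J η 𝓢 ψ a)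
    g lo hi μ o J

/-- the hypothesis on the rims of the face boxes inside the boxes of `Bp` -/
def Rims2 (S : Src Ω) (g : E3 → E3) (N : ℕ) (Bp : Set Z3) (Bf : Z3 → Fin 3 → Set ℝ) : Prop :=
  ∀ z ∈ Bp, Rims S g N {z} (Bf z)

/-- faces, edges and vertices of the boxes of `B` -/
def ROUND4 (p : ℝ) : Prop := ∃ c : ℝ, 1 ≤ c ∧ ∀ θ : ℝ, 0 < θ → θ ≤ 1 / 1000 →
  ∃ (C : ℝ≥0) (CM : ℝ≥0 → ℝ≥0), 1 ≤ C ∧ ∀ ϑ : ℝ, 0 < ϑ → ϑ ≤ θ → ∃ K : ℝ≥0, 1 ≤ K ∧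
  ∀ {Ω Λ : Set E3} (S : Src Ω) (g : ConHomeo Ω Λ) (N : ℕ) (B : Set Z3) (o : ℝ)
    (Bf : Z3 → Fin 3 → Set ℝ) (η : ℝ≥0∞) (𝓢 : Set S.Q.ι) (ψ : S.Q.ι → (E2 →ᵃ[ℝ] E3))
    (a : S.Q.ι → ℝ),
  Fc S → IsOpen Ω → IsOpen Λ → 1 ≤ N → B.Finite → 0 < η → 0 < o → K * o ≤ 1 →
  ubox N 0 (nbr 1 B) ⊆ Λ → S.Osc g.toFun (ubox N 0 (nbr 1 B)) o →
  (∀ z ∈ nbr 1 B, ∀ k, Thin (Bf z k) (o / 2) (ϑ / 2)) →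
  Rims2 S g.toFun N (nbr 1 B) Bf → (∀ φ ∈ 𝓢, Marked S g.toFun θ φ (ψ φ) (a φ)) →
  ∃ (h : ConHomeo Ω Λ) (Ψ : E3 → E3), Col N (1 / 200) (nbr 1 B) C Ψ ∧
    (∀ x ∈ Ω, (g.toFun x ∉ interior (ubox N 0 (nbr 1 B)) ∨
      ∀ (i : Fin 3) (n : ℤ), 11 / 100 < |g.toFun x i - n * wd N i|) → h.toFun x = g.toFun x) ∧
    (∀ x ∈ Ω, dist (h.toFun x) (Ψ (g.toFun x)) ≤ K * o) ∧
    Ct2 C CM S g.toFun h.toFun ∅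
      (hit S g.toFun (ubox N 0 B) \ hit S g.toFun (ubox N (1 / 200) univ)) η ∧
    ∀ z, (z ∈ B ∨ z - Pi.single 2 1 ∈ B) →
      (∀ x ∈ Ω, g.toFun x ∈ shr N (1 / 200) z → |h.toFun x 2 - z 2| ≤ K * o) ∧
      Sharp p c θ ϑ S g.toFun h.toFun (shr N (1 / 200) z) η 𝓢 ψ a

/-! ### homeomorphisms of the target -/

/-- holes of universal relative size round the points of an `l`-separated set -/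
def PACK : Prop := ∃ (v₀ a : ℝ) (C : ℝ≥0), 0 < v₀ ∧ 0 < a ∧ a ≤ 1 / 16 ∧ 1 ≤ C ∧
  ∀ (N : ℕ) (z : Z3) (G : Set E3) (l : ℝ) (T : Finset E3), 1 ≤ N → IsOpen G →
  volume (lbox N (1 / 800) z \ G) ≤ ENNReal.ofReal v₀ → 0 < l → l ≤ 1 / 10000 →
  (∀ c ∈ T, c ∈ lbox N (1 / 400) z) → (∀ c ∈ T, ∀ c' ∈ T, c ≠ c' → l ≤ dist c c') →
  ∃ Φ : Hom, LipschitzWith C Φ.toFun ∧
    (∀ y, y ∉ interior (lbox N (1 / 800) z) → Φ.toFun y = y) ∧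
    (∀ y, dist (Φ.toFun y) y ≤ 1 / 3200) ∧
    ∀ c ∈ T, ∃ y₀ ∈ G ∩ lbox N (1 / 800) z, ∃ (c' : E3) (M : ℝ), 1 ≤ M ∧ dist c' c ≤ l / 100 ∧
      ∀ y, Φ.toFun y ∈ closedBall c' (a * l) → Φ.toFun y = c' + M • (y - y₀)

/-- an aligned hole -/
def HOLEB : Prop := ∀ a : ℝ, 0 < a → a ≤ 1 / 16 → ∃ C : ℝ≥0, 1 ≤ C ∧
  ∀ s₀ : ℝ, 0 < s₀ → ∃ l₀ : ℝ, 0 < l₀ ∧ ∀ (z : Z3) (c y₀ : E3) (A : E3 ≃L[ℝ] E3),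
  dist c (cen z) ≤ 1 / 5 → ‖(A : E3 →L[ℝ] E3)‖ ≤ l₀ →
  ∃ (Φ : Hom) (ε : Fin 3 → ℝ) (q : Z3) (m : ℕ), (∀ i, ε i = 1 ∨ ε i = -1) ∧ 1 ≤ m ∧
    48 / (100 * m) ≤ s₀ ∧ (∀ y, y ∉ interior (lbox 1 0 z) → Φ.toFun y = y) ∧
    LipschitzOnWith C Φ.toFun (ball c a)ᶜ ∧
    (∀ u u', dist (Φ.toFun (y₀ + A u)) (Φ.toFun (y₀ + A u')) ≤
      C * ‖(A : E3 →L[ℝ] E3)‖ * dist u u') ∧
    ∀ y, Φ.toFun y ∈ lbox 1 (1 / 400) z → y ∈ ball c a ∧ ∀ u, y = y₀ + A u →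
      Φ.toFun y = fun i => cen z i + 48 / (100 * m) * (ε i * (u i - q i))

/-! ### the mosaic, the zones -/

/-- control inside the boxes of `Bp`, if most of their volume is certified -/
def MOS2 : Prop := ∃ (v₀ : ℝ) (C : ℝ≥0) (CM : ℝ≥0 → ℝ≥0), 0 < v₀ ∧ 1 ≤ C ∧
  ∀ (N : ℕ) (v : ℝ), 1 ≤ N → 0 < v → ∃ δ : ℝ, 0 < δ ∧ ∀ r' ϑ : ℝ, 0 < r' → 0 < ϑ →
  ∃ r : ℝ, 0 < r ∧ ∀ {Ω Λ : Set E3} (S : Src Ω) (g : ConHomeo Ω Λ) (Bp : Set Z3) (G : Set E3)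
    (μ : Z3 → ℝ) (η : ℝ≥0∞), Fc S → IsOpen Ω → IsOpen Λ → Bp.Finite → IsOpen G → 0 < η →
  ubox N 0 Bp ⊆ Λ →
  (∀ z ∈ Bp, 0 < μ z ∧ μ z ≤ 1 ∧ volume (lbox N (1 / 800) z \ G) ≤ ENNReal.ofReal v₀ ∧
    Cer S g.toFun (G ∩ lbox N (1 / 800) z) (μ z) ∧
    S.Osc g.toFun (lbox N (1 / 1000) z) (r * μ z)) →
  ∃ (h : ConHomeo Ω Λ) (Bf : Z3 → Fin 3 → Set ℝ) (G' : Set E3),
    (∀ x ∈ Ω, g.toFun x ∉ ubox N (1 / 800) Bp → h.toFun x = g.toFun x) ∧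
    (∀ x ∈ Ω, ∀ z ∈ Bp, g.toFun x ∈ lbox N (1 / 800) z → h.toFun x ∈ lbox N (1 / 800) z) ∧
    Ct2 C CM S g.toFun h.toFun
      (hit S g.toFun (⋃ z ∈ Bp, thickening (μ z) (G ∩ lbox N (1 / 800) z)))
      (hit S h.toFun (ubox N (1 / 200) Bp)) η ∧
    Rims2 S h.toFun N Bp Bf ∧ IsOpen G' ∧
    ∀ z ∈ Bp, (∀ k, Thin (Bf z k) (r' * μ z) ϑ) ∧
      (∀ c ∈ hit S g.toFun (lbox N (1 / 1000) z), OscC S h.toFun c (r' * μ z)) ∧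
      volume (lbox N (1 / 100) z \ G') ≤ ENNReal.ofReal v ∧
      Cer S h.toFun (G' ∩ lbox N (1 / 100) z) (δ * μ z)

/-- the result of a zone of the first batch -/
structure ZO4 (p c₀ θ ϑ e : ℝ) (C : ℝ≥0) (CM : ℝ≥0 → ℝ≥0) (S : Src Ω) (N : ℕ) (t : ℝ)
    (B : Set Z3) (g h : E3 → E3) (X : Set S.Q.ι) (η : ℝ≥0∞) (𝓢 : Set S.Q.ι)
    (ψ : S.Q.ι → (E2 →ᵃ[ℝ] E3)) (a : S.Q.ι → ℝ) {ι : Type} [Fintype ι]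
    (m : ι → S.Q.ι → ℝ≥0∞) (c : Z3 → E3) : Prop where
  off : ∀ x ∈ Ω, g x ∉ interior (ubox N 0 (nbr 1 B)) → h x = g x
  near : ∀ x ∈ Ω, ∀ z, g x ∈ lbox N 0 z → h x ∈ cthickening e (lbox N 0 z)
  osc : S.Osc h (ubox N 0 (nbr 1 B)) e
  ctl : Ct2 C CM S (vst N t ∘ g) h X (hit S g (ubox N 0 B)) η
  cen : ∀ z ∈ nbr 1 B, c z ∈ mid N z
  sum : ∀ i, tot (hit S g (slabs N t B c)) (m i) ≤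
    (Fintype.card ι + 1) * C * ENNReal.ofReal t * tot (hit S g (ubox N 0 (nbr 1 B))) (m i)
  lat : ∀ z, (z ∈ B ∨ z - Pi.single 2 1 ∈ B) → ∀ x ∈ Ω, g x ∈ shp N t c z →
    ∀ i, i ≠ 2 → |h x i - g x i| ≤ e
  sharp : ∀ z, (z ∈ B ∨ z - Pi.single 2 1 ∈ B) → Sharp p c₀ θ ϑ S g h (shp N t c z) η 𝓢 ψ a

/-- push, mosaic, round, squeeze -/
def ZONE4 (p : ℝ) : Prop := ∃ c₀ v₀ : ℝ, 1 ≤ c₀ ∧ 0 < v₀ ∧ ∀ θ : ℝ, 0 < θ → θ ≤ 1 / 1000 →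
  ∃ (C : ℝ≥0) (CM : ℝ≥0 → ℝ≥0), 1 ≤ C ∧
  ∀ (ϑ : ℝ) (N : ℕ) (t v : ℝ), 0 < ϑ → ϑ ≤ θ → 1 ≤ N → 0 < t → t ≤ 1 / 4 → 0 < v →
  ∃ δ : ℝ, 0 < δ ∧ ∀ r' : ℝ, 0 < r' → ∃ r : ℝ, 0 < r ∧
  ∀ {Ω Λ : Set E3} (S : Src Ω) (g : ConHomeo Ω Λ) (B : Set Z3) (G : Set E3) (μ : ℝ) (η : ℝ≥0∞)
    (𝓢 : Set S.Q.ι) (ψ : S.Q.ι → (E2 →ᵃ[ℝ] E3)) (a : S.Q.ι → ℝ) {ι : Type} [Fintype ι]
    (m : ι → S.Q.ι → ℝ≥0∞), Fc S → IsOpen Ω → IsOpen Λ → B.Finite → IsOpen G → 0 < μ →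
    μ ≤ 1 → 0 < η → ubox N 0 (nbr 1 B) ⊆ Λ →
    (∀ z ∈ nbr 1 B, volume (lbox N 0 z \ G) ≤ ENNReal.ofReal (v₀ * t)) →
    Cer S g.toFun G μ → S.Osc g.toFun (ubox N 0 (nbr 1 B)) (r * μ) →
    (∀ φ ∈ 𝓢, Marked S g.toFun θ φ (ψ φ) (a φ)) →
  ∃ (h : ConHomeo Ω Λ) (c : Z3 → E3) (G' : Set E3),
    ZO4 p c₀ θ ϑ (r' * μ) C CM S N t B g.toFun h.toFun (hit S g.toFun (thickening μ G)) η 𝓢 ψ a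
      m c ∧ IsOpen G' ∧ (∀ z ∈ nbr 1 B, volume (lbox N 0 z \ G') ≤ ENNReal.ofReal v) ∧
    Cer S h.toFun G' (δ * μ)

/-- a zone of the second batch: a ball of relative size `a` is blown up, mosaic, round -/
def ZONE0 : Prop := ∃ v₀ : ℝ, 0 < v₀ ∧ ∀ a : ℝ, 0 < a → a ≤ 1 / 16 →
  ∃ (C : ℝ≥0) (CM : ℝ≥0 → ℝ≥0) (r o₀ : ℝ), 0 < r ∧ 0 < o₀ ∧
  ∀ {Ω Λ : Set E3} (S : Src Ω) (g : ConHomeo Ω Λ) (B : Set Z3) (G : Set E3) (c : Z3 → E3)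
    (μ : Z3 → ℝ) (η : ℝ≥0∞), Fc S → IsOpen Ω → IsOpen Λ → B.Finite → IsOpen G → 0 < η →
    ubox 1 0 (nbr 1 B) ⊆ Λ → S.Osc g.toFun (ubox 1 0 (nbr 1 B)) o₀ →
    (∀ z ∈ nbr 1 B, dist (c z) (cen z) ≤ 1 / 4 ∧ 0 < μ z ∧ μ z ≤ 1 ∧
      volume (closedBall (c z) a \ G) ≤ ENNReal.ofReal (v₀ * a ^ 3) ∧
      Cer S g.toFun (G ∩ closedBall (c z) a) (μ z) ∧
      S.Osc g.toFun (closedBall (c z) a) (r * μ z)) →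
  ∃ h : ConHomeo Ω Λ,
    (∀ x ∈ Ω, g.toFun x ∉ interior (ubox 1 0 (nbr 1 B)) → h.toFun x = g.toFun x) ∧
    (∀ x ∈ Ω, dist (h.toFun x) (g.toFun x) ≤ 2) ∧
    Ct2 C CM S g.toFun h.toFun univ (hit S g.toFun (ubox 1 0 B)) η

/-! ### the two batches -/

/-- the main cores in the target: `γ` is certified, `Γ` contains the collars, `D` is protected -/
structure Main (S : Src Ω) (g : E3 → E3) (a₀ l₂ : ℝ) (γ Γ D : Set E3) : Prop where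
  opn : IsOpen γ
  sub : γ ⊆ Γ
  prot : thickening (4 * l₂) D ⊆ γ
  cer : Cer S g γ (a₀ * l₂)
  ball : ∀ y, ∃ y', dist y' y ≤ l₂ / 8 ∧
    (closedBall y' (a₀ * l₂) ⊆ γ ∨ Disjoint (closedBall y' (a₀ * l₂)) Γ)

/-- an auxiliary family of cores: it fills most of `Z` outside `Γ` and `E` -/
structure Aux (S : Src Ω) (g : E3 → E3) (Z Γ E G : Set E3) (v r μ₀ μ : ℝ) : Prop where
  opn : IsOpen G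
  pos : 0 < μ
  le : μ ≤ μ₀
  cer : Cer S g G μ
  vol : volume (Z \ (G ∪ Γ ∪ E)) ≤ ENNReal.ofReal v
  osc : ∀ c ∈ hit S g (Z \ Γ), OscC S g c (r * μ)

/-- the two batches -/
def BATCH4 (p : ℝ) : Prop := ∀ a₀ : ℝ, 0 < a₀ → a₀ ≤ 1 / 100 →
  ∃ (c₀ κ : ℝ) (Cz : ℝ → ℝ≥0) (CM : ℝ → ℝ≥0 → ℝ≥0) (Cu : ℝ≥0 → ℝ≥0)
  (Ct : ℝ≥0 → ℝ → ℕ → ℝ → ℝ≥0 → ℝ≥0), 1 ≤ c₀ ∧ 0 < κ ∧
  ∀ {Ω Λ Ω₀ : Set E3} {f f' : E3 → E3} {ε : ℝ} {J : Type} [Fintype J] (Y : J → TyZ Ω f),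
  IsOpen Ω → IsOpen Λ → Bornology.IsBounded Λ → HomeoOn f f' Ω Λ → 0 < ε →
  IsCompact Ω₀ → Ω₀ ⊆ Ω → (∀ j, (Y j).K ⊆ Ω₀) →
  (∀ j j', j ≠ j' → Disjoint (Y j).G (Y j').G) →
  ∃ (l : J → ℝ) (v : J → E3) (T : J → (E3 ≃ᴬ[ℝ] E3)) (B : J → Set Z3) (s₁ l₀ : ℝ)
    (o₁ : E3 → ℝ), 0 < s₁ ∧ 0 < l₀ ∧ Gauge o₁ Ω ∧
    (∀ j, 0 < l j ∧ (∀ y, T j y = (l j)⁻¹ • (Y j).Bm y - v j) ∧
      (Y j).N * volume {x ∈ (Y j).K | T j (f x) ∈ strips (Y j).N} ≤ 10 * volume (Y j).K) ∧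
  ∀ l₂ e : ℝ, 0 < l₂ → l₂ ≤ l₀ → 0 < e →
  ∃ (Z : ℕ → Set E3) (vv rr μ₀ : ℕ → ℝ) (o : E3 → ℝ), Gauge o Ω ∧
    (∀ k, IsCompact (Z k) ∧ Z k ⊆ Λ ∧ 0 < vv k ∧ 0 < rr k ∧ 0 < μ₀ k) ∧ LFIn Z Λ ∧
    (∀ k k', k ≠ k' → Disjoint (Z k) (Z k')) ∧
  ∀ (S : Src Ω) (g : ConHomeo Ω Λ) (M₀ : ℝ≥0) (w : S.Q.ι → ℝ≥0∞)
    (Nr : J → Set S.Q.ι) (ν : J → (E3 ≃ᴬ[ℝ] E3)) (n : ∀ j, Nrm S (ν j)) (η : ℝ≥0∞)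
    (𝓢 : J → Set S.Q.ι) (ψ : J → S.Q.ι → (E2 →ᵃ[ℝ] E3)) (a : J → S.Q.ι → ℝ)
    {ι : Type} [Fintype ι] (m : J → ι → S.Q.ι → ℝ≥0∞) (γ Γ D : Set E3) (G : ℕ → Set E3)
    (μ : ℕ → ℝ), Fc S → (∀ j, Fc (n j).src) → 0 < η →
    Main S g.toFun a₀ l₂ γ Γ D → Γ ⊆ f '' Ω₀ → (∀ j, Disjoint Γ (f '' (Y j).G)) →
    (∀ k, Aux S g.toFun (Z k) Γ (⋃ j, f '' (Ω ∩ thickening s₁ (Y j).K)) (G k) (vv k) (rr k)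
      (μ₀ k) (μ k) ∧
      ∀ j, ∀ c ∈ Nr j, Disjoint (g.toFun '' S.Q.cell c) (thickening (μ k) (G k))) →
    (∀ c, (∀ x ∈ S.Q.cell c, ∀ y ∈ S.Q.cell c, dist (g.toFun x) (g.toFun y) ≤ o y) ∨
      (c ∈ hit S g.toFun Γ ∧ OscC S g.toFun c (κ * l₂))) →
    (∀ x ∈ Ω, dist (g.toFun x) (f x) ≤ o₁ x) →
    (∀ j, Cond (ν j) (Y j).L ∧ (∀ c ∈ Nr j, S.Q.cell c ⊆ thickening s₁ (Y j).K) ∧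
      ∀ φ ∈ 𝓢 j, Marked (n j).src (T j ∘ g.toFun ∘ (ν j).symm) (Y j).θ φ (ψ j φ) (a j φ)) →
    (∀ c ∈ Far3 S Nr, S.M c = M₀ ∧ w c ≠ ⊤) →
  ∃ h : ConHomeo Ω Λ, (∀ u ∈ Ω, dist (h.toFun u) (f u) ≤ ε) ∧
    (∀ u ∈ Ω, g.toFun u ∈ D → h.toFun u = g.toFun u) ∧
    (tot {c ∈ Far3 S Nr | ¬ g.toFun '' S.Q.cell c ⊆ D}
        (fun c => w c * lipc h.toFun (S.Q.cell c) ^ p) ≤
      Cu M₀ * tot {c ∈ Far3 S Nr | ¬ g.toFun '' S.Q.cell c ⊆ D}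
        (fun c => w c * S.A g.toFun c ^ p) +
      ∑ j, Ct M₀ (Y j).θ (Y j).N (Y j).t (Y j).L *
        tot {c ∈ Far3 S Nr | (S.Q.cell c ∩ (Y j).G).Nonempty}
          (fun c => w c * S.A g.toFun c ^ p) + η) ∧
    ∀ j, (∀ φ ∈ Nr j, ∀ u ∈ S.Q.cell φ, ∃ z, nbr 1 {z} ⊆ B j ∧
        T j (g.toFun u) ∈ lbox (Y j).N 0 z) ∧
      (∃ c k, NearOut p c₀ (Y j).θ (Y j).ϑ e (Cz (Y j).θ) (CM (Y j).θ) (n j).src (Y j).N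
        (Y j).t (B j) (T j ∘ g.toFun ∘ (ν j).symm) (T j ∘ h.toFun ∘ (ν j).symm) (Nr j) η (𝓢 j)
        (ψ j) (a j) (m j) c k) ∧
      ∀ c' ∈ Nr j, S.Q.dim c' = 3 →
        lipc (T j ∘ h.toFun ∘ (ν j).symm) (ν j '' S.Q.cell c') ≤ CM (Y j).θ ((n j).M c') *
          (n j).src.A (vst (Y j).N (Y j).t ∘ T j ∘ g.toFun ∘ (ν j).symm) c' + η

end P073.B
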