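import Vale.Agent.P073Y.Zn.Defs
import Vale.Agent.P073Y.Rd.Step
import Vale.Agent.P073Y.Gc.Sk

/-!
# The top chain for exponents from three on: definitions and statements

All bounds on cells of dimension two and three are bounds for Lipschitz constants.
-/

open Set Metric Topology Filter MeasureTheory
open scoped NNReal ENNReal

namespace P073.B

open P073.Top P073.Zn
open P073.Rd (StT slo shi dirs sites cube)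
open P073.An (M3)
open P073.Gc (Bil)
open P073.M2 (hull)

/-- lattice indices -/
abbrev Z3 : Type := Fin 3 → ℤ

variable {Ω Λ : Set E3}

/-! ### aligned cells, thin sets, certificates -/

/-- `g` is affine on the cell and maps all its faces onto boxes -/
def Ali (S : Src Ω) (g : E3 → E3) (c : S.Q.ι) : Prop :=
  (∃ A : E3 →ᵃ[ℝ] E3, EqOn g A (S.Q.cell c)) ∧
    ∀ φ, S.Q.cell φ ⊆ S.Q.cell c → ∃ a b : E3, g '' S.Q.cell φ = Icc a b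

/-- a closed set of density at most `ϑ / 16`, up to an error `o` -/
def Thin (Z : Set ℝ) (o ϑ : ℝ) : Prop :=
  IsClosed Z ∧ ∀ y l, 0 ≤ l → volume (Z ∩ Icc y (y + l)) ≤ ENNReal.ofReal (ϑ * l / 16 + o)

/-- the cell is aligned and on one side of the plane `y i = v`, or it lies in a buffer -/
def Ok (S : Src Ω) (g : E3 → E3) (Bf : Fin 3 → Set ℝ) (c : S.Q.ι) (i : Fin 3) (v : ℝ) : Prop :=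
  (Ali S g c ∧ ((∀ x ∈ S.Q.cell c, g x i ≤ v) ∨ ∀ x ∈ S.Q.cell c, v ≤ g x i)) ∨
    ∃ k, k ≠ i ∧ ∀ x ∈ S.Q.cell c, g x k ∈ Bf k

/-- the images of all cells which meet `c` miss `Z` -/
def Clear (S : Src Ω) (g : E3 → E3) (Z : Set E3) (c : S.Q.ι) : Prop :=
  ∀ c', (S.Q.cell c' ∩ S.Q.cell c).Nonempty → Disjoint (g '' S.Q.cell c') Z

/-- over the connected open subsets of `G` the complex is a cubic lattice and `g` is affine -/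
def Cert (S : Src Ω) (g : E3 → E3) (G : Set E3) (b l₀ : ℝ) : Prop :=
  ∀ O, O ⊆ G → IsOpen O → IsPreconnected O →
    ∃ (ξ : E3 ≃ᵃ[ℝ] E3) (A : M3) (l : ℝ) (y₀ : E3), Bil b A ∧ 0 < l ∧ l ≤ l₀ ∧
      (∀ c, ∀ x ∈ S.Q.ocell c, g x ∈ O → S.Q.cell c = ξ ⁻¹' hull (ξ x)) ∧
      ∀ x ∈ Ω, g x ∈ O → g x = y₀ + l • A (ξ x)

/-- the Lipschitz constants of `h` on the cells; `H` is the set of cells where control is gained -/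
structure Ctl (CM : ℝ≥0 → ℝ≥0) (S : Src Ω) (g h : E3 → E3) (H : Set S.Q.ι) (η : ℝ≥0∞)
    (k : S.Q.ι → ℝ≥0∞) : Prop where
  one_le : ∀ φ, 1 ≤ k φ
  wire : ∀ φ e, S.Q.dim e = 1 → (S.Q.cell φ ∩ S.Q.cell e).Nonempty →
    lipc h (S.Q.cell e) ≤ k φ * lipc g (S.Q.cell e) + η
  keep : ∀ φ c, 2 ≤ S.Q.dim c → (S.Q.cell φ ∩ S.Q.cell c).Nonempty →
    lipc h (S.Q.cell c) ≤ k φ * CM (S.M c) * (lipc g (S.Q.cell c) + S.A g c) + η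
  gain : ∀ φ, ∀ c ∈ H, 2 ≤ S.Q.dim c → (S.Q.cell φ ∩ S.Q.cell c).Nonempty →
    lipc h (S.Q.cell c) ≤ k φ * CM (S.M c) * S.A g c + η

/-- affine maps are controlled by the wires -/
def AFFA : Prop := ∃ D : ℝ≥0 → ℝ≥0, ∀ {Ω : Set E3} (S : Src Ω) (g : E3 → E3) (c : S.Q.ι),
  2 ≤ S.Q.dim c → (∃ A : E3 →ᵃ[ℝ] E3, EqOn g A (S.Q.cell c)) →
  lipc g (S.Q.cell c) ≤ D (S.M c) * S.A g c

/-! ### one box -/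

/-- the side of the box -/
def sd (lo hi : E3) (s : Bool) (i : Fin 3) : ℝ := if s then hi i else lo i

/-- the fake part of the rim -/
def FRim (lo hi : E3) (J : Finset (Fin 3)) (fk : Bool → Prop) : Set E3 :=
  {y ∈ Icc lo hi | J.card = 2 ∧ ∃ i, i ∉ J ∧ ∃ s, fk s ∧ y i = sd lo hi s i}

/-- the hypothesis on the real part of the rim -/
def Real (S : Src Ω) (g : E3 → E3) (lo hi : E3) (J : Finset (Fin 3)) (fk : Bool → Prop)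
    (Bf : Fin 3 → Set ℝ) : Prop :=
  J.card = 2 → ∀ i, i ∉ J → ∀ s, ¬ fk s → ∀ c, S.Q.dim c = 3 → ∀ x ∈ S.Q.cell c,
    g x ∈ Icc lo hi → g x i = sd lo hi s i → Ok S g Bf c i (sd lo hi s i)

/-- the segment from `y` to a side of the box in the direction `m` -/
def ray (y : E3) (m : Fin 3) (v : ℝ) : Set E3 := segment ℝ y (Function.update y m v)

/-- `h` is near `Φ ∘ g` outside the box and at the pinned points -/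
structure Pins (S : Src Ω) (g h : E3 → E3) (lo hi : E3) (o : ℝ) (J : Finset (Fin 3))
    (Bf : Fin 3 → Set ℝ) (C : ℝ≥0) (η : ℝ≥0∞) (Φ : E3 → E3) : Prop where
  lip : LipschitzWith C Φ
  flat : ∀ y ∈ Icc lo hi, ∀ y' ∈ Icc lo hi, (∀ k ∈ J, y k = y' k) → Φ y = Φ y'
  out : ∀ x ∈ Ω, g x ∉ interior (Icc lo hi) → edist (h x) (Φ (g x)) ≤ η
  pin : ∀ x ∈ Ω, g x ∈ Icc lo hi → ∀ (o' : ℝ) (m k' : Fin 3) (s : Bool), 0 < o' → 20 * o' ≤ o →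
    m ≠ k' → S.Osc g (cthickening (2 * o) (ray (g x) m (sd lo hi s m))) o' →
    (∀ k ∈ J, k ≠ k' → ∀ y ∈ cthickening (5 * o') (ray (g x) m (sd lo hi s m)),
      y k ∈ Bf k ∨ y k ≤ lo k + 5 * o ∨ hi k - 5 * o ≤ y k) →
    edist (h x) (Φ (g x)) ≤ ENNReal.ofReal (C * o') + η

/-- the analytic content of a stage -/
structure Stc (p c θ ϑ : ℝ) (C : ℝ≥0) (CM : ℝ≥0 → ℝ≥0) (S : Src Ω) (g h : E3 → E3) (lo hi : E3)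
    (o : ℝ) (J : Finset (Fin 3)) (fk : Bool → Prop) (Bf : Fin 3 → Set ℝ) (η : ℝ≥0∞)
    (𝓢 : Set S.Q.ι) (ψ : S.Q.ι → (E2 →ᵃ[ℝ] E3)) (a : S.Q.ι → ℝ) : Prop where
  pins : ∃ Φ, Pins S g h lo hi o J Bf C η Φ
  wire : ∀ e, S.Q.dim e = 1 → lipc h (S.Q.cell e) ≤ C * lipc g (S.Q.cell e) + η
  keep : ∀ φ, 2 ≤ S.Q.dim φ → Clear S g (FRim lo hi J fk) φ →
    lipc h (S.Q.cell φ) ≤ CM (S.M φ) * (lipc g (S.Q.cell φ) + S.A g φ) + η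
  gain : ∀ φ, 2 ≤ S.Q.dim φ → Deep g (S.Q.cell φ) lo hi (2 * o) →
    lipc h (S.Q.cell φ) ≤ CM (S.M φ) * S.A g φ + η
  osc : J.card ≤ 1 → ∀ φ (o' : ℝ),
    (∀ x ∈ S.Q.cell φ, ∀ y ∈ S.Q.cell φ, dist (g x) (g y) ≤ o') →
    ∀ x ∈ S.Q.cell φ, ∀ y ∈ S.Q.cell φ, edist (h x) (h y) ≤ ENNReal.ofReal (C * o') + η
  shE : J = {0, 1} → ∀ e x y, S.Q.dim e = 1 → S.Q.cell e = segment ℝ x y →
    Deep g (S.Q.cell e) lo hi (2 * o) → SharpE g h x y θ η ∧ Rise g h x y ϑ η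
  shF : J = {0, 1} → ∀ φ ∈ 𝓢, Deep g (S.Q.cell φ) lo hi (2 * o) →
    SharpF p h (ψ φ) (a φ) θ c η

/-- one stage at the given box -/
def One (K C : ℝ≥0) (St : StT Ω Λ) (g : ConHomeo Ω Λ) (lo hi : E3) (μ o : ℝ)
    (J : Finset (Fin 3)) : Prop :=
  ∃ (h : ConHomeo Ω Λ) (Ψ : E3 → E3), Coll lo hi μ J C Ψ ∧
    (∀ x ∈ Ω, g.toFun x ∉ interior (mbox lo hi μ) → h.toFun x = g.toFun x) ∧
    (∀ x ∈ Ω, dist (h.toFun x) (Ψ (g.toFun x)) ≤ K * o) ∧ St g h lo hi o J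

/-- normalisation in one box -/
def STAGE3 (p : ℝ) : Prop := ∃ c : ℝ, 1 ≤ c ∧ ∀ θ : ℝ, 0 < θ → θ ≤ 1 / 1000 →
  ∃ (C : ℝ≥0) (CM : ℝ≥0 → ℝ≥0), 1 ≤ C ∧ ∀ ϑ : ℝ, 0 < ϑ → ϑ ≤ θ → ∃ K : ℝ≥0, 1 ≤ K ∧
  ∀ {Ω Λ : Set E3} (S : Src Ω) (g : ConHomeo Ω Λ) (lo hi : E3) (μ o : ℝ) (J : Finset (Fin 3))
    (fk : Bool → Prop) (Bf : Fin 3 → Set ℝ) (η : ℝ≥0∞) (𝓢 : Set S.Q.ι)
    (ψ : S.Q.ι → (E2 →ᵃ[ℝ] E3)) (a : S.Q.ι → ℝ),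
  IsOpen Ω → IsOpen Λ → J.card ≤ 2 → 0 < o → K * o ≤ μ → (∀ i, lo i + μ ≤ hi i) →
  (∀ i, i ∉ J → hi i - lo i ≤ 16 * μ) → mbox lo hi μ ⊆ Λ → S.Osc g.toFun (mbox lo hi μ) o →
  (∀ k, Thin (Bf k) o ϑ) → Real S g.toFun lo hi J fk Bf →
  0 < η → (∀ φ ∈ 𝓢, Marked S g.toFun θ φ (ψ φ) (a φ)) →
  One K C (fun g h lo hi o J => Stc p c θ ϑ C CM S g.toFun h.toFun lo hi o J fk Bf η 𝓢 ψ a)
    g lo hi μ o J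

/-! ### one round -/

/-- the union of the boxes -/
def ubox (N : ℕ) (κ : ℝ) (B : Set Z3) : Set E3 := ⋃ z ∈ B, lbox N κ z

/-- stages with at most one family -/
def Stg1 (K C : ℝ≥0) (S : Src Ω) (St : StT Ω Λ) (o₀ : ℝ) : Prop :=
  ∀ (g : ConHomeo Ω Λ) (lo hi : E3) (μ o : ℝ) (J : Finset (Fin 3)), J.card ≤ 1 → o₀ ≤ o →
    K * o ≤ μ → (∀ i, lo i + μ ≤ hi i) → (∀ i, i ∉ J → hi i - lo i ≤ 16 * μ) →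
    mbox lo hi μ ⊆ Λ → S.Osc g.toFun (mbox lo hi μ) o → One K C St g lo hi μ o J

/-- `X` is deep in one of the sites with `d` long directions -/
def DeepIn (N : ℕ) (B : Set Z3) (d : ℕ) (a b o : ℝ) (g : E3 → E3) (X : Set E3) : Prop :=
  ∃ w ∈ sites B d, Deep g X (slo (wd N) a b w) (shi (wd N) a b w) (2 * o)

/-- the three parallel stages of a round -/
structure Three (K C C' K' L : ℝ≥0) (S : Src Ω) (St : StT Ω Λ) (N : ℕ) (B : Set Z3) (o : ℝ)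
    (g g₁ g₂ g₃ : ConHomeo Ω Λ) (Ψ₁ Ψ₂ Ψ₃ : E3 → E3) : Prop where
  small : K * (L ^ 3 * o) ≤ 1 / 10000
  p₁ : Rd.PS K C St (wd N) (2 / 100) (4 / 100) (2 / 100 + 1 / 200) (4 / 100 - 1 / 200)
    (sites B 2) (fun _ => o) g g₁ Ψ₁
  p₂ : Rd.PS K C St (wd N) (5 / 100) (8 / 100) (5 / 100 + 1 / 100) (8 / 100 - 1 / 100)
    (sites B 1) (fun _ => L * o) g₁ g₂ Ψ₂
  p₃ : Rd.PS K C St (wd N) (9 / 100) (14 / 100) (9 / 100 + 2 / 100) (14 / 100 - 2 / 100)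
    (sites B 0) (fun _ => L ^ 2 * o) g₂ g₃ Ψ₃
  o₁ : S.Osc g₁.toFun (ubox N 0 (nbr 1 B)) (L * o)
  o₂ : S.Osc g₂.toFun (ubox N 0 (nbr 1 B)) (L ^ 2 * o)
  o₃ : S.Osc g₃.toFun (ubox N 0 (nbr 1 B)) (L ^ 3 * o)
  col : Col N (1 / 200) (nbr 1 B) C' fun y => Ψ₃ (Ψ₂ (Ψ₁ y))
  off : ∀ x ∈ Ω, (g.toFun x ∉ interior (ubox N 0 (nbr 1 B)) ∨
    ∀ (i : Fin 3) (n : ℤ), 11 / 100 < |g.toFun x i - n * wd N i|) →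
    g₁.toFun x = g.toFun x ∧ g₂.toFun x = g.toFun x ∧ g₃.toFun x = g.toFun x
  err : ∀ x ∈ Ω, dist (g₃.toFun x) (Ψ₃ (Ψ₂ (Ψ₁ (g.toFun x)))) ≤ K' * o
  flat : ∀ z, (z ∈ B ∨ z - Pi.single 2 1 ∈ B) → ∀ x ∈ Ω, g.toFun x ∈ shr N (1 / 200) z →
    |g₁.toFun x 2 - z 2| ≤ K * o ∧ g₂.toFun x = g₁.toFun x ∧ g₃.toFun x = g₁.toFun x
  deep : ∀ c, (g.toFun '' S.Q.cell c ∩ cthickening (1 / 400) (ubox N 0 B)).Nonempty →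
    Disjoint (g.toFun '' S.Q.cell c) (ubox N (1 / 200) univ) →
    DeepIn N B 2 (2 / 100) (4 / 100) o g.toFun (S.Q.cell c) ∨
    DeepIn N B 1 (5 / 100) (8 / 100) (L * o) g₁.toFun (S.Q.cell c) ∨
    DeepIn N B 0 (9 / 100) (14 / 100) (L ^ 2 * o) g₂.toFun (S.Q.cell c)

/-- the geometry of a round -/
def ROUND1 : Prop := ∀ C : ℝ≥0, 1 ≤ C → ∃ C' : ℝ≥0, 1 ≤ C' ∧ ∀ K : ℝ≥0, 1 ≤ K →
  ∃ K' L : ℝ≥0, 1 ≤ K' ∧ 1 ≤ L ∧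
  ∀ {Ω Λ : Set E3} (S : Src Ω) (St : StT Ω Λ) (g : ConHomeo Ω Λ) (N : ℕ) (B : Set Z3) (o : ℝ),
  1 ≤ N → B.Finite → 0 < o → K' * o ≤ 1 → ubox N 0 (nbr 1 B) ⊆ Λ →
  S.Osc g.toFun (ubox N 0 (nbr 1 B)) o → Stg1 K C S St o →
  (∀ w ∈ sites B 2, One K C St g (slo (wd N) (2 / 100) (4 / 100) w)
    (shi (wd N) (2 / 100) (4 / 100) w) (1 / 200) o (dirs w)) →
  ∃ g₁ g₂ g₃ Ψ₁ Ψ₂ Ψ₃, Three K C C' K' L S St N B o g g₁ g₂ g₃ Ψ₁ Ψ₂ Ψ₃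

/-- the hypothesis on the rims of the face boxes inside the boxes of `Bp` -/
def Rims (S : Src Ω) (g : E3 → E3) (N : ℕ) (Bp : Set Z3) (Bf : Fin 3 → Set ℝ) : Prop :=
  ∀ z ∈ Bp, ∀ c, S.Q.dim c = 3 → ∀ x ∈ S.Q.cell c, g x ∈ lbox N (1 / 100) z → ∀ i,
    (g x i = z i * wd N i + 2 / 100 ∨ g x i = (z i + 1) * wd N i - 2 / 100) →
    Ok S g Bf c i (g x i)

/-- the sharp clauses on the cells which are mapped into `Z` -/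
def Sharp (p c θ ϑ : ℝ) (S : Src Ω) (g h : E3 → E3) (Z : Set E3) (η : ℝ≥0∞) (𝓢 : Set S.Q.ι)
    (ψ : S.Q.ι → (E2 →ᵃ[ℝ] E3)) (a : S.Q.ι → ℝ) : Prop :=
  (∀ e x y, S.Q.dim e = 1 → S.Q.cell e = segment ℝ x y → g '' S.Q.cell e ⊆ Z →
    SharpE g h x y θ η ∧ Rise g h x y ϑ η) ∧
  ∀ φ ∈ 𝓢, g '' S.Q.cell φ ⊆ Z → SharpF p h (ψ φ) (a φ) θ c η

/-- faces, edges and vertices of the boxes of `B` -/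
def ROUND3 (p : ℝ) : Prop := ∃ c : ℝ, 1 ≤ c ∧ ∀ θ : ℝ, 0 < θ → θ ≤ 1 / 1000 →
  ∃ (C : ℝ≥0) (CM : ℝ≥0 → ℝ≥0), 1 ≤ C ∧ ∀ ϑ : ℝ, 0 < ϑ → ϑ ≤ θ → ∃ K : ℝ≥0, 1 ≤ K ∧
  ∀ {Ω Λ : Set E3} (S : Src Ω) (g : ConHomeo Ω Λ) (N : ℕ) (B : Set Z3) (o : ℝ)
    (Bf : Fin 3 → Set ℝ) (η : ℝ≥0∞) (𝓢 : Set S.Q.ι) (ψ : S.Q.ι → (E2 →ᵃ[ℝ] E3))
    (a : S.Q.ι → ℝ),
  IsOpen Ω → IsOpen Λ → 1 ≤ N → B.Finite → 0 < η → 0 < o → K * o ≤ 1 →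
  ubox N 0 (nbr 1 B) ⊆ Λ → S.Osc g.toFun (ubox N 0 (nbr 1 B)) o → (∀ k, Thin (Bf k) o ϑ) →
  Rims S g.toFun N (nbr 1 B) Bf → (∀ φ ∈ 𝓢, Marked S g.toFun θ φ (ψ φ) (a φ)) →
  ∃ (h : ConHomeo Ω Λ) (Ψ : E3 → E3), Col N (1 / 200) (nbr 1 B) C Ψ ∧
    (∀ x ∈ Ω, (g.toFun x ∉ interior (ubox N 0 (nbr 1 B)) ∨
      ∀ (i : Fin 3) (n : ℤ), 11 / 100 < |g.toFun x i - n * wd N i|) → h.toFun x = g.toFun x) ∧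
    (∀ x ∈ Ω, dist (h.toFun x) (Ψ (g.toFun x)) ≤ K * o) ∧
    Ctl CM S g.toFun h.toFun
      (hit S g.toFun (ubox N 0 B) \ hit S g.toFun (ubox N (1 / 200) univ)) η (fun _ => C) ∧
    ∀ z, (z ∈ B ∨ z - Pi.single 2 1 ∈ B) →
      (∀ x ∈ Ω, g.toFun x ∈ shr N (1 / 200) z → |h.toFun x 2 - z 2| ≤ K * o) ∧
      Sharp p c θ ϑ S g.toFun h.toFun (shr N (1 / 200) z) η 𝓢 ψ a

/-! ### homeomorphisms of the target -/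

/-- PL homeomorphisms of the space -/
abbrev Hom : Type := ConHomeo (univ : Set E3) (univ : Set E3)

/-- a linear map near the origin, the identity far away -/
def LIN : Prop := ∀ b : ℝ, 1 ≤ b → ∃ (r : ℝ) (C : ℝ≥0), 0 < r ∧ r ≤ 1 ∧ ∀ A : M3, Bil b A →
  ∃ (Φ : Hom) (ε : Fin 3 → ℝ), (∀ i, ε i = 1 ∨ ε i = -1) ∧ LipschitzWith C Φ.toFun ∧
    (∀ y, 1 ≤ ‖y‖ → Φ.toFun y = y) ∧
    ∀ u, ‖u‖ ≤ r → Φ.toFun (A u) = fun i => ε i * u i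

/-- the centre of a unit box -/
noncomputable def cen (z : Z3) : E3 := fun i => z i + 1 / 2

/-- an aligned hole: the lattice cube round `c` is blown up onto most of the unit box; the planes
through the centre and at distance `2 / 100` from the sides are lattice planes -/
def HOLEA : Prop := ∃ C₀ : ℝ≥0, 1 ≤ C₀ ∧ ∀ a b : ℝ, 0 < a → a ≤ 1 / 16 → 1 ≤ b →
  ∃ C₁ : ℝ≥0, 1 ≤ C₁ ∧ ∀ s₀ : ℝ, 0 < s₀ → ∃ l₀ : ℝ, 0 < l₀ ∧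
  ∀ (z : Z3) (c y₀ : E3) (A : M3) (l : ℝ), dist c (cen z) ≤ 1 / 5 → Bil b A → 0 < l → l ≤ l₀ →
  ∃ (Φ : Hom) (ε : Fin 3 → ℝ) (q : Z3) (m : ℕ), (∀ i, ε i = 1 ∨ ε i = -1) ∧ 1 ≤ m ∧
    48 / (100 * m) ≤ s₀ ∧ (∀ y, y ∉ interior (lbox 1 0 z) → Φ.toFun y = y) ∧
    LipschitzWith C₁ Φ.toFun ∧ LipschitzOnWith C₀ Φ.toFun (ball c (1 / 16))ᶜ ∧
    ∀ y, Φ.toFun y ∈ lbox 1 (1 / 400) z → y ∈ ball c a ∧ ∀ u, y = y₀ + l • A u →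
      Φ.toFun y = fun i => cen z i + 48 / (100 * m) * (ε i * (u i - q i))

/-- the distance to the zero set of `ℓ` -/
noncomputable def pd (ℓ : E3 →ᵃ[ℝ] ℝ) (y : E3) : ℝ := infDist y {u | ℓ u = 0}

/-- the blow up region of scale `e` -/
def Ye (L : Finset (E3 →ᵃ[ℝ] ℝ)) (e : ℝ) : Set E3 :=
  {y | ∃ ℓ ∈ L, e / 32 ≤ pd ℓ y ∧ pd ℓ y ≤ 8 * e}

/-- the cube trick, with regions which are far apart, and of bounded overlap -/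
def CUBE2 : Prop := (∀ n : ℕ, ∃ a : ℝ, 0 < a ∧ a ≤ 1 / 16 ∧
  ∀ L : Finset (E3 →ᵃ[ℝ] ℝ), L.card ≤ n → (∀ ℓ ∈ L, ℓ.linear ≠ 0) → ∀ (x : E3) (e : ℝ), 0 < e →
    (∃ ℓ ∈ L, pd ℓ x ≤ 4 * e) → ∃ c, dist c x ≤ e / 5 ∧ closedBall c (e / 16) ⊆ Ye L e ∧
      ∀ ℓ ∈ L, a * e ≤ pd ℓ c) ∧
  ∀ (L : Finset (E3 →ᵃ[ℝ] ℝ)) (e₀ : ℝ) (n : ℕ) (κ : ℝ≥0), 0 < e₀ → ∃ (j₀ : ℕ) (o : ℝ), 0 < o ∧
    ∀ {α ι : Type} [Fintype ι] (X : α → Set E3) (m : ι → α → ℝ≥0∞), Fintype.card ι ≤ n →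
    (∀ φ, ∀ y ∈ X φ, ∀ y' ∈ X φ, dist y y' ≤ o) → ∃ j ≤ j₀, ∀ i,
      κ * tot {φ | (X φ ∩ cthickening o (Ye L (e₀ / 1024 ^ j))).Nonempty} (m i) ≤ tot univ (m i)

/-- squeezing the neighbourhood of the sides of a box -/
def SQZ : Prop := ∀ (lo hi : E3) (a ε : ℝ), 0 < ε → ε ≤ a → (∀ i, lo i + 4 * a ≤ hi i) →
  ∃ Φ : Hom, LipschitzWith 4 Φ.toFun ∧ (∀ y, y ∉ interior (Icc lo hi) → Φ.toFun y = y) ∧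
    ∀ y, (Φ.toFun y ∈ Icc (fun i => lo i + ε) (fun i => hi i - ε) ↔
        y ∈ Icc (fun i => lo i + a) fun i => hi i - a) ∧
      (y ∈ Icc (fun i => lo i + a) (fun i => hi i - a) → ∀ i, Φ.toFun y i =
        lo i + ε + (hi i - lo i - 2 * ε) / (hi i - lo i - 2 * a) * (y i - lo i - a))

/-- the vertical push round the slabs of height `q` in all boxes of `Bp` -/
def PUSH3 : Prop := ∃ C : ℝ≥0, 1 ≤ C ∧ ∀ (N : ℕ) (t q : ℝ) (Bp : Set Z3), 1 ≤ N → 0 < t →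
  t ≤ 1 / 4 → 1 / 3 ≤ q → q ≤ 2 / 3 → Bp.Finite → ∃ Φ : Hom,
    (∀ y, y ∉ interior (ubox N 0 Bp) → Φ.toFun y = y) ∧
    (∀ z, Φ.toFun '' lbox N 0 z = lbox N 0 z) ∧ (∀ y i, i ≠ 2 → Φ.toFun y i = y i) ∧
    (∀ y y', dist (Φ.toFun y) (Φ.toFun y') ≤ C * dist (vst N t y) (vst N t y')) ∧
    ∀ z ∈ Bp, ∀ y ∈ lbox N 0 z,
      (∀ i, i ≠ 2 → z i * wd N i + 1 / 1600 ≤ y i ∧ y i ≤ (z i + 1) * wd N i - 1 / 1600) →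
      (y 2 ≤ z 2 + q - t → Φ.toFun y 2 ≤ z 2 + 1 / 1600) ∧
      (z 2 + q + t ≤ y 2 → z 2 + 1 - 1 / 1600 ≤ Φ.toFun y 2) ∧
      (|y 2 - (z 2 + q)| ≤ t →
        Φ.toFun y 2 = z 2 + 1 / 2 + (1 / 2 - 1 / 1600) / t * (y 2 - (z 2 + q)))

/-! ### the mosaic in the holes -/

/-- control inside the boxes of `Bp`, if most of their volume is certified -/
def MOS (p : ℝ) : Prop := ∃ (v₀ : ℝ) (C : ℝ≥0) (CM : ℝ≥0 → ℝ≥0), 0 < v₀ ∧ 1 ≤ C ∧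
  ∀ (N : ℕ) (Bp : Set Z3) (G : Set E3) (b : ℝ) (n : ℕ) (v : ℝ), 1 ≤ N → Bp.Finite → IsOpen G →
  2 ≤ b → 0 < v → (∀ z ∈ Bp, volume (lbox N (1 / 800) z \ G) ≤ ENNReal.ofReal v₀) →
  ∃ (𝒢 : Set (Set E3)) (κ : ℝ≥0), 𝒢.Finite ∧ (∀ G' ∈ 𝒢, IsOpen G' ∧
    ∀ z ∈ Bp, volume (lbox N (1 / 100) z \ G') ≤ ENNReal.ofReal v) ∧
  ∀ o₁ ϑ : ℝ, 0 < o₁ → 0 < ϑ → ∃ o : ℝ, 0 < o ∧
  ∀ {Ω Λ : Set E3} (S : Src Ω) (g : ConHomeo Ω Λ) (η : ℝ≥0∞) {ι : Type} [Fintype ι]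
    (m : ι → S.Q.ι → ℝ≥0∞), IsOpen Ω → IsOpen Λ → 0 < η → Fintype.card ι ≤ n →
    ubox N 0 Bp ⊆ Λ → S.Osc g.toFun (ubox N 0 Bp) o → Cert S g.toFun G b o →
  ∃ (h : ConHomeo Ω Λ) (k : S.Q.ι → ℝ≥0∞) (Bf : Fin 3 → Set ℝ),
    (∀ x ∈ Ω, g.toFun x ∉ ubox N (1 / 800) Bp → h.toFun x = g.toFun x) ∧
    (∀ x ∈ Ω, ∀ z, g.toFun x ∈ lbox N 0 z → h.toFun x ∈ lbox N 0 z) ∧
    Ctl CM S g.toFun h.toFun (hit S h.toFun (ubox N (1 / 200) Bp)) η k ∧ (∀ φ, k φ ≤ κ) ∧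
    (∀ φ, φ ∉ hit S g.toFun (ubox N (1 / 1000) Bp) → k φ ≤ C) ∧
    (∀ i, tot (hit S g.toFun (ubox N (1 / 1000) Bp)) (fun φ => m i φ * k φ ^ p) ≤
      C * tot (hit S g.toFun (ubox N (1 / 1000) Bp)) (m i)) ∧
    S.Osc h.toFun (ubox N 0 Bp) o₁ ∧ (∀ k, Thin (Bf k) o₁ ϑ) ∧ Rims S h.toFun N Bp Bf ∧
    ∃ G' ∈ 𝒢, Cert S h.toFun G' b o₁

/-! ### one zone -/

/-- the result of a zone -/
structure ZOut (p c₀ θ ϑ e : ℝ) (C κ : ℝ≥0) (CM : ℝ≥0 → ℝ≥0) (S : Src Ω) (N : ℕ) (t : ℝ)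
    (B : Set Z3) (g h : E3 → E3) (η : ℝ≥0∞) (𝓢 : Set S.Q.ι) (ψ : S.Q.ι → (E2 →ᵃ[ℝ] E3))
    (a : S.Q.ι → ℝ) {ι : Type} [Fintype ι] (m : ι → S.Q.ι → ℝ≥0∞) (c : Z3 → E3)
    (k : S.Q.ι → ℝ≥0∞) : Prop where
  off : ∀ x ∈ Ω, g x ∉ interior (ubox N 0 (nbr 1 B)) → h x = g x
  near : ∀ x ∈ Ω, ∀ z, g x ∈ lbox N 0 z → h x ∈ cthickening e (lbox N 0 z)
  osc : S.Osc h (ubox N 0 (nbr 1 B)) e
  ctl : Ctl CM S (vst N t ∘ g) h (hit S g (ubox N 0 B)) η k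
  top : ∀ φ, k φ ≤ κ
  cen : ∀ z ∈ nbr 1 B, c z ∈ mid N z
  k_le : ∀ φ, φ ∉ hit S g (slabs N t B c) → k φ ≤ C
  sum : ∀ i, tot (hit S g (slabs N t B c)) (fun φ => m i φ * k φ ^ p) ≤
    (Fintype.card ι + 1) * C * ENNReal.ofReal t * tot (hit S g (ubox N 0 (nbr 1 B))) (m i)
  lat : ∀ z, (z ∈ B ∨ z - Pi.single 2 1 ∈ B) → ∀ x ∈ Ω, g x ∈ shp N t c z →
    ∀ i, i ≠ 2 → |h x i - g x i| ≤ e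
  sharp : ∀ z, (z ∈ B ∨ z - Pi.single 2 1 ∈ B) → Sharp p c₀ θ ϑ S g h (shp N t c z) η 𝓢 ψ a

/-- push, mosaic, round, squeeze -/
def ZONE3 (p : ℝ) : Prop := ∃ c₀ v₀ : ℝ, 1 ≤ c₀ ∧ 0 < v₀ ∧ ∀ θ : ℝ, 0 < θ → θ ≤ 1 / 1000 →
  ∃ (C : ℝ≥0) (CM : ℝ≥0 → ℝ≥0), 1 ≤ C ∧
  ∀ (ϑ : ℝ) (N : ℕ) (t : ℝ) (B : Set Z3) (G : Set E3) (b : ℝ) (n : ℕ) (v : ℝ), 0 < ϑ → ϑ ≤ θ →
  1 ≤ N → 0 < t → t ≤ 1 / 4 → B.Finite → IsOpen G → 1 ≤ b → 0 < v →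
  (∀ z ∈ nbr 1 B, volume (lbox N 0 z \ G) ≤ ENNReal.ofReal (v₀ * t)) →
  ∃ (𝒢 : Set (Set E3)) (κ : ℝ≥0) (b' : ℝ), 𝒢.Finite ∧ 1 ≤ b' ∧ (∀ G' ∈ 𝒢, IsOpen G' ∧
    G' ⊆ interior (ubox N 0 (nbr 1 B)) ∧
    volume (ubox N 0 (nbr 1 B) \ G') ≤ ENNReal.ofReal v) ∧
  ∀ e : ℝ, 0 < e → ∃ o : ℝ, 0 < o ∧
  ∀ {Ω Λ : Set E3} (S : Src Ω) (g : ConHomeo Ω Λ) (η : ℝ≥0∞) (𝓢 : Set S.Q.ι)
    (ψ : S.Q.ι → (E2 →ᵃ[ℝ] E3)) (a : S.Q.ι → ℝ) {ι : Type} [Fintype ι]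
    (m : ι → S.Q.ι → ℝ≥0∞), IsOpen Ω → IsOpen Λ → 0 < η → Fintype.card ι ≤ n →
    ubox N 0 (nbr 1 B) ⊆ Λ → S.Osc g.toFun (ubox N 0 (nbr 1 B)) o → Cert S g.toFun G b o →
    (∀ φ ∈ 𝓢, Marked S g.toFun θ φ (ψ φ) (a φ)) →
  ∃ (h : ConHomeo Ω Λ) (c : Z3 → E3) (k : S.Q.ι → ℝ≥0∞),
    ZOut p c₀ θ ϑ e C κ CM S N t B g.toFun h.toFun η 𝓢 ψ a m c k ∧
    ∃ G' ∈ 𝒢, Cert S h.toFun G' b' e

/-! ### the two batches -/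

/-- the far three-cells -/
def Far3 (S : Src Ω) {J : Type} (Nr : J → Set S.Q.ι) : Set S.Q.ι :=
  {c | S.Q.dim c = 3 ∧ ∀ j, c ∉ Nr j}

/-- the two batches; `γ i` are the candidates for certified sets, `D i` is protected -/
def BATCH3 (p : ℝ) : Prop := ∃ (c₀ : ℝ) (Cz : ℝ → ℝ≥0) (CM : ℝ → ℝ≥0 → ℝ≥0) (Cu : ℝ≥0 → ℝ≥0)
  (Ct : ℝ≥0 → ℝ → ℕ → ℝ → ℝ≥0 → ℝ≥0), 1 ≤ c₀ ∧
  ∀ {Ω Λ Ω₀ : Set E3} {f f' : E3 → E3} {ε : ℝ} {J : Type} [Fintype J] (Y : J → TyZ Ω f),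
  IsOpen Ω → IsOpen Λ → Bornology.IsBounded Λ → HomeoOn f f' Ω Λ → 0 < ε →
  IsCompact Ω₀ → Ω₀ ⊆ Ω → (∀ j, (Y j).K ⊆ Ω₀) →
  (∀ j j', j ≠ j' → Disjoint (Y j).G (Y j').G) →
  ∃ (l : J → ℝ) (v : J → E3) (T : J → (E3 ≃ᴬ[ℝ] E3)) (B : J → Set Z3) (s₁ l₀ v₁ : ℝ)
    (X : ℕ → Set E3) (vv : ℕ → ℝ) (o₁ : E3 → ℝ), 0 < s₁ ∧ 0 < l₀ ∧ 0 < v₁ ∧ Gauge o₁ Ω ∧
    (∀ j, 0 < l j ∧ (∀ y, T j y = (l j)⁻¹ • (Y j).Bm y - v j) ∧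
      (Y j).N * volume {x ∈ (Y j).K | T j (f x) ∈ strips (Y j).N} ≤ 10 * volume (Y j).K) ∧
    (∀ n, IsCompact (X n) ∧ X n ⊆ Λ ∧ 0 < vv n ∧
      Disjoint (X (n + 1)) (f '' (Ω ∩ thickening s₁ Ω₀))) ∧ LFIn X Λ ∧
  ∀ (l₂ e : ℝ) (n₀ : ℕ) {I : Type} (γ D : I → Set E3) (bb : I → ℝ), 0 < l₂ → l₂ ≤ l₀ → 0 < e →
    (∀ i, IsOpen (γ i) ∧ γ i ⊆ Λ ∧ 1 ≤ bb i ∧ thickening (4 * l₂) (D i) ⊆ γ i ∧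
      D i ⊆ f '' Ω₀ ∧ ∀ j, Disjoint (D i) (f '' (Y j).G)) → LFIn γ Λ →
  ∃ (o : E3 → ℝ) (lam : I → ℝ), Gauge o Ω ∧ (∀ i, 0 < lam i) ∧
  ∀ (I₁ : Set I) (S : Src Ω) (g : ConHomeo Ω Λ) (M₀ : ℝ≥0) (w : S.Q.ι → ℝ≥0∞)
    (Nr : J → Set S.Q.ι) (ν : J → (E3 ≃ᴬ[ℝ] E3)) (n : ∀ j, Nrm S (ν j)) (η : ℝ≥0∞)
    (𝓢 : J → Set S.Q.ι) (ψ : J → S.Q.ι → (E2 →ᵃ[ℝ] E3)) (a : J → S.Q.ι → ℝ)
    {ι : Type} [Fintype ι] (m : J → ι → S.Q.ι → ℝ≥0∞), 0 < η → Fintype.card ι ≤ n₀ →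
    (∀ i ∈ I₁, ∀ i' ∈ I₁, i ≠ i' → Disjoint (γ i) (γ i')) →
    (∀ i ∈ I₁, Cert S g.toFun (γ i) (bb i) (lam i)) →
    (∀ y, volume ((X 0 ∩ closedBall y l₂) \ ((⋃ i ∈ I₁, γ i) ∪
      ⋃ j, f '' (Ω ∩ thickening s₁ (Y j).K))) ≤ ENNReal.ofReal (v₁ * l₂ ^ 3)) →
    (∀ k, volume (X (k + 1) \ ⋃ i ∈ I₁, γ i) ≤ ENNReal.ofReal (vv (k + 1))) →
    (∀ c, ∀ x ∈ S.Q.cell c, ∀ y ∈ S.Q.cell c, dist (g.toFun x) (g.toFun y) ≤ o y) →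
    (∀ x ∈ Ω, dist (g.toFun x) (f x) ≤ o₁ x) →
    (∀ j, Cond (ν j) (Y j).L ∧ (∀ c ∈ Nr j, S.Q.cell c ⊆ thickening s₁ (Y j).K) ∧
      ∀ φ ∈ 𝓢 j, Marked (n j).src (T j ∘ g.toFun ∘ (ν j).symm) (Y j).θ φ (ψ j φ) (a j φ)) →
    (∀ c ∈ Far3 S Nr, S.M c = M₀ ∧ w c ≠ ⊤) →
  ∃ h : ConHomeo Ω Λ, (∀ u ∈ Ω, dist (h.toFun u) (f u) ≤ ε) ∧
    (∀ i ∈ I₁, ∀ u ∈ Ω, g.toFun u ∈ D i → h.toFun u = g.toFun u) ∧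
    (tot {c ∈ Far3 S Nr | ∀ i ∈ I₁, ¬ g.toFun '' S.Q.cell c ⊆ D i}
        (fun c => w c * lipc h.toFun (S.Q.cell c) ^ p) ≤
      Cu M₀ * tot {c ∈ Far3 S Nr | ∀ i ∈ I₁, ¬ g.toFun '' S.Q.cell c ⊆ D i}
        (fun c => w c * S.A g.toFun c ^ p) +
      ∑ j, Ct M₀ (Y j).θ (Y j).N (Y j).t (Y j).L *
        tot {c ∈ Far3 S Nr | (S.Q.cell c ∩ (Y j).G).Nonempty}
          (fun c => w c * S.A g.toFun c ^ p) + η) ∧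
    ∀ j, (∀ φ ∈ Nr j, ∀ u ∈ S.Q.cell φ, ∃ z, nbr 1 {z} ⊆ B j ∧
        T j (g.toFun u) ∈ lbox (Y j).N 0 z) ∧
      ∃ c k, NearOut p c₀ (Y j).θ (Y j).ϑ e (Cz (Y j).θ) (CM (Y j).θ) (n j).src (Y j).N (Y j).t
        (B j) (T j ∘ g.toFun ∘ (ν j).symm) (T j ∘ h.toFun ∘ (ν j).symm) (Nr j) η (𝓢 j) (ψ j)
        (a j) (m j) c k ∧
      ∀ φ, ∀ c' ∈ Nr j, S.Q.dim c' = 3 → S.Q.cell φ ⊆ S.Q.cell c' →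
        lipc (T j ∘ h.toFun ∘ (ν j).symm) (ν j '' S.Q.cell c') ≤
          k φ * CM (Y j).θ ((n j).M c') *
            (n j).src.A (vst (Y j).N (Y j).t ∘ T j ∘ g.toFun ∘ (ν j).symm) c' + η

/-! ### the junction round at the boundary of a core -/

/-- the cube with sides `[- a, m + a]` -/
def big (m : ℕ) (a : ℝ) : Set E3 := Icc (fun _ => -a) fun _ => m + a

/-- small oscillation from bounded energy -/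
def LOG (p : ℝ) : Prop := ∀ (E : ℝ≥0) (ω : ℝ), 0 < ω → ∃ d : ℝ, 0 < d ∧ d ≤ 1 / 2 ∧
  ∀ {Ω Λ : Set E3} (S : Src Ω) (h : ConHomeo Ω Λ) (x₀ : E3), IsOpen Ω → IsOpen Λ →
  closedBall x₀ 1 ⊆ Ω →
  tot {c | S.Q.dim c = 3 ∧ (S.Q.cell c ∩ closedBall x₀ 1).Nonempty}
    (fun c => volume (S.Q.cell c) * lipc h.toFun (S.Q.cell c) ^ p) ≤ E →
  ∀ x ∈ closedBall x₀ d, dist (h.toFun x) (h.toFun x₀) ≤ ω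

/-- the hypotheses of the junction round, in normalised coordinates -/
structure Jin (p : ℝ) (S : Src Ω) (g : ConHomeo Ω Λ) (m n : ℕ) (M₀ E : ℝ≥0) (d s o' : ℝ) :
    Prop where
  sub : big m 1 ⊆ Λ
  lat : ∀ c, ∀ x ∈ S.Q.ocell c, g.toFun x ∈ big m (-(1 / 400)) → S.Q.cell c = hull x
  aff : ∀ x ∈ Ω, g.toFun x ∈ big m (-(1 / 400)) → g.toFun x = (50 * n : ℝ)⁻¹ • x
  osc : S.Osc g.toFun (big m 1) (1 / n)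
  fine : S.Osc g.toFun (big m 1 \ big m (1 / 2000)) o'
  ball : ∀ x ∈ Ω, g.toFun x ∈ big m 1 → closedBall x 1 ⊆ Ω ∧
    ∀ y ∈ closedBall x 1, dist (g.toFun y) (g.toFun x) ≤ 1 / (10 * n)
  inv : ∀ x ∈ Ω, ∀ y ∈ Ω, g.toFun x ∈ big m 1 → dist (g.toFun y) (g.toFun x) ≤ s → dist y x ≤ d
  M_eq : ∀ c ∈ hit S g.toFun (big m 1), 2 ≤ S.Q.dim c → S.M c = M₀
  en : tot {c ∈ hit S g.toFun (big m 1) | S.Q.dim c = 3}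
    (fun c => volume (S.Q.cell c) * S.A g.toFun c ^ p) ≤ E

/-- the junction round -/
def JUNC (p : ℝ) : Prop := ∃ (n₀ : ℕ) (C : ℝ≥0) (CM : ℝ≥0 → ℝ≥0), 1 ≤ C ∧
  ∀ (n : ℕ) (M₀ E : ℝ≥0) (ω : ℝ), n₀ ≤ n → 0 < ω → ∃ d : ℝ, 0 < d ∧ ∀ s : ℝ, 0 < s →
  ∃ o' : ℝ, 0 < o' ∧ ∀ {Ω Λ : Set E3} (S : Src Ω) (g : ConHomeo Ω Λ) (m : ℕ) (η : ℝ≥0∞),
  IsOpen Ω → IsOpen Λ → 4 ≤ m → 0 < η → Jin p S g m n M₀ E d s o' →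
  ∃ h : ConHomeo Ω Λ,
    (∀ x ∈ Ω, (g.toFun x ∉ interior (big m 1) ∨ g.toFun x ∈ big m (-2)) →
      h.toFun x = g.toFun x) ∧
    (∀ e, S.Q.dim e = 1 → lipc h.toFun (S.Q.cell e) ≤ C * lipc g.toFun (S.Q.cell e) + η) ∧
    (∀ c ∈ hit S g.toFun (big m (1 / 400)), 2 ≤ S.Q.dim c →
      lipc h.toFun (S.Q.cell c) ≤ CM M₀ * S.A g.toFun c + η) ∧
    (∀ x ∈ Ω, g.toFun x ∈ big m (1 / 800) → ∀ y ∈ closedBall x d,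
      dist (h.toFun y) (h.toFun x) ≤ ω) ∧
    ∀ c ∈ hit S g.toFun (big m 1 \ big m (1 / 800)), ∀ x ∈ S.Q.cell c, ∀ y ∈ S.Q.cell c,
      dist (h.toFun y) (h.toFun x) ≤ ω

end P073.B
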