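import Vale.Agent.P073Y.B.Zone4
import Vale.Agent.P073Y.B.Zone0
import Vale.Agent.P073Y.B.Round4
import Vale.Agent.P073Y.B.Push3
import Vale.Agent.P073Y.Mo.All
import Vale.Agent.P073Y.St3.All

/-!
# The two kinds of zones, without hypotheses
-/

namespace P073.B

theorem zone4 {p : ℝ} (hp : 1 ≤ p) : ZONE4 p :=
  zone4_of push3 (Mo.mos2 (round4 (St3.stage4 hp))) (round4 (St3.stage4 hp)) sqz

theorem zone0 : ZONE0 :=
  zone0_of (Mo.mos2 (round4 (St3.stage4 le_rfl))) (round4 (St3.stage4 le_rfl))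

end P073.B
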