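import Vale.Agent.P073Y.B.Mr

/-!
# A zone of the first batch: push, mosaic, round, squeeze
-/

open Set Metric Topology Filter MeasureTheory
open scoped NNReal ENNReal

namespace P073.B

open P073.Top P073.Zn Zt

theorem dist_vst {N : ℕ} {t : ℝ} (h : 1 ≤ N / t) (y y' : E3) :
    dist (vst N t y) (vst N t y') ≤ N / t * dist y y' := by
  have k := fun i => (dist_le_pi_dist y y' i).trans (le_mul_of_one_le_left dist_nonneg h)
  refine (dist_pi_le_iff (by positivity)).2 fun i => ?_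
  fin_cases i
  · exact k 0
  · exact k 1
  · have e := mul_le_mul_of_nonneg_left (dist_le_pi_dist y y' 2) (zero_le_one.trans h)
    rwa [Real.dist_eq, ← abs_of_nonneg (zero_le_one.trans h), ← abs_mul, mul_sub,
      abs_of_nonneg (zero_le_one.trans h)] at e

theorem vol_ps {N : ℕ} {t q v : ℝ} {Bp : Set Z3} {C : ℝ≥0} {Φ : Hom} (H : Psh N t q Bp C Φ)
    (ht : 0 < t) (ht' : t ≤ 1 / 4) (hv : 0 < v) {z : Z3} (hz : z ∈ Bp) {G : Set E3}
    (h : volume (lbox N 0 z \ G) ≤ ENNReal.ofReal (v * t)) :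
    volume (lbox N (1 / 800) z \ Φ.invFun ⁻¹' G) ≤ ENNReal.ofReal v := by
  refine ((H.aff ht ht' hz).vol (by norm_num)).trans ((mul_le_mul_right h _).trans ?_)
  rw [← ENNReal.ofReal_mul (Finset.prod_nonneg fun i _ => zero_le_one.trans (one_le_ps ht ht' i))]
  exact ENNReal.ofReal_le_ofReal (by nlinarith [ps_prod ht])

theorem vol_qs {N : ℕ} {ε v : ℝ} {Θ : Hom} {z : Z3} {u : E3} {G U : Set E3} (hN : 1 ≤ N)
    (ε0 : 0 < ε) (ε1 : 4 * ε ≤ 1 / 100) (hv : 0 < v)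
    (H : Aff Θ N (2 * ε) z u (qs N (12 / 100) ε) (lbox N (ε + 12 / 100) z))
    (h1 : volume (lbox N 0 z \ lbox N (4 * ε) z) ≤ ENNReal.ofReal (v / 2))
    (h2 : volume (lbox N (1 / 100) z \ G) ≤ ENNReal.ofReal (v / 16)) (hU : lbox N (4 * ε) z ⊆ U) :
    volume (lbox N 0 z \ (U ∩ Θ.invFun ⁻¹' G)) ≤ ENNReal.ofReal v := by
  have k0 := qs_mem hN ε0 (a := 12 / 100) (by linarith) (by norm_num)
  have k1 := Finset.prod_le_prod (s := Finset.univ)
    (fun i _ => zero_le_one.trans (k0 i).1) fun i _ => (k0 i).2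
  have k2 := (H.vol (G := G) (κ' := 4 * ε) (by linarith)).trans (mul_le_mul'
    (ENNReal.ofReal_le_ofReal k1)
    ((measure_mono (sdiff_subset_sdiff_left (lbox_mono N (by linarith) z))).trans h2))
  refine (measure_mono (t := _ ∪ _) fun w hw => ?_).trans
    ((measure_union_le _ _).trans ((add_le_add h1 k2).trans_eq ?_))
  · exact (em _).symm.imp (fun k => ⟨hw.1, k⟩) fun k => ⟨k, fun k' => hw.2 ⟨hU k, k'⟩⟩
  · rw [← ENNReal.ofReal_mul (by positivity), ← ENNReal.ofReal_add (by positivity)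
      (by positivity), Fin.prod_const]
    exact congrArg _ (by ring)

theorem zone4_of {p : ℝ} (hP : PUSH3) (hM : MOS2) (hR : ROUND4 p) (hS : SQZ) : ZONE4 p := by
  obtain ⟨C₁, C1, hP⟩ := exists_psh hP
  obtain ⟨c, v₀, c1, v0, hM⟩ := mr_of hM hR
  refine ⟨c, v₀, c1, v0, fun θ θ0 θ1 => ?_⟩
  obtain ⟨C₂, CM₂, C2, hM⟩ := hM θ θ0 θ1
  refine ⟨9 * (C₂ * C₁) + 15, fun M => 9 * ((CM₂ M + 1) * (2 * C₁ + C₁)),
    le_add_left (by norm_num), fun ϑ N t v ϑ0 ϑ1 hN ht ht' hv => ?_⟩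
  obtain ⟨K, -, hM⟩ := hM ϑ ϑ0 ϑ1
  obtain ⟨κ, hκ, κ0, κ1⟩ := ((vol_shell N hN (half_pos hv)).and
    (Ioc_mem_nhdsGT (show (0 : ℝ) < 1 / 100 by norm_num))).exists
  obtain ⟨ε, rfl⟩ : ∃ ε, κ = 4 * ε := ⟨κ / 4, by ring⟩
  have ε0 : 0 < ε := by linarith
  obtain ⟨δ, δ0, hM⟩ := hM N (v / 16) hN (by positivity)
  refine ⟨min (δ / 3200) (ε / 2), by positivity, fun r' r0 => ?_⟩
  obtain ⟨ρ, ρ0, hρ⟩ := exists_pos_mul_lt (lt_min ε0 r0) (9 * (C₂ + 2 * K))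
  obtain ⟨r₂, r2, hM⟩ := hM (1600 * ρ) (by positivity)
  obtain ⟨r, r1, hr⟩ := exists_pos_mul_lt (a := min (min (r₂ / 3200) ρ) t) (by positivity)
    (C₁ * (N / t))
  refine ⟨r, r1, ?_⟩
  intro Ω Λ S g B G μ η 𝓢 ψ a ι _ m hF hΩ hΛ hB hG μ0 μ1 hη hsub hvol hC hO hm
  simp only [lt_min_iff] at hρ hr
  have hBp := nbr_finite hB 1
  have N1 : (1 : ℝ) ≤ N / t := (one_le_div ht).2 (by linarith [(Nat.one_le_cast (α := ℝ)).2 hN])
  have D1 : (1 : ℝ) ≤ C₁ * (N / t) := one_le_mul_of_one_le_of_one_le C1 N1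
  have K0 := mul_nonneg K.coe_nonneg (mul_pos ρ0 μ0).le
  have C0 := mul_nonneg C₂.coe_nonneg (mul_pos ρ0 μ0).le
  have Ke := mul_le_mul_of_nonneg_right hρ.2.le μ0.le
  have Kε : K * (ρ * μ) < ε := by
    linarith [mul_lt_mul_of_pos_right hρ.1 μ0, mul_le_of_le_one_right ε0.le μ1]
  obtain ⟨q, hq, hsum⟩ := exists_height S g.toFun N B ht (((mul_le_of_le_one_right r1.le μ1).trans
    (le_mul_of_one_le_left r1.le D1)).trans_lt hr.2) hO m
  obtain ⟨q1, q2⟩ := hts_mem ht hq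
  obtain ⟨Φ, H⟩ := hP N t q _ hN ht ht' q1 q2 hBp
  obtain ⟨g₁, e₁⟩ := exists_post g Φ hΛ (interior_subset.trans hsub) H.off
  have e1 : ∀ x, g₁.toFun x = Φ.toFun (g.toFun x) := congrFun e₁
  have o1 : ∀ x ∈ Ω, g.toFun x ∉ interior (ubox N 0 (nbr 1 B)) → g₁.toFun x = g.toFun x :=
    fun x _ k => (e1 x).trans (H.off _ k)
  have m1 := hit_eq S g g₁ fun x hx k => o1 x hx fun k' => k (interior_subset k')
  have osc : ∀ {s : ℝ}, C₁ * (N / t) * r < s → S.Osc g₁.toFun (ubox N 0 (nbr 1 B)) (s * μ) :=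
    fun hs φ hφ x hx y hy => by
      have k := (dist_vst N1 _ _).trans (mul_le_mul_of_nonneg_left
        (hO φ (m1.subset hφ) x hx y hy) (zero_le_one.trans N1))
      rw [e1, e1]
      linarith [H.lip (g.toFun x) (g.toFun y), mul_le_mul_of_nonneg_left k C₁.coe_nonneg,
        mul_le_mul_of_nonneg_right hs.le μ0.le]
  obtain ⟨η₁, ⟨η9, η1⟩, η0⟩ := (((ev_small (a := 9) (by norm_num) hη).and
    (ev_small (a := 1) (by norm_num) hη)).and self_mem_nhdsWithin).exists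
  rw [one_mul] at η1
  have hμ : 1 / 1600 + μ / 3200 < 1 / 800 := by linarith
  obtain ⟨h, G₂, R⟩ := hM S g₁ B (Φ.invFun ⁻¹' G) (fun _ => μ / 3200) (ρ * μ) η₁ 𝓢 ψ a hF hΩ hΛ hB
    (isOpen_pre Φ hG) η0 (by positivity) (by linarith) hsub (osc hr.1.2)
    (fun z hz => ⟨by positivity, by linarith, vol_ps H ht ht' v0 hz (hvol z hz),
      e₁ ▸ (H.aff ht ht' hz).cer (hC.mono inter_subset_left le_rfl) (by positivity) (by linarith) hμ,
      fun φ hφ x hx y hy => (osc hr.1.1 φ (hit_mono ((lbox_mono N (by norm_num) z).trans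
        (lbox_sub hz)) hφ) x hx y hy).trans_eq (by ring), by linarith⟩)
    fun φ hφ => Ln.marked_congr (hm φ hφ) fun u _ i hi => by rw [e1, H.lat _ i hi]
  obtain ⟨Θ, l1, l2, l3, l4⟩ := squeeze hS hN hBp ε0 (a := 12 / 100) (by linarith) (by norm_num)
  have sub : ∀ z ∈ nbr 1 B, interior (lbox N ε z) ⊆ interior (ubox N 0 (nbr 1 B)) := fun z hz =>
    interior_mono ((lbox_mono N ε0.le z).trans (lbox_sub hz))
  have l5 : ∀ y, y ∉ interior (ubox N 0 (nbr 1 B)) → Θ.toFun y = y := fun y k =>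
    l2 y fun z hz k' => k (sub z hz k')
  obtain ⟨h', e₂⟩ := exists_post h Θ hΛ (interior_subset.trans hsub) l5
  have e2 : ∀ x, h'.toFun x = Θ.toFun (h.toFun x) := congrFun e₂
  have off : ∀ x ∈ Ω, g.toFun x ∉ interior (ubox N 0 (nbr 1 B)) → h'.toFun x = g.toFun x :=
    fun x hx k => by rw [e2, R.off x hx (by rwa [o1 x hx k]), o1 x hx k, l5 _ k]
  have l6 : ∀ x y, dist (Θ.toFun x) (Θ.toFun y) ≤ 9 * dist x y := l1.dist_le_mul
  have fl : ∀ z, (z ∈ B ∨ z - Pi.single 2 1 ∈ B) → ∀ x ∈ Ω, g.toFun x ∈ shp N t (ctr N q) z →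
      g₁.toFun x ∈ shr N (1 / 3200) z ∧ h'.toFun x = h.toFun x ∧
        ∀ i, i ≠ 2 → g₁.toFun x i = g.toFun x i := fun z hz x hx k => by
    have k1 : ∀ i, i ≠ 2 → g₁.toFun x i = g.toFun x i := fun i hi => by rw [e1, H.lat _ i hi]
    have k2 : g₁.toFun x ∈ shr N (1 / 3200) z := ⟨e1 x ▸ (H.flat ht.le (by linarith) (by linarith)
      (mem_nbr hz).1 (mem_nbr hz).2 k).trans (by norm_num), fun i hi => k1 i hi ▸ k.1 i hi⟩
    exact ⟨k2, (e2 x).trans (l2 _ fun z' _ k' =>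
      notMem_lbox ((R.flat z hz x hx k2).1.trans_lt Kε) z' (interior_subset k')), k1⟩
  refine ⟨h', ctr N q, (⋃ z ∈ nbr 1 B, interior (lbox N (3 * ε) z)) ∩ Θ.invFun ⁻¹' G₂,
    ⟨off, fun x hx z k => ?_, fun φ hφ x hx y hy => ?_, ?_, fun z _ => ctr_mem hN q1 q2 z,
      fun i => (hsum i).trans ?_, fun z hz x hx k i hi => ?_, fun z hz =>
        (R.sharp z hz).congr η1 (fl z hz) fun φ hφ _ => ⟨hφ, (hm φ hφ).cell⟩⟩,
    (isOpen_biUnion fun _ _ => isOpen_interior).inter (isOpen_pre Θ R.opn),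
    fun z hz => vol_qs hN ε0 κ1 hv (l4 z hz) (hκ z) (R.vol z hz) fun _ k =>
      mem_biUnion hz (lbox_sub_int (by linarith) k), fun w hw => ?_⟩
  · obtain ⟨y, y1, y2⟩ := R.near x hx z (e1 x ▸ H.maps k)
    refine mem_cthickening_of_dist_le _ (Θ.toFun y) _ _ ?_ (by rw [e2]; linarith [l6 (h.toFun x) y])
    by_cases k' : ∀ z ∈ nbr 1 B, y ∉ interior (lbox N ε z)
    · rwa [l2 y k']
    · push Not at k'
      obtain ⟨z', z1, z2⟩ := k'
      obtain rfl := eq_of_int hN (by linarith) z2 y1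
      exact lbox_mono N ε0.le z' (interior_subset ((l3 z' z1 y).2 z2))
  · have k := R.osc φ (m1.symm.subset ((hit_eq S g h' fun x hx k =>
      off x hx fun k' => k (interior_subset k')).subset hφ)) x hx y hy
    rw [e2, e2]
    linarith [l6 (h.toFun x) (h.toFun y)]
  · have k1 : Ct2 C₁ (fun _ => C₁) S (vst N t ∘ g.toFun) g₁.toFun ∅ ∅ 0 :=
      Ct2.of_lip fun _ x _ y _ => by
        rw [e1, e1, edist_dist, edist_dist, ← ENNReal.ofReal_coe_nnreal,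
          ← ENNReal.ofReal_mul C₁.coe_nonneg]
        exact ENNReal.ofReal_le_ofReal (H.lip _ _)
    refine ((k1.comp0 R.ctl up_empty).post (C₂ := 9) (g₂ := h'.toFun) η9 fun _ x _ y _ => ?_).mono
      le_self_add (fun _ => le_rfl) (fun φ hφ => ?_) (fun φ hφ => Or.inr ?_) le_rfl
    · rw [e2, e2]
      exact l1 _ _
    · obtain ⟨x, hx, k⟩ := mem_hit.1 (hφ.resolve_left id)
      obtain ⟨z, hz, k⟩ := mem_iUnion₂.1 k
      exact mem_hit.2 ⟨x, hx, (H.aff ht ht' hz).thick (by linarith) hμ (by rwa [e1] at k)⟩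
    · obtain ⟨x, hx, k⟩ := mem_hit.1 hφ
      obtain ⟨z, hz, k⟩ := mem_ubox.1 k
      exact mem_hit.2 ⟨x, hx, lbox_sub hz (e1 x ▸ H.maps k)⟩
  · gcongr
    push_cast
    exact le_add_self
  · obtain ⟨k1, k2, k3⟩ := fl z hz x hx k
    rw [k2, ← k3 i hi]
    linarith [(R.flat z hz x hx k1).2 i hi]
  · obtain ⟨z, hz, k⟩ := mem_iUnion₂.1 hw.1
    have k1 := mul_le_mul_of_nonneg_right (min_le_left (δ / 3200) (ε / 2)) μ0.le
    have k2 := mul_le_mul (min_le_right (δ / 3200) (ε / 2)) μ1 μ0.le (half_pos ε0).le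
    rw [e₂]
    exact (l4 z hz).cer (κ' := 3 * ε) ((R.cer z hz).mono (inter_subset_inter_right _
      (lbox_mono N (by linarith) z)) le_rfl) (by positivity) (by linarith) (by linarith) w
      ⟨hw.2, interior_subset k⟩

end P073.B
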