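import Vale.Agent.P073Y.B.Push3
import Vale.Agent.P073Y.B.Round4
import Vale.Agent.P073Y.B.Sqz
import Vale.Agent.P073Y.B.Zone0
import Vale.Agent.P073Y.B.Zone4
import Vale.Agent.P073Y.Mo.All
import Vale.Agent.P073Y.St3.All

/-!
# Round, mosaic and zones: the unconditional statements
-/

namespace P073.B

theorem round4' {p : ℝ} (hp : 1 ≤ p) : ROUND4 p := round4 (St3.stage4 hp)

theorem mos2' : MOS2 := Mo.mos2 (round4' le_rfl)

theorem zone4 {p : ℝ} (hp : 1 ≤ p) : ZONE4 p := zone4_of push3 mos2' (round4' hp) sqz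

theorem zone0 : ZONE0 := zone0_of mos2' (round4' le_rfl)

end P073.B
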