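import Vale.Agent.P073Y.B.Defs2
import Vale.Agent.P073Y.Zn.Bas
import Vale.Agent.P073Y.Rd.Par

/-!
# Composition and gluing of the bounds for Lipschitz constants
-/

open Set Metric Topology Filter
open scoped NNReal ENNReal

namespace P073.B

open P073.Top P073.Zn

variable {Ω Λ : Set E3} {S : Src Ω} {g g₁ g₂ h : E3 → E3} {c : S.Q.ι} {C C₁ C₂ : ℝ≥0}
  {CM CM₁ CM₂ : ℝ≥0 → ℝ≥0} {X X₁ X₂ H H₁ H₂ : Set S.Q.ι} {η η₁ η₂ : ℝ≥0∞}

theorem lipc_mono {T T' : Type} [PseudoEMetricSpace T] [PseudoEMetricSpace T'] (g : T → T')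
    {X Y : Set T} (h : X ⊆ Y) : lipc g X ≤ lipc g Y :=
  iSup₂_le fun x hx => iSup₂_le fun y hy => le_iSup₂_of_le x (h hx) (le_iSup₂_of_le y (h hy) le_rfl)

/-- a pointwise comparison of distances -/
theorem lipc_le_mul {T T' T'' : Type} [PseudoEMetricSpace T] [PseudoEMetricSpace T']
    [PseudoEMetricSpace T''] {g : T → T'} {h : T → T''} {X : Set T} {L : ℝ≥0∞}
    (e : ∀ x ∈ X, ∀ y ∈ X, edist (h x) (h y) ≤ L * edist (g x) (g y)) :
    lipc h X ≤ L * lipc g X :=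
  iSup₂_le fun x hx => iSup₂_le fun y hy => (ENNReal.div_le_div_right (e x hx y hy) _).trans (by
    rw [mul_div_assoc]
    refine mul_le_mul_right (le_iSup₂_of_le x hx ?_) _
    exact le_iSup₂_of_le y hy le_rfl)

/-- the number of faces of a cell -/
noncomputable def nw (S : Src Ω) (c : S.Q.ι) : ℕ := (S.Q.finite_faces c).toFinset.card

theorem A_le {D t : ℝ≥0∞} (e : ∀ e, S.Q.dim e = 1 → S.Q.cell e ⊆ S.Q.cell c →
    lipc h (S.Q.cell e) ≤ D * lipc g (S.Q.cell e) + t) :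
    S.A h c ≤ D * S.A g c + nw S c * t := by
  classical
  have h2 : ∑' e, (if e ∈ (S.Q.finite_faces c).toFinset then t else 0) = nw S c * t := by
    rw [tsum_eq_sum (s := (S.Q.finite_faces c).toFinset) fun e he => if_neg he,
      Finset.sum_congr rfl fun e he => if_pos he, Finset.sum_const, nsmul_eq_mul, nw]
  rw [Src.A, Src.A, ← ENNReal.tsum_mul_left, ← h2, ← ENNReal.tsum_add]
  refine ENNReal.tsum_le_tsum fun e' => ?_
  by_cases he : S.Q.dim e' = 1 ∧ S.Q.cell e' ⊆ S.Q.cell c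
  · rw [if_pos he, if_pos he, if_pos ((Finite.mem_toFinset _).2 he.2)]
    exact e e' he.1 he.2
  · rw [if_neg he]
    exact zero_le

/-- a map which agrees with `g` off the preimage of `Z` hits `Z` on the same cells -/
theorem hit_eq (S : Src Ω) (g h : ConHomeo Ω Λ) {Z : Set E3}
    (e : ∀ x ∈ Ω, g.toFun x ∉ Z → h.toFun x = g.toFun x) : hit S h.toFun Z = hit S g.toFun Z := by
  ext c
  simp only [mem_hit]
  exact exists_congr fun x => and_congr_right fun hx => Rd.mem_iff g h e (cell_sub c hx)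

theorem eqOn_of_not_hit {Z : Set E3} (e : ∀ x ∈ Ω, g x ∉ Z → h x = g x) (hc : c ∉ hit S g Z) :
    EqOn h g (S.Q.cell c) := fun x hx => e x (cell_sub c hx) fun hy => hc (mem_hit.2 ⟨x, hx, hy⟩)

/-- `X` contains the cells which have a face in `X` -/
def Up (S : Src Ω) (X : Set S.Q.ι) : Prop := ∀ e ∈ X, ∀ c, S.Q.cell e ⊆ S.Q.cell c → c ∈ X

theorem up_empty : Up S ∅ := fun _ h => h.elim

theorem up_univ : Up S univ := fun _ _ _ _ => trivial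

theorem up_hit (g : E3 → E3) (Z : Set E3) : Up S (hit S g Z) := fun _ h _ s => hit_face s h

theorem Up.union (h1 : Up S X₁) (h2 : Up S X₂) : Up S (X₁ ∪ X₂) :=
  fun e h c s => h.imp (fun h => h1 e h c s) fun h => h2 e h c s

namespace Ct2

theorem mono (h1 : Ct2 C₁ CM₁ S g h X₁ H₁ η₁) (hC : C₁ ≤ C₂) (hM : ∀ M, CM₁ M ≤ CM₂ M)
    (hX : X₁ ⊆ X₂) (hH : H₂ ⊆ H₁) (hη : η₁ ≤ η₂) : Ct2 C₂ CM₂ S g h X₂ H₂ η₂ where
  wire e a b := (h1.wire e a fun x => b (hX x)).trans (by gcongr)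
  sum c a := (h1.sum c a).trans (by gcongr; exact hM _)
  keep c a := (h1.keep c (a.imp_right fun a => ⟨a.1, fun x => a.2 (hX x)⟩)).trans
    (by gcongr; exact hM _)
  gain c b a := (h1.gain c (hH b) (a.imp_right fun a => ⟨a.1, fun x => a.2 (hX x)⟩)).trans
    (by gcongr; exact hM _)

/-- control of a Lipschitz modification -/
theorem of_lip (e : ∀ c, ∀ x ∈ S.Q.cell c, ∀ y ∈ S.Q.cell c,
    edist (h x) (h y) ≤ C * edist (g x) (g y)) : Ct2 C (fun _ => C) S g h ∅ ∅ 0 where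
  wire c _ _ := le_add_right (lipc_le_mul (e c))
  sum c _ := by simpa using A_le (t := 0) fun w _ _ => le_add_right (lipc_le_mul (e w))
  keep c _ := le_add_right ((lipc_le_mul (e c)).trans (mul_le_mul_right le_self_add _))
  gain _ b := b.elim

theorem of_lipschitz {Φ : E3 → E3} (e : LipschitzWith C Φ) :
    Ct2 C (fun _ => C) S g (Φ ∘ g) ∅ ∅ 0 := of_lip fun _ _ _ _ _ => e _ _

theorem refl (S : Src Ω) (g : E3 → E3) : Ct2 1 (fun _ => 1) S g g ∅ ∅ 0 :=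
  of_lip fun _ _ _ _ _ => by simp

/-- gluing: on every cell the pair of maps agrees with a controlled pair -/
theorem of_local (e : ∀ c, ∃ g' h' X' H', Ct2 C CM S g' h' X' H' η ∧ EqOn g g' (S.Q.cell c) ∧
    EqOn h h' (S.Q.cell c) ∧ (c ∈ X' → c ∈ X) ∧ (c ∈ H → c ∈ H')) : Ct2 C CM S g h X H η := by
  refine ⟨fun c a b => ?_, fun c a => ?_, fun c a => ?_, fun c b a => ?_⟩ <;>
    obtain ⟨g', h', X', H', e1, e2, e3, e4, e5⟩ := e c
  · rw [lipc_congr e2, lipc_congr e3]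
    exact e1.wire c a (mt e4 b)
  · rw [A_congr e2, A_congr e3]
    exact e1.sum c a
  · rw [lipc_congr e2, lipc_congr e3, A_congr e2]
    exact e1.keep c (a.imp_right fun a => ⟨a.1, mt e4 a.2⟩)
  · rw [lipc_congr e3, A_congr e2]
    exact e1.gain c (e5 b) (a.imp_right fun a => ⟨a.1, mt e4 a.2⟩)

theorem congr (h1 : Ct2 C CM S g h X H η) {g' h' : E3 → E3} (e1 : EqOn g' g Ω)
    (e2 : EqOn h' h Ω) : Ct2 C CM S g' h' X H η := of_local fun c =>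
  ⟨g, h, X, H, h1, e1.mono (cell_sub c), e2.mono (cell_sub c), id, id⟩

/-- a Lipschitz modification after a controlled map -/
theorem post (h1 : Ct2 C₁ CM S g g₁ X H η₁) (hη : C₂ * η₁ ≤ η)
    (e : ∀ c, ∀ x ∈ S.Q.cell c, ∀ y ∈ S.Q.cell c,
      edist (g₂ x) (g₂ y) ≤ C₂ * edist (g₁ x) (g₁ y)) :
    Ct2 (C₂ * C₁) (fun M => C₂ * CM M) S g g₂ X H η := by
  have k0 : ∀ {D : ℝ≥0} {a b u : ℝ≥0∞}, u ≤ C₂ * a → a ≤ D * b + η₁ →
      u ≤ (C₂ * D : ℝ≥0) * b + η := fun l1 l => l1.trans ((mul_le_mul_right l _).trans (by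
    rw [mul_add, ← mul_assoc, ENNReal.coe_mul]
    exact add_le_add le_rfl hη))
  exact ⟨fun c a b => k0 (lipc_le_mul (e c)) (h1.wire c a b),
    fun c a => k0 (by simpa using (of_lip e).sum c a) (h1.sum c a),
    fun c a => k0 (lipc_le_mul (e c)) (h1.keep c a),
    fun c b a => k0 (lipc_le_mul (e c)) (h1.gain c b a)⟩

/-- the sum over the wires of a cell which is not exceptional -/
theorem A_le (h1 : Ct2 C CM S g h X H η) (hX : Up S X) (hc : c ∉ X) :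
    S.A h c ≤ C * S.A g c + nw S c * η :=
  B.A_le fun e he hs => h1.wire e he fun x => hc (hX e x c hs)

/-- composition, with the smallness of the errors as a hypothesis on each cell -/
theorem comp' (h1 : Ct2 C₁ CM₁ S g g₁ X₁ H₁ η₁) (h2 : Ct2 C₂ CM₂ S g₁ g₂ X₂ H₂ η₂) (hX : Up S X₁)
    (hη₁ : η₁ ≤ η) (hη : C₂ * η₁ + η₂ ≤ η) (hT : ∀ c, CM₂ (S.M c) * ((nw S c + 2) * η₁) + η₂ ≤ η ∨
      (EqOn g₂ g₁ (S.Q.cell c) ∧ (c ∈ H₂ → c ∈ H₁))) :
    Ct2 (C₂ * C₁) (fun M => (CM₂ M + 1) * (2 * CM₁ M + C₁)) S g g₂ (X₁ ∪ X₂) (H₁ ∪ H₂) η := by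
  have k1 : ∀ c {u a b : ℝ≥0∞}, CM₂ (S.M c) * ((nw S c + 2) * η₁) + η₂ ≤ η →
      u ≤ CM₂ (S.M c) * b + η₂ → b ≤ (2 * CM₁ (S.M c) + C₁) * a + (nw S c + 2) * η₁ →
      u ≤ ((CM₂ (S.M c) + 1) * (2 * CM₁ (S.M c) + C₁) : ℝ≥0) * a + η := fun c u a b t l1 l2 =>
    calc u ≤ CM₂ (S.M c) * ((2 * CM₁ (S.M c) + C₁) * a + (nw S c + 2) * η₁) + η₂ :=
        l1.trans (by gcongr)
      _ = CM₂ (S.M c) * (2 * CM₁ (S.M c) + C₁) * a +
        (CM₂ (S.M c) * ((nw S c + 2) * η₁) + η₂) := by ring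
      _ ≤ _ := by push_cast; gcongr; exact le_self_add
  have k2 : ∀ c {u a : ℝ≥0∞}, u ≤ CM₁ (S.M c) * a + η₁ →
      u ≤ ((CM₂ (S.M c) + 1) * (2 * CM₁ (S.M c) + C₁) : ℝ≥0) * a + η := fun c u a l => by
    refine l.trans ?_
    gcongr
    exact le_trans (by rw [two_mul, add_assoc]; exact le_self_add)
      (le_mul_of_one_le_left' le_add_self)
  have k3 : ∀ c {a u : ℝ≥0∞}, (S.Q.dim c = 3 ∨ (S.Q.dim c = 2 ∧ c ∉ X₁)) → S.A g c ≤ a →
      u ≤ CM₁ (S.M c) * a + η₁ →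
      u + S.A g₁ c ≤ (2 * CM₁ (S.M c) + C₁) * a + (nw S c + 2) * η₁ := fun c a u d ha l => by
    have : S.A g₁ c ≤ CM₁ (S.M c) * a + η₁ + (C₁ * a + nw S c * η₁) := by
      rcases d with d | d
      · exact le_add_right ((h1.sum c d).trans (by gcongr))
      · exact le_add_left ((h1.A_le hX d.2).trans (by gcongr))
    exact (add_le_add l this).trans_eq (by ring)
  have k0 : ∀ c {a : ℝ≥0∞}, (S.Q.dim c = 3 ∨ (S.Q.dim c = 2 ∧ c ∉ X₁ ∪ X₂)) → S.A g c ≤ a →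
      (c ∈ H₂ ∧ c ∉ H₁ ∨ lipc g₁ (S.Q.cell c) ≤ CM₁ (S.M c) * a + η₁) →
      lipc g₂ (S.Q.cell c) ≤ ((CM₂ (S.M c) + 1) * (2 * CM₁ (S.M c) + C₁) : ℝ≥0) * a + η := by
    intro c a d ha l
    have d1 := d.imp_right fun d => And.intro d.1 (mt Or.inl d.2)
    have d2 := d.imp_right fun d => And.intro d.1 (mt Or.inr d.2)
    rcases hT c with t | ⟨t1, t2⟩
    · rcases l with l | l
      · exact k1 c t (h2.gain c l.1 d2) (le_add_self.trans (k3 c d1 ha zero_le))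
      · exact k1 c t (h2.keep c d2) (k3 c d1 ha l)
    · rw [lipc_congr t1]
      exact k2 c (l.resolve_left fun l => l.2 (t2 l.1))
  refine ⟨fun e a b => ?_, fun c a => ?_, fun c a => k0 c a le_add_self (Or.inr (h1.keep c
    (a.imp_right fun a => ⟨a.1, mt Or.inl a.2⟩))), fun c b a => k0 c a le_rfl ?_⟩
  · calc _ ≤ C₂ * (C₁ * lipc g (S.Q.cell e) + η₁) + η₂ :=
        (h2.wire e a (mt Or.inr b)).trans (by gcongr; exact h1.wire e a (mt Or.inl b))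
      _ = C₂ * C₁ * lipc g (S.Q.cell e) + (C₂ * η₁ + η₂) := by ring
      _ ≤ _ := add_le_add (by rw [ENNReal.coe_mul]) hη
  · rcases hT c with t | ⟨t1, -⟩
    · exact k1 c t (h2.sum c a) (le_add_self.trans (k3 c (Or.inl a) le_rfl zero_le))
    · rw [A_congr t1]
      exact k2 c (h1.sum c a)
  · by_cases b1 : c ∈ H₁
    · exact Or.inr (h1.gain c b1 (a.imp_right fun a => ⟨a.1, mt Or.inl a.2⟩))
    · exact Or.inl ⟨b.resolve_left b1, b1⟩

/-- composition after an exact first step -/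
theorem comp0 (h1 : Ct2 C₁ CM₁ S g g₁ X₁ H₁ 0) (h2 : Ct2 C₂ CM₂ S g₁ g₂ X₂ H₂ η) (hX : Up S X₁) :
    Ct2 (C₂ * C₁) (fun M => (CM₂ M + 1) * (2 * CM₁ M + C₁)) S g g₂ (X₁ ∪ X₂) (H₁ ∪ H₂) η :=
  h1.comp' h2 hX zero_le (by simp) fun _ => Or.inl (by simp)

end Ct2

theorem ev_small {a η : ℝ≥0∞} (ha : a ≠ ⊤) (hη : 0 < η) : ∀ᶠ t in 𝓝[>] (0 : ℝ≥0∞), a * t ≤ η :=
  ((ENNReal.Tendsto.const_mul (tendsto_id (x := 𝓝 (0 : ℝ≥0∞))) (Or.inr ha)).eventually_le_const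
    (by simpa using hη)).filter_mono nhdsWithin_le_nhds

/-- **composition**: the second map is new on finitely many cells only; the error `η₁` is chosen
after the complex -/
theorem ct2_comp (S : Src Ω) {T : Set S.Q.ι} (hT : T.Finite) (C₂ : ℝ≥0) (CM₂ : ℝ≥0 → ℝ≥0)
    {η : ℝ≥0∞} (hη : 0 < η) : ∃ η₁, 0 < η₁ ∧ η₁ ≤ η ∧
    ∀ {C₁ : ℝ≥0} {CM₁ : ℝ≥0 → ℝ≥0} {g g₁ g₂ : E3 → E3} {X₁ X₂ H₁ H₂ : Set S.Q.ι},
      Ct2 C₁ CM₁ S g g₁ X₁ H₁ η₁ → Ct2 C₂ CM₂ S g₁ g₂ X₂ H₂ η₁ → Up S X₁ →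
      (∀ c ∉ T, EqOn g₂ g₁ (S.Q.cell c) ∧ (c ∈ H₂ → c ∈ H₁)) →
      Ct2 (C₂ * C₁) (fun M => (CM₂ M + 1) * (2 * CM₁ M + C₁)) S g g₂ (X₁ ∪ X₂) (H₁ ∪ H₂) η := by
  have e1 := ev_small (a := C₂ + 1) (by finiteness) hη
  have e2 := (eventually_all_finite hT).2 fun c _ =>
    ev_small (a := CM₂ (S.M c) * (nw S c + 2) + 1) (by finiteness) hη
  obtain ⟨t, ⟨t1, t2⟩, t0⟩ := ((e1.and e2).and self_mem_nhdsWithin).exists
  rw [add_one_mul] at t1
  refine ⟨t, t0, le_add_self.trans t1, fun h1 h2 hX hs =>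
    h1.comp' h2 hX (le_add_self.trans t1) t1 fun c => ?_⟩
  by_cases hc : c ∈ T
  · exact Or.inl (by simpa only [add_one_mul, mul_assoc] using t2 c hc)
  · exact Or.inr (hs c hc)

end P073.B
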