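import Vale.Agent.P073Y.B.Affa
import Vale.Agent.P073Y.B.Ct2

/-!
# Lattice cells: the norm of the linear map is controlled by the wires
-/

open Set Metric Topology Filter MeasureTheory
open scoped NNReal ENNReal

namespace P073.B

open P073.Top
open P073.An (M3)
open P073.M2 (hull)

variable {Ω : Set E3}

namespace Cb3

theorem hull_diam {u v w : E3} (hv : v ∈ hull u) (hw : w ∈ hull u) : ‖v - w‖ ≤ 1 :=
  (pi_norm_le_iff_of_nonneg zero_le_one).2 fun i => by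
    have h : ((⌈u i⌉ : ℤ) : ℝ) ≤ ⌊u i⌋ + 1 := by exact_mod_cast Int.ceil_le_floor_add_one (u i)
    have h1 : (⌊u i⌋ : ℝ) ≤ v i := hv.1 i
    have h2 : v i ≤ ⌈u i⌉ := hv.2 i
    have h3 : (⌊u i⌋ : ℝ) ≤ w i := hw.1 i
    have h4 : w i ≤ ⌈u i⌉ := hw.2 i
    rw [Pi.sub_apply, Real.norm_eq_abs, abs_le]
    constructor <;> linarith

/-- a three-cell is neither thin nor large -/
theorem fat (S : Src Ω) {c : S.Q.ι} (hc : S.Q.dim c = 3) :
    (∀ x ∈ S.Q.cell c, ∀ y ∈ S.Q.cell c, dist x y ≤ 2 * (S.M c * S.r c)) ∧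
    ∃ x₀ ∈ S.Q.cell c, ∀ v : E3, v ≠ 0 → ∃ s : ℝ, 0 ≤ s ∧ s • v + x₀ ∈ S.Q.cell c ∧
      S.r c ≤ S.M c * (s * ‖v‖) := by
  obtain ⟨-, φ, hφ, l₁, l₂⟩ := S.chart c (by omega)
  have hr : (0 : ℝ) < S.r c := S.r_pos c
  have hM : (1 : ℝ) ≤ S.M c := S.M_ge c
  have h0 : (0 : Fin (S.Q.dim c) → ℝ) ∈ closedBall 0 1 := mem_closedBall_self zero_le_one
  have hx₀ := φ.mapsTo_inv h0
  refine ⟨fun x hx y hy => ?_, _, hx₀, fun v hv => ?_⟩
  · have h1 := l₂.dist_le_mul _ (φ.mapsTo hx) _ (φ.mapsTo hy)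
    rw [φ.left_inv hx, φ.left_inv hy] at h1
    have h2 := dist_triangle_right (φ.toFun x) (φ.toFun y) 0
    have h3 := mem_closedBall.1 (φ.mapsTo hx)
    have h4 := mem_closedBall.1 (φ.mapsTo hy)
    refine h1.trans ?_
    push_cast
    nlinarith [mul_pos (one_pos.trans_le hM) hr]
  · have ht : vectorSpan ℝ (S.Q.cell c) = ⊤ := Submodule.eq_top_of_finrank_eq (by
      rw [← (S.cvx c).2.2, hc]; simp)
    obtain ⟨s, hs, hb⟩ := Af.ray (S.Q.isCompact_cell c) hx₀ (ht ▸ Submodule.mem_top) hv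
    rw [← (S.cvx c).2.1] at hb
    have hb' := S.Q.bd_subset c hb
    have h1 := l₁.dist_le_mul _ hb' _ hx₀
    have h2 : φ.toFun (s • v + φ.invFun 0) ∈ sphere 0 1 := hφ ▸ mem_image_of_mem _ hb
    rw [φ.right_inv h0, mem_sphere.1 h2, dist_eq_norm, add_sub_cancel_right, norm_smul,
      Real.norm_of_nonneg hs] at h1
    push_cast at h1
    rw [div_mul_eq_mul_div, le_div_iff₀ hr, one_mul] at h1
    exact ⟨s, hs, hb', h1⟩

theorem map_sub' (ξ : E3 ≃ᵃ[ℝ] E3) (x y : E3) : ξ x - ξ y = ξ.linear (x - y) :=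
  (ξ.toAffineMap.linearMap_vsub x y).symm

theorem lipc_le (S : Src Ω) {c : S.Q.ι} (hc : S.Q.dim c = 3) {ξ : E3 ≃ᵃ[ℝ] E3} {u : E3}
    (e : S.Q.cell c = ξ ⁻¹' hull u) : lipc ξ (S.Q.cell c) ≤ (S.M c / S.r c : ℝ≥0) := by
  obtain ⟨-, x₀, hx₀, h⟩ := fat S hc
  have hr : (0 : ℝ) < S.r c := S.r_pos c
  refine iSup₂_le fun x _ => iSup₂_le fun y _ => ENNReal.div_le_of_le_mul ?_
  rcases eq_or_ne x y with rfl | hne
  · simp
  obtain ⟨s, hs, h1, h2⟩ := h (x - y) (sub_ne_zero.2 hne)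
  have h3 := hull_diam (e ▸ h1 : ξ _ ∈ hull u) (e ▸ hx₀ : ξ _ ∈ hull u)
  rw [map_sub', add_sub_cancel_right, map_smul, norm_smul_of_nonneg hs, ← map_sub'] at h3
  rw [edist_dist, edist_dist, ← ENNReal.ofReal_coe_nnreal,
    ← ENNReal.ofReal_mul (NNReal.coe_nonneg _), dist_eq_norm, dist_eq_norm]
  refine ENNReal.ofReal_le_ofReal ?_
  push_cast
  rw [div_mul_eq_mul_div, le_div_iff₀ hr]
  have h4 : (0 : ℝ) ≤ S.M c * ‖x - y‖ := by positivity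
  nlinarith [mul_le_mul_of_nonneg_left h2 (norm_nonneg (ξ x - ξ y)),
    mul_le_mul_of_nonneg_left h3 h4]

theorem full (S : Src Ω) {c : S.Q.ι} (hc : S.Q.dim c = 3) {ξ : E3 ≃ᵃ[ℝ] E3} {u : E3}
    (e : S.Q.cell c = ξ ⁻¹' hull u) (i : Fin 3) : (⌊u i⌋ : ℝ) + 1 ≤ ⌈u i⌉ := by
  obtain ⟨-, x₀, hx₀, h⟩ := fat S hc
  have hr : (0 : ℝ) < S.r c := S.r_pos c
  obtain ⟨s, hs, h1, h2⟩ := h (ξ.linear.symm (Pi.single i 1)) (by simp)
  have s0 : 0 < s := hs.lt_of_ne' fun h => by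
    rw [h, zero_mul, mul_zero] at h2
    linarith
  have h3 := congrFun (map_sub' ξ (s • ξ.linear.symm (Pi.single i 1) + x₀) x₀) i
  rw [add_sub_cancel_right, map_smul, LinearEquiv.apply_symm_apply] at h3
  simp only [Pi.sub_apply, Pi.smul_apply, Pi.single_eq_same, smul_eq_mul, mul_one] at h3
  have h4 : _ ≤ (⌈u i⌉ : ℝ) := (e ▸ h1 : ξ _ ∈ hull u).2 i
  have h5 : (⌊u i⌋ : ℝ) ≤ _ := (e ▸ hx₀ : ξ _ ∈ hull u).1 i
  have h6 : ⌊u i⌋ < ⌈u i⌉ := by exact_mod_cast (show (⌊u i⌋ : ℝ) < ⌈u i⌉ by linarith)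
  exact_mod_cast h6

theorem norm_le (S : Src Ω) {c : S.Q.ι} (hc : S.Q.dim c = 3) {ξ : E3 ≃ᵃ[ℝ] E3} {u y₀ : E3}
    {A : M3} {g : E3 → E3} (e : S.Q.cell c = ξ ⁻¹' hull u)
    (hg : ∀ x ∈ S.Q.cell c, g x = y₀ + A (ξ x)) :
    ENNReal.ofReal ‖A‖ ≤ lipc g (S.Q.cell c) * (2 * (S.M c * S.r c) : ℝ≥0) := by
  have hr : S.r c ≠ 0 := (S.r_pos c).ne'
  have hM : S.M c ≠ 0 := (zero_lt_one.trans_le (S.M_ge c)).ne'
  rcases eq_or_ne (lipc g (S.Q.cell c)) ⊤ with ht | ht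
  · rw [ht, ENNReal.top_mul (by simp [hr, hM])]
    exact le_top
  have hl := fun x y => Af.edist_le g (X := S.Q.cell c) (u := x) (w := y)
  lift lipc g (S.Q.cell c) to ℝ≥0 using ht with L
  rw [← ENNReal.coe_mul, ENNReal.ofReal_le_coe]
  refine ContinuousLinearMap.opNorm_le_of_unit_norm (NNReal.coe_nonneg _) fun w hw => ?_
  have hw' : ∀ i, |w i| ≤ 1 := fun i => (norm_le_pi_norm w i).trans hw.le
  have m : ∀ w : E3, (∀ i, |w i| ≤ 1) →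
      ξ.symm (fun i => ⌊u i⌋ + max (w i) 0) ∈ S.Q.cell c := fun w hw => by
    rw [e, mem_preimage, ξ.apply_symm_apply]
    refine ⟨fun i => le_add_of_nonneg_right (le_max_right _ _), fun i => ?_⟩
    have := max_le (abs_le.1 (hw i)).2 zero_le_one
    exact le_trans (by linarith) (full S hc e i)
  have m1 := m w hw'
  have m2 := m (-w) fun i => by simpa using hw' i
  have h1 := hl _ _ m1 m2
  have h2 := (fat S hc).1 _ m1 _ m2
  have h3 : ((fun i => ⌊u i⌋ + max (w i) 0) - fun i => ⌊u i⌋ + max ((-w) i) 0 : E3) = w :=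
    funext fun i => by
      simp only [Pi.sub_apply, Pi.neg_apply, add_sub_add_left_eq_sub]
      exact max_zero_sub_max_neg_zero_eq_self _
  rw [hg _ m1, hg _ m2, ξ.apply_symm_apply, ξ.apply_symm_apply, edist_dist, dist_eq_norm,
    add_sub_add_left_eq_sub, ← map_sub, h3, edist_dist, ← ENNReal.ofReal_coe_nnreal,
    ← ENNReal.ofReal_mul L.coe_nonneg, ENNReal.ofReal_le_ofReal_iff (by positivity)] at h1
  push_cast
  exact h1.trans (mul_le_mul_of_nonneg_left h2 L.coe_nonneg)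

end Cb3

/-- the norm of the linear map on a lattice cell, measured in the source -/
theorem lat_norm : ∃ D : ℝ≥0 → ℝ≥0, ∀ {Ω : Set E3} (S : Src Ω) (c : S.Q.ι) (ξ : E3 ≃ᵃ[ℝ] E3)
    (u y₀ : E3) (A : M3) (g : E3 → E3), S.Q.dim c = 3 → S.Q.cell c = ξ ⁻¹' hull u →
    (∀ x ∈ S.Q.cell c, g x = y₀ + A (ξ x)) →
    ENNReal.ofReal ‖A‖ * lipc ξ (S.Q.cell c) ≤ D (S.M c) * S.A g c := by
  obtain ⟨D, hD⟩ := affa
  refine ⟨fun M => 2 * M ^ 2 * D M, fun S c ξ u y₀ A g hc e hg => ?_⟩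
  have h1 := hD S g c (by omega) ⟨AffineMap.const ℝ E3 y₀ +
    (A : E3 →ₗ[ℝ] E3).toAffineMap.comp ξ.toAffineMap, hg⟩
  refine (mul_le_mul' ((Cb3.norm_le S hc e hg).trans (mul_le_mul_left h1 _))
    (Cb3.lipc_le S hc e)).trans (le_of_eq ?_)
  have hr : S.r c ≠ 0 := (S.r_pos c).ne'
  have : 2 * S.M c ^ 2 * D (S.M c) = D (S.M c) * (2 * (S.M c * S.r c)) * (S.M c / S.r c) := by
    field_simp
  simp only [this, ENNReal.coe_mul]
  ring

/-- a lattice cell has at most `27` faces -/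
theorem nw_le (S : Src Ω) {c : S.Q.ι} {ξ : E3 ≃ᵃ[ℝ] E3} {u : E3} (e : S.Q.cell c = ξ ⁻¹' hull u)
    (hf : ∀ φ, ∀ x ∈ S.Q.ocell φ, x ∈ S.Q.cell c → S.Q.cell φ = ξ ⁻¹' hull (ξ x)) :
    nw S c ≤ 27 := by
  classical
  choose x hx using S.Q.ocell_nonempty
  refine (Finset.card_le_card_of_injOn (t := Fintype.piFinset fun i : Fin 3 =>
    Finset.Icc (2 * ⌊u i⌋) (2 * ⌊u i⌋ + 2)) (fun φ i => ⌊ξ (x φ) i⌋ + ⌈ξ (x φ) i⌉)
    (fun φ hφ => ?_) fun φ hφ φ' hφ' h => ?_).trans ?_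
  · have h1 : x φ ∈ ξ ⁻¹' hull u := e ▸ ((S.Q.finite_faces c).mem_toFinset.1 hφ) (hx φ).1
    refine Fintype.mem_piFinset.2 fun i => Finset.mem_Icc.2 ?_
    have h2 := Int.le_floor.2 (h1.1 i)
    have h3 := Int.ceil_le.2 (h1.2 i)
    have h4 := Int.floor_le_ceil (ξ (x φ) i)
    have h5 := Int.ceil_le_floor_add_one (u i)
    constructor <;> (dsimp only; omega)
  · have h1 := hf φ _ (hx φ) (((S.Q.finite_faces c).mem_toFinset.1 hφ) (hx φ).1)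
    have h2 := hf φ' _ (hx φ') (((S.Q.finite_faces c).mem_toFinset.1 hφ') (hx φ').1)
    have h3 : ∀ i, ⌊ξ (x φ) i⌋ = ⌊ξ (x φ') i⌋ ∧ ⌈ξ (x φ) i⌉ = ⌈ξ (x φ') i⌉ := fun i => by
      have a0 : _ + _ = _ + _ := congrFun h i
      have a1 := Int.floor_le_ceil (ξ (x φ) i)
      have a2 := Int.ceil_le_floor_add_one (ξ (x φ) i)
      have a3 := Int.floor_le_ceil (ξ (x φ') i)
      have a4 := Int.ceil_le_floor_add_one (ξ (x φ') i)
      constructor <;> omega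
    refine S.Q.cell_injective ?_
    rw [h1, h2, hull, hull]
    simp only [fun i => (h3 i).1, fun i => (h3 i).2]
  · have : ∀ a : ℤ, 2 * a + 2 + 1 - 2 * a = 3 := fun a => by ring
    simp [this]

theorem A_le_nw (S : Src Ω) (h : E3 → E3) (c : S.Q.ι) :
    S.A h c ≤ nw S c * lipc h (S.Q.cell c) := by
  simpa using A_le (S := S) (g := h) (h := h) (c := c) (D := 0) (t := lipc h (S.Q.cell c))
    fun e _ hs => by simpa using lipc_mono h hs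

/-- the cost of a map which is Lipschitz in the lattice coordinates -/
theorem lat_cost : ∃ D : ℝ≥0 → ℝ≥0, ∀ {Ω : Set E3} (S : Src Ω) (c : S.Q.ι) (ξ : E3 ≃ᵃ[ℝ] E3)
    (u y₀ : E3) (A : M3) (g h : E3 → E3) (C : ℝ≥0), S.Q.dim c = 3 →
    S.Q.cell c = ξ ⁻¹' hull u →
    (∀ φ, ∀ x ∈ S.Q.ocell φ, x ∈ S.Q.cell c → S.Q.cell φ = ξ ⁻¹' hull (ξ x)) →
    (∀ x ∈ S.Q.cell c, g x = y₀ + A (ξ x)) →
    (∀ x ∈ S.Q.cell c, ∀ y ∈ S.Q.cell c, dist (h x) (h y) ≤ C * ‖A‖ * dist (ξ x) (ξ y)) →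
    lipc h (S.Q.cell c) ≤ (C * D (S.M c) : ℝ≥0) * S.A g c ∧
      S.A h c ≤ (27 * (C * D (S.M c)) : ℝ≥0) * S.A g c := by
  obtain ⟨D, hD⟩ := lat_norm
  refine ⟨D, fun S c ξ u y₀ A g h C hc e hf hg hh => ?_⟩
  have h1 : lipc h (S.Q.cell c) ≤ (C * D (S.M c) : ℝ≥0) * S.A g c := by
    refine (lipc_le_mul (g := ξ) (L := C * ENNReal.ofReal ‖A‖) fun x hx y hy => ?_).trans ?_
    · rw [edist_dist, edist_dist, ← ENNReal.ofReal_coe_nnreal,
        ← ENNReal.ofReal_mul C.coe_nonneg, ← ENNReal.ofReal_mul (by positivity)]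
      exact ENNReal.ofReal_le_ofReal (hh x hx y hy)
    · rw [ENNReal.coe_mul, mul_assoc, mul_assoc]
      exact mul_le_mul_right (hD S c ξ u y₀ A g hc e hg) _
  refine ⟨h1, (A_le_nw S h c).trans ?_⟩
  rw [ENNReal.coe_mul, mul_assoc]
  exact mul_le_mul' (by exact_mod_cast nw_le S e hf) h1

end P073.B
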