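import Vale.Agent.P073Y.B.Defs

/-!
# The junction round: the statement about one face box
-/

open Set Metric Topology Filter MeasureTheory
open scoped NNReal ENNReal

namespace P073.B

open P073.Top P073.Zn

/-- the buffers -/
def buf (s o : ℝ) : Set ℝ := {t | ∃ j : ℤ, |t - j * s| ≤ 6 * o}

/-- the part of the box between the level `v` and the side `s` in the direction `i` -/
def upp (lo hi : E3) (i : Fin 3) (s : Bool) (v : ℝ) : Set E3 :=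
  {y ∈ Icc lo hi | y i ∈ uIcc v (sd lo hi s i)}

/-- the buffers are thin -/
def BUF : Prop := ∀ s o' o ϑ : ℝ, 0 < s → 0 < o' → ϑ ≤ 1 → 200 * o' ≤ ϑ * s →
  24 * o' ≤ o → Thin (buf s o') o ϑ

/-- above the level `v` the map `h` is near `Φ ∘ g` -/
def MPIN : Prop := ∀ {Ω Λ : Set E3} (S : Src Ω) (g h : ConHomeo Ω Λ) (lo hi : E3)
  (o o' s v ω η : ℝ) (J : Finset (Fin 3)) (i : Fin 3) (b : Bool) (C : ℝ≥0) (Φ : E3 → E3),
  IsOpen Ω → IsOpen Λ → J.card = 2 → i ∉ J → Icc lo hi ⊆ Λ → 0 < o' → 20 * o' ≤ o → 0 < s →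
  10 * s ≤ o → lo i < v → v < hi i → 0 ≤ ω → 0 ≤ η →
  Pins S g.toFun h.toFun lo hi o J (fun _ => buf s o') C (ENNReal.ofReal η) Φ →
  S.Osc g.toFun (cthickening (2 * o) (upp lo hi i b v)) o' →
  (∀ x ∈ Ω, g.toFun x ∈ Icc lo hi → g.toFun x i = v →
    (∀ k ∈ J, lo k + 4 * o ≤ g.toFun x k ∧ g.toFun x k ≤ hi k - 4 * o) →
    ∀ y ∈ Ω, dist (g.toFun y) (g.toFun x) ≤ s → dist (h.toFun y) (h.toFun x) ≤ ω) →
  ∀ x ∈ Ω, g.toFun x ∈ upp lo hi i b v →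
    dist (h.toFun x) (Φ (g.toFun x)) ≤ ω + η + C * (o' + 2 * s)

end P073.B
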