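import Vale.Agent.P073Y.B.Defs
import Vale.Agent.P073Z.PUSH.A

/-!
# A linear map near the origin, the identity far away
-/

open Set Metric Topology Filter MeasureTheory
open scoped NNReal ENNReal

namespace P073.B

open P073.An (M3)
open P073.Gc (Bil)

namespace Li

open A2

/-- a vector of signs -/
def Sg (ε : E3) : Prop := ∀ i, ε i = 1 ∨ ε i = -1

theorem Sg.mul_mul {ε : E3} (h : Sg ε) (y : E3) : ε * (ε * y) = y := funext fun i => by
  rcases h i with e | e <;> simp [e]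

theorem Sg.norm_le {ε : E3} (h : Sg ε) (y : E3) : ‖ε * y‖ ≤ ‖y‖ :=
  (pi_norm_le_iff_of_nonneg (norm_nonneg y)).2 fun i => by
    rcases h i with e | e <;> simpa [e] using norm_le_pi_norm y i

theorem Sg.norm_eq {ε : E3} (h : Sg ε) (y : E3) : ‖ε * y‖ = ‖y‖ :=
  (h.norm_le y).antisymm (by simpa only [h.mul_mul] using h.norm_le (ε * y))

theorem Sg.mul {ε ε' : E3} (h : Sg ε) (h' : Sg ε') : Sg (ε * ε') := fun i => by
  rcases h i with e | e <;> rcases h' i with e' | e' <;> simp [e, e']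

theorem Sg.lip {ε : E3} (h : Sg ε) : LipschitzWith 1 fun y : E3 => ε * y :=
  .of_dist_le_mul fun x y => by
    rw [dist_eq_norm, dist_eq_norm, ← mul_sub, h.norm_eq, NNReal.coe_one, one_mul]

/-- the reflection -/
noncomputable def Sg.hom {ε : E3} (h : Sg ε) : Hom where
  toFun := fun y => ε * y
  invFun := fun y => ε * y
  mapsTo := mapsTo_univ _ _
  mapsTo_inv := mapsTo_univ _ _
  left_inv := fun y _ => h.mul_mul y
  right_inv := fun y _ => h.mul_mul y
  cont := h.lip.continuous.continuousOn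
  cont_inv := h.lip.continuous.continuousOn
  conical := conicalOn_linear (LinearMap.mulLeft ℝ ε) conicalSet_univ

/-- `B` near the origin, a reflection far away -/
def G (r : ℝ) (C : ℝ≥0) (B : E3 → E3) : Prop := ∃ (Φ : Hom) (ε : E3), Sg ε ∧
  LipschitzWith C Φ.toFun ∧ Φ.toFun 0 = 0 ∧ (∀ y, 1 ≤ ‖y‖ → Φ.toFun y = ε * y) ∧
  ∀ y, ‖y‖ ≤ r → Φ.toFun y = B y

theorem G.mono {r r' : ℝ} {C C' : ℝ≥0} {B : E3 → E3} (h : G r C B) (hr : r' ≤ r) (hC : C ≤ C') :
    G r' C' B :=
  let ⟨Φ, ε, h1, h2, h3, h4, h5⟩ := h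
  ⟨Φ, ε, h1, h2.weaken hC, h3, h4, fun y hy => h5 y (hy.trans hr)⟩

theorem G.comp {r r' : ℝ} {C C' : ℝ≥0} {B B' : E3 → E3} (h : G r C B) (h' : G r' C' B') :
    G (min r' (r / (C' + 1))) (C * C') fun y => B (B' y) := by
  obtain ⟨Φ, ε, h1, h2, h3, h4, h5⟩ := h
  obtain ⟨Φ', ε', k1, k2, k3, k4, k5⟩ := h'
  refine ⟨Φ'.trans Φ, ε * ε', h1.mul k1, h2.comp k2, ?_, fun y hy => ?_, fun y hy => ?_⟩
  · change Φ.toFun (Φ'.toFun 0) = 0
    rw [k3, h3]
  · change Φ.toFun (Φ'.toFun y) = _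
    rw [k4 y hy, h4 _ (by rwa [k1.norm_eq]), mul_assoc]
  · change Φ.toFun (Φ'.toFun y) = _
    have a1 := k2.dist_le_mul y 0
    rw [k3, dist_zero_right, dist_zero_right] at a1
    have a2 := (le_div_iff₀ (by positivity)).1 (hy.trans (min_le_right _ _))
    rw [h5 _ (by nlinarith [norm_nonneg y]), k5 y (hy.trans (min_le_left _ _))]

/-- the truncation -/
noncomputable def tau (y : E3) : E3 :=
  fun i => max (-max 0 (1 - ‖y‖)) (min (y i) (max 0 (1 - ‖y‖)))

theorem tau_pl : PLOn tau univ := by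
  have h : PLOn (fun y : E3 => max 0 (1 - ‖y‖)) univ :=
    pl_max (pl_const 0 conicalSet_univ) (pl_sub (pl_const 1 conicalSet_univ) (pl_norm_pi 3))
  exact pl_pi conicalSet_univ fun i => pl_max (pl_neg h) (pl_min (pl_proj i conicalSet_univ) h)

theorem tau_lip (x y : E3) : ‖tau x - tau y‖ ≤ ‖x - y‖ := by
  have h : |max 0 (1 - ‖x‖) - max 0 (1 - ‖y‖)| ≤ ‖x - y‖ :=
    (abs_max_sub_max_le_max _ _ _ _).trans (max_le (by simp) (by
      rw [sub_sub_sub_cancel_left, abs_sub_comm]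
      exact abs_norm_sub_norm_le x y))
  refine (pi_norm_le_iff_of_nonneg (norm_nonneg _)).2 fun i => ?_
  refine (abs_max_sub_max_le_max _ _ _ _).trans (max_le ?_
    ((abs_min_sub_min_le_max _ _ _ _).trans (max_le (norm_le_pi_norm (x - y) i) h)))
  rwa [neg_sub_neg, abs_sub_comm]

theorem tau_in {y : E3} (h : ‖y‖ ≤ 1 / 2) : tau y = y := funext fun i => by
  have h1 := abs_le.1 (show |y i| ≤ ‖y‖ from norm_le_pi_norm y i)
  rw [tau, max_eq_right (show (0 : ℝ) ≤ 1 - ‖y‖ by linarith), min_eq_left (by linarith [h1.2]),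
    max_eq_right (by linarith [h1.1])]

theorem tau_out {y : E3} (h : 1 ≤ ‖y‖) : tau y = 0 := funext fun i => by
  rw [tau, max_eq_left (show 1 - ‖y‖ ≤ 0 by linarith), neg_zero, max_eq_left (min_le_right _ _)]
  rfl

theorem near (N : E3 →ₗ[ℝ] E3) (hN : ∀ y, ‖N y‖ ≤ 1 / 2 * ‖y‖) :
    G (1 / 2) (1 + 1 / 2) fun y => y + N y := by
  have hl : LipschitzWith (1 / 2) fun y => N (tau y) := .of_dist_le_mul fun x y => by
    rw [dist_eq_norm, dist_eq_norm, ← map_sub]
    exact (hN _).trans (by simpa using tau_lip x y)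
  obtain ⟨Φ, hΦ⟩ := nearid (tau_pl.2.linear_comp N) hl
  refine ⟨Φ, 1, fun _ => Or.inl rfl, ?_, ?_, fun y hy => ?_, fun y hy => ?_⟩
  · rw [funext hΦ]
    exact LipschitzWith.id.add hl
  · rw [hΦ, tau_in (by simp), map_zero, add_zero]
  · rw [hΦ, tau_out hy, map_zero, add_zero, one_mul]
  · rw [hΦ, tau_in hy]

/-- the maps which can be reached -/
def R (B : E3 → E3) : Prop := ∃ (r : ℝ) (C : ℝ≥0), 0 < r ∧ G r C B

theorem R.comp {B B' : E3 → E3} (h : R B) (h' : R B') : R fun y => B (B' y) :=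
  let ⟨_, _, h1, h2⟩ := h
  let ⟨_, _, k1, k2⟩ := h'
  ⟨_, _, lt_min k1 (by positivity), h2.comp k2⟩

theorem one_par {V : Type} [NormedAddCommGroup V] [NormedSpace ℝ V] (γ : V → E3 → E3)
    (h1 : ∀ s t y, γ (s + t) y = γ s (γ t y)) (h2 : ∀ s, ‖s‖ ≤ 1 / 4 → R (γ s)) (s : V) :
    R (γ s) := by
  have key : ∀ (t : V), R (γ t) → ∀ n : ℕ, R (γ (((n : ℝ) + 1) • t)) := fun t ht n => by
    induction n with
    | zero => simpa using ht
    | succ n ih =>
      rw [add_smul, one_smul, funext (h1 _ _), Nat.cast_succ]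
      exact ih.comp ht
  obtain ⟨n, hn⟩ := exists_nat_ge (4 * ‖s‖)
  have h0 : (0 : ℝ) < n + 1 := by positivity
  have := key (((n : ℝ) + 1)⁻¹ • s) (h2 _ (by
    rw [norm_smul, norm_inv, Real.norm_of_nonneg h0.le, inv_mul_le_iff₀ h0]
    linarith)) n
  rwa [smul_inv_smul₀ h0.ne'] at this

theorem diag {d : E3} (hd : ∀ i, d i ≠ 0) : R fun y => d * y := by
  have h1 := one_par (fun (s : E3) y => (fun i => Real.exp (s i)) * y)
    (fun s t y => funext fun i => by simp [Real.exp_add, mul_assoc])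
    (fun s hs => by
      refine ⟨_, _, by norm_num, (congrArg (G _ _) (funext fun y => ?_)).mp
        (near (LinearMap.mulLeft ℝ ((fun i => Real.exp (s i)) - 1)) fun y => ?_)⟩
      · rw [LinearMap.mulLeft_apply, sub_mul, one_mul, add_sub_cancel]
      · refine (norm_mul_le _ _).trans (mul_le_mul_of_nonneg_right
          ((pi_norm_le_iff_of_nonneg (by norm_num)).2 fun i => ?_) (norm_nonneg _))
        have a : |s i| ≤ 1 / 4 := (norm_le_pi_norm s i).trans hs
        exact (Real.abs_exp_sub_one_le (by linarith)).trans (by linarith))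
    fun i => Real.log (d i)
  have h2 : Sg fun i => d i / |d i| := fun i => by
    rcases (hd i).lt_or_gt with h | h
    · exact Or.inr (by simp only [abs_of_neg h, div_neg, div_self (hd i)])
    · exact Or.inl (by simp only [abs_of_pos h, div_self (hd i)])
  have h3 : R fun y => (fun i => d i / |d i|) * y :=
    ⟨1, 1, one_pos, h2.hom, _, h2, h2.lip, mul_zero _, fun _ _ => rfl, fun _ _ => rfl⟩
  refine (congrArg R (funext fun y => funext fun i => ?_)).mp (h3.comp h1)
  simp only [Pi.mul_apply]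
  rw [Real.exp_log_eq_abs (hd i), ← mul_assoc, div_mul_cancel₀ _ (abs_ne_zero.2 (hd i))]

open Matrix in
theorem of_det {M : Matrix (Fin 3) (Fin 3) ℝ} (h : M.det ≠ 0) : R fun y => M *ᵥ y := by
  refine diagonal_transvection_induction_of_det_ne_zero (fun M => R fun y => M *ᵥ y) M h
    (fun D hD => ?_) (fun t => ?_) fun A B _ _ hA hB => ?_
  · rw [det_diagonal, Finset.prod_ne_zero_iff] at hD
    exact (congrArg R (funext fun y => funext fun i => (mulVec_diagonal D y i).symm)).mp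
      (diag fun i => hD i (Finset.mem_univ i))
  · refine one_par (fun (c : ℝ) y => transvection t.i t.j c *ᵥ y) (fun a b y => ?_)
      (fun c hc => ?_) t.c
    · rw [mulVec_mulVec, transvection_mul_transvection_same _ _ t.hij]
    · refine ⟨_, _, by norm_num, (congrArg (G _ _) (funext fun y => ?_)).mp
        (near (Matrix.toLin' (single t.i t.j c)) fun y => ?_)⟩
      · rw [transvection, add_mulVec, one_mulVec, toLin'_apply]
      · rw [toLin'_apply, single_mulVec]
        change ‖(Pi.single t.i (c * y t.j) : E3)‖ ≤ _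
        rw [Pi.norm_single, norm_mul]
        exact mul_le_mul (by linarith) (norm_le_pi_norm y _) (norm_nonneg _) (by norm_num)
  · simpa only [mulVec_mulVec] using hA.comp hB

theorem exists_inv {b : ℝ} {A : M3} (h : Bil b A) :
    ∃ A' : M3, Bil b A' ∧ (∀ u, A' (A u) = u) ∧ ∀ u, A (A' u) = u := by
  have hi : Function.Injective (A : E3 →ₗ[ℝ] E3) := (injective_iff_map_eq_zero _).2 fun u hu => by
    have := h.2 u
    rw [show A u = 0 from hu, norm_zero, mul_zero] at this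
    exact norm_le_zero_iff.1 this
  let e := LinearEquiv.ofInjectiveEndo (A : E3 →ₗ[ℝ] E3) hi
  have e1 : ∀ u, A (e.symm u) = u := e.apply_symm_apply
  have hb : 0 ≤ b := (norm_nonneg A).trans h.1
  refine ⟨e.symm.toLinearMap.toContinuousLinearMap, ⟨ContinuousLinearMap.opNorm_le_bound _ hb
    fun u => ?_, fun u => ?_⟩, e.symm_apply_apply, e1⟩
  · have := h.2 (e.symm u)
    rwa [e1] at this
  · have := A.le_of_opNorm_le h.1 (e.symm u)
    rwa [e1] at this

theorem of_bil {b : ℝ} {A : M3} (h : Bil b A) : R A := by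
  obtain ⟨A', -, h1, -⟩ := exists_inv h
  have h2 : LinearMap.toMatrix' (A' : E3 →ₗ[ℝ] E3) * LinearMap.toMatrix' (A : E3 →ₗ[ℝ] E3) = 1 := by
    rw [← LinearMap.toMatrix'_comp, ← LinearMap.toMatrix'_id]
    exact congrArg _ (LinearMap.ext h1)
  exact (congrArg R (funext fun y => LinearMap.toMatrix'_mulVec _ y)).mp
    (of_det (Matrix.det_ne_zero_of_left_inverse h2))

theorem unif {b : ℝ} (hb : 1 ≤ b) : ∃ (r : ℝ) (C : ℝ≥0), 0 < r ∧ ∀ A : M3, Bil b A → G r C A := by
  have hK : IsCompact {A : M3 | Bil b A} := by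
    refine (isCompact_closedBall (0 : M3) b).of_isClosed_subset ?_
      fun A hA => mem_closedBall_zero_iff.2 hA.1
    refine (isClosed_le continuous_norm continuous_const).inter ?_
    change IsClosed {A : M3 | ∀ u, ‖u‖ ≤ b * ‖A u‖}
    rw [ofPred_forall]
    exact isClosed_iInter fun u => isClosed_le continuous_const (by fun_prop)
  refine hK.induction_on (p := fun S => ∃ (r : ℝ) (C : ℝ≥0), 0 < r ∧ ∀ A ∈ S, G r C A)
    ⟨1, 1, one_pos, fun _ h => h.elim⟩
    (fun S T hST ⟨r, C, h1, h2⟩ => ⟨r, C, h1, fun A hA => h2 A (hST hA)⟩)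
    (fun S T ⟨r, C, h1, h2⟩ ⟨r', C', k1, k2⟩ => ⟨min r r', max C C', lt_min h1 k1, fun A hA =>
      hA.elim (fun hA => (h2 A hA).mono (min_le_left _ _) (le_max_left _ _))
        fun hA => (k2 A hA).mono (min_le_right _ _) (le_max_right _ _)⟩) fun A₀ h₀ => ?_
  obtain ⟨r, C, h1, h2⟩ := of_bil h₀
  obtain ⟨A', k1, k2, -⟩ := exists_inv h₀
  refine ⟨closedBall A₀ (1 / (2 * b)), mem_nhdsWithin_of_mem_nhds
    (closedBall_mem_nhds _ (by positivity)), min r (1 / 2 / (C + 1)), (1 + 1 / 2) * C,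
    lt_min h1 (by positivity), fun A hA => ?_⟩
  refine (congrArg (G _ _) (funext fun y => ?_)).mp
    ((near ((A - A₀).comp A' : M3) fun y => ?_).comp h2)
  · simp [k2]
  · have a1 : ‖A - A₀‖ ≤ 1 / (2 * b) := mem_closedBall_iff_norm.1 hA
    refine ((A - A₀).le_of_opNorm_le_of_le a1 (A'.le_of_opNorm_le k1.1 y)).trans (le_of_eq ?_)
    field_simp

end Li

open Li

theorem lin : LIN := by
  intro b hb
  obtain ⟨r, C, h1, h2⟩ := unif hb
  refine ⟨min 1 (r / b), 1 * C, lt_min one_pos (by positivity), min_le_left _ _, fun A hA => ?_⟩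
  obtain ⟨A', k1, k2, -⟩ := exists_inv hA
  obtain ⟨Φ, ε, a1, a2, -, a4, a5⟩ := h2 A' k1
  refine ⟨Φ.trans a1.hom, ε, a1, a1.lip.comp a2, fun y hy => ?_, fun u hu => ?_⟩
  · change ε * Φ.toFun y = y
    rw [a4 y hy, a1.mul_mul]
  · change ε * Φ.toFun (A u) = ε * u
    have a6 := (le_div_iff₀ (by positivity)).1 (hu.trans (min_le_right _ _))
    rw [a5 _ ((A.le_of_opNorm_le hA.1 u).trans (by linarith)), k2]

end P073.B
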