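import Vale.Agent.P073Y.B.Zt
import Vale.Agent.P073Y.B.Ct2

/-!
# The mosaic followed by a round
-/

open Set Metric Topology Filter MeasureTheory
open scoped NNReal ENNReal

namespace P073.B

open P073.Top P073.Zn Zt

variable {Ω Λ : Set E3}

theorem Thin.mono {Z : Set ℝ} {o o' ϑ : ℝ} (h : Thin Z o ϑ) (ho : o ≤ o') : Thin Z o' ϑ :=
  ⟨h.1, fun y l hl => (h.2 y l hl).trans (ENNReal.ofReal_le_ofReal (by linarith))⟩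

/-- the sharp clauses depend on the lateral coordinates of `g` and on the values of `h` on the
cells -/
theorem Sharp.congr {p c θ ϑ : ℝ} {S : Src Ω} {g g' h h' : E3 → E3} {Z Z' : Set E3}
    {η η' : ℝ≥0∞} {𝓢 𝓢' : Set S.Q.ι} {ψ : S.Q.ι → (E2 →ᵃ[ℝ] E3)} {a : S.Q.ι → ℝ}
    (H : Sharp p c θ ϑ S g h Z η 𝓢 ψ a) (hη : η ≤ η')
    (e : ∀ x ∈ Ω, g' x ∈ Z' → g x ∈ Z ∧ h' x = h x ∧ ∀ i, i ≠ 2 → g x i = g' x i)
    (hS : ∀ φ ∈ 𝓢', g' '' S.Q.cell φ ⊆ Z' → φ ∈ 𝓢 ∧ S.Q.cell φ = ψ φ '' closedBall 0 1) :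
    Sharp p c θ ϑ S g' h' Z' η' 𝓢' ψ a := by
  have e' := fun φ (hφ : g' '' S.Q.cell φ ⊆ Z') x (hx : x ∈ S.Q.cell φ) =>
    e x (cell_sub φ hx) (hφ (mem_image_of_mem _ hx))
  refine ⟨fun w x y h1 h2 h3 => ?_, fun φ hφ h1 h2 => ?_⟩
  · obtain ⟨k1, k2⟩ := H.1 w x y h1 h2 (image_subset_iff.2 fun u hu => (e' w h3 u hu).1)
    have e1 := e' w h3
    rw [h2] at e1
    rw [SharpE, Ln.lat_congr fun u hu => (e1 u hu).2.2] at k1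
    rw [Rise, Ln.lat_congr fun u hu => (e1 u hu).2.2] at k2
    refine ⟨fun u hu v hv => ?_, ?_⟩
    · rw [(e1 u hu).2.1, (e1 v hv).2.1]
      exact (k1 u hu v hv).trans (by gcongr)
    · rw [Rise, (e1 _ (left_mem_segment ℝ x y)).2.1, (e1 _ (right_mem_segment ℝ x y)).2.1]
      exact k2.trans (by gcongr)
  · obtain ⟨s1, s2⟩ := hS φ hφ h1
    have e1 : ∀ v ∈ closedBall (0 : E2) 1, h' (ψ φ v) = h (ψ φ v) := fun v hv =>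
      (e' φ h1 _ (s2 ▸ mem_image_of_mem _ hv)).2.1
    have k1 := H.2 φ s1 (image_subset_iff.2 fun u hu => (e' φ h1 u hu).1) fun i s hs => by
      have hs' : |s| ≤ 1 := by rcases hs with rfl | rfl <;> simp
      rw [← e1 _ (cor_mem i (by simp) hs'), ← e1 _ (cor_mem i (by simp) hs')]
      exact h2 i s hs
    rw [EN.en_congr (h' := fun v : E2 => h (ψ φ v) - a φ • (![v 0, v 1, 0] : E3))
      measurableSet_closedBall fun v hv => by simp only [e1 v hv]]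
    exact k1.trans (by gcongr)

/-- the result of the mosaic and the round -/
structure Mro (p c θ ϑ v δ o : ℝ) (C K : ℝ≥0) (CM : ℝ≥0 → ℝ≥0) (S : Src Ω) (N : ℕ) (B : Set Z3)
    (g h : E3 → E3) (G G' : Set E3) (μ : Z3 → ℝ) (η : ℝ≥0∞) (𝓢 : Set S.Q.ι)
    (ψ : S.Q.ι → (E2 →ᵃ[ℝ] E3)) (a : S.Q.ι → ℝ) : Prop where
  off : ∀ x ∈ Ω, g x ∉ interior (ubox N 0 (nbr 1 B)) → h x = g x
  near : ∀ x ∈ Ω, ∀ z, g x ∈ lbox N 0 z → ∃ y ∈ lbox N 0 z, dist (h x) y ≤ K * o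
  osc : ∀ φ ∈ hit S g (ubox N 0 (nbr 1 B)), OscC S h φ ((C + 2 * K) * o)
  ctl : Ct2 C CM S g h (hit S g (⋃ z ∈ nbr 1 B, thickening (μ z) (G ∩ lbox N (1 / 800) z)))
    (hit S g (ubox N 0 B)) η
  flat : ∀ z, (z ∈ B ∨ z - Pi.single 2 1 ∈ B) → ∀ x ∈ Ω, g x ∈ shr N (1 / 3200) z →
    |h x 2 - z 2| ≤ K * o ∧ ∀ i, i ≠ 2 → |h x i - g x i| ≤ K * o
  sharp : ∀ z, (z ∈ B ∨ z - Pi.single 2 1 ∈ B) → Sharp p c θ ϑ S g h (shr N (1 / 3200) z) η 𝓢 ψ a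
  opn : IsOpen G'
  vol : ∀ z ∈ nbr 1 B, volume (lbox N (1 / 100) z \ G') ≤ ENNReal.ofReal v
  cer : ∀ z ∈ nbr 1 B, Cer S h (G' ∩ lbox N (12 / 100) z) (δ * μ z)

/-- mosaic and round -/
def MR (p : ℝ) : Prop := ∃ c v₀ : ℝ, 1 ≤ c ∧ 0 < v₀ ∧ ∀ θ : ℝ, 0 < θ → θ ≤ 1 / 1000 →
  ∃ (C : ℝ≥0) (CM : ℝ≥0 → ℝ≥0), 1 ≤ C ∧ ∀ ϑ : ℝ, 0 < ϑ → ϑ ≤ θ → ∃ K : ℝ≥0, 2 ≤ K ∧
  ∀ (N : ℕ) (v : ℝ), 1 ≤ N → 0 < v → ∃ δ : ℝ, 0 < δ ∧ ∀ r' : ℝ, 0 < r' → ∃ r : ℝ, 0 < r ∧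
  ∀ {Ω Λ : Set E3} (S : Src Ω) (g : ConHomeo Ω Λ) (B : Set Z3) (G : Set E3) (μ : Z3 → ℝ) (o : ℝ)
    (η : ℝ≥0∞) (𝓢 : Set S.Q.ι) (ψ : S.Q.ι → (E2 →ᵃ[ℝ] E3)) (a : S.Q.ι → ℝ),
  Fc S → IsOpen Ω → IsOpen Λ → B.Finite → IsOpen G → 0 < η → 0 < o → K * o ≤ 1 →
  ubox N 0 (nbr 1 B) ⊆ Λ → S.Osc g.toFun (ubox N 0 (nbr 1 B)) o →
  (∀ z ∈ nbr 1 B, 0 < μ z ∧ μ z ≤ 1 ∧ volume (lbox N (1 / 800) z \ G) ≤ ENNReal.ofReal v₀ ∧
    Cer S g.toFun (G ∩ lbox N (1 / 800) z) (μ z) ∧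
    S.Osc g.toFun (lbox N (1 / 1000) z) (r * μ z) ∧ 2 * (r' * μ z) ≤ o) →
  (∀ φ ∈ 𝓢, Marked S g.toFun θ φ (ψ φ) (a φ)) →
  ∃ (h : ConHomeo Ω Λ) (G' : Set E3),
    Mro p c θ ϑ v δ o C K CM S N B g.toFun h.toFun G G' μ η 𝓢 ψ a

theorem mr_of {p : ℝ} (hM : MOS2) (hR : ROUND4 p) : MR p := by
  obtain ⟨v₀, C₂, CM₂, v0, C2, hM⟩ := hM
  obtain ⟨c, c1, hR⟩ := hR
  refine ⟨c, v₀, c1, v0, fun θ θ0 θ1 => ?_⟩
  obtain ⟨C₃, CM₃, C3, hR⟩ := hR θ θ0 θ1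
  refine ⟨C₃ * C₂, fun M => (CM₃ M + 1) * (2 * CM₂ M + C₂), one_le_mul C3 C2, fun ϑ ϑ0 ϑ1 => ?_⟩
  obtain ⟨K, K1, hR⟩ := hR ϑ ϑ0 ϑ1
  refine ⟨2 * K, le_mul_of_one_le_right' K1, fun N v hN hv => ?_⟩
  obtain ⟨δ, δ0, hM⟩ := hM N v hN hv
  refine ⟨min δ (1 / 200), lt_min δ0 (by norm_num), fun r' r0 => ?_⟩
  obtain ⟨r, r1, hM⟩ := hM r' (ϑ / 2) r0 (half_pos ϑ0)
  refine ⟨r, r1, ?_⟩
  intro Ω Λ S g B G μ o η 𝓢 ψ a hF hΩ hΛ hB hG hη o0 hK hsub hO hz hm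
  have hBp := nbr_finite hB 1
  have K1' : (1 : ℝ) ≤ K := K1
  have Ko : (K : ℝ) * o ≤ ((2 * K : ℝ≥0) : ℝ) * o := by
    push_cast
    nlinarith
  have o1 : o ≤ 1 / 2 := by
    push_cast at hK
    nlinarith
  obtain ⟨η₁, η0, η1, hC⟩ := ct2_comp S (hit_finite S g (isCompact_ubox hBp) hsub) C₃ CM₃ hη
  obtain ⟨h₂, Bf, G', m1, m2, m3, m4, m5, m6⟩ := hM S g (nbr 1 B) G μ η₁ hF hΩ hΛ hBp hG η0 hsub
    fun z h => ⟨(hz z h).1, (hz z h).2.1, (hz z h).2.2.1, (hz z h).2.2.2.1, (hz z h).2.2.2.2.1⟩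
  have m7 : ∀ x ∈ Ω, g.toFun x ∉ ubox N 0 (nbr 1 B) → h₂.toFun x = g.toFun x := fun x hx h =>
    m1 x hx fun k => h (ubox_mono (by norm_num) Subset.rfl k)
  have m8 := hit_eq S g h₂ m7
  have keep : ∀ x ∈ Ω, ∀ z, g.toFun x ∈ lbox N 0 z → h₂.toFun x ∈ lbox N 0 z := fun x hx z h => by
    by_cases k : g.toFun x ∈ ubox N (1 / 800) (nbr 1 B)
    · obtain ⟨z', k1, k2⟩ := mem_ubox.1 k
      obtain rfl := eq_of_int hN (add_zero (0 : ℝ)).ge (lbox_sub_int (by norm_num) k2) h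
      exact lbox_mono N (by norm_num) z' (m2 x hx z' k1 k2)
    · rwa [m1 x hx k]
  have osc : S.Osc h₂.toFun (ubox N 0 (nbr 1 B)) o := fun φ hφ => by
    by_cases k : φ ∈ hit S g.toFun (ubox N (1 / 1000) (nbr 1 B))
    · obtain ⟨x, hx, k⟩ := mem_hit.1 k
      obtain ⟨z, k1, k2⟩ := mem_ubox.1 k
      have := mul_pos r0 (hz z k1).1
      exact fun u hu w hw => ((m6 z k1).2.1 φ (mem_hit.2 ⟨x, hx, k2⟩) u hu w hw).trans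
        (by linarith [(hz z k1).2.2.2.2.2])
    · have e := eqOn_of_not_hit m1 fun k' => k (hit_mono (ubox_mono (by norm_num) Subset.rfl) k')
      intro u hu w hw
      rw [e hu, e hw]
      exact hO φ (m8.subset hφ) u hu w hw
  obtain ⟨h, Ψ, r0', r1', r2, r3, r4⟩ := hR S h₂ N B o Bf η₁
    {φ | Marked S h₂.toFun θ φ (ψ φ) (a φ)} ψ a hF hΩ hΛ hN hB η0 o0 (Ko.trans hK) hsub osc
    (fun z h k => ((m6 z h).1 k).mono (by linarith [(hz z h).2.2.2.2.2])) m4 fun _ h => h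
  have fl : ∀ z, ∀ x ∈ Ω, g.toFun x ∈ shr N (1 / 3200) z →
      h₂.toFun x = g.toFun x ∧ h₂.toFun x ∈ shr N (1 / 200) z := fun z x hx h => by
    have e := m1 x hx fun k => let ⟨z', _, k⟩ := mem_ubox.1 k
      notMem_lbox (h.1.trans_lt (by norm_num)) z' k
    exact ⟨e, e ▸ ⟨h.1.trans (by norm_num), h.2⟩⟩
  refine ⟨h, G', fun x hx k => ?_, fun x hx z k => ⟨_, r0'.keep z (keep x hx z k),
    (r2 x hx).trans Ko⟩, fun φ hφ x hx y hy => ?_, ?_, fun z hz' x hx k => ?_, fun z hz' => ?_, m5,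
    fun z h => (m6 z h).2.2.1, fun z hz' => ?_⟩
  · have e := m1 x hx fun k' => k (ubox_sub_int (by norm_num) k')
    rw [r1' x hx (Or.inl (e ▸ k)), e]
  · have k1 := (r0'.lip.dist_le_mul _ _).trans
      (mul_le_mul_of_nonneg_left (osc φ (m8.symm.subset hφ) x hx y hy) C₃.coe_nonneg)
    have k2 := dist_triangle4_right (h.toFun x) (h.toFun y) (Ψ (h₂.toFun x)) (Ψ (h₂.toFun y))
    have k3 : (C₃ : ℝ) * o ≤ C₃ * C₂ * o := mul_le_mul_of_nonneg_right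
      (le_mul_of_one_le_right C₃.coe_nonneg C2) o0.le
    rw [add_mul, mul_assoc (2 : ℝ), NNReal.coe_mul C₃]
    linarith [r2 x (cell_sub φ hx), r2 y (cell_sub φ hy)]
  · refine (hC m3 r3 (up_hit _ _) fun φ hφ => ?_).mono le_rfl (fun _ => le_rfl)
      (union_empty _).le (fun φ hφ => ?_) le_rfl
    · rw [← m8] at hφ
      exact ⟨eqOn_of_not_hit (fun x hx k => r1' x hx (Or.inl fun k' => k (interior_subset k'))) hφ,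
        fun k => absurd (hit_mono (ubox_mono le_rfl (sub_nbr 1 B)) k.1) hφ⟩
    · obtain ⟨x, hx, k⟩ := mem_hit.1 hφ
      obtain ⟨z, k1, k2⟩ := mem_ubox.1 k
      have k3 := keep x (cell_sub φ hx) z k2
      refine (em _).imp (fun k => ?_) fun k => ⟨mem_hit.2 ⟨x, hx, lbox_sub k1 k3⟩, k⟩
      obtain ⟨y, hy, k⟩ := mem_hit.1 k
      obtain ⟨z', -, k4⟩ := mem_ubox.1 k
      refine mem_hit.2 ⟨y, hy, lbox_sub (nbr_mono le_rfl (singleton_subset_iff.2 k1)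
        (near_of_mem hN ?_ k4 (lbox_dist k3 (osc φ
          (mem_hit.2 ⟨x, hx, lbox_sub (sub_nbr 1 B k1) k3⟩) y hy x hx)))) k4⟩
      linarith
  · obtain ⟨e1, e2⟩ := fl z x hx k
    refine ⟨((r4 z hz').1 x hx e2).trans Ko, fun i hi => ?_⟩
    have := (dist_le_pi_dist _ _ i).trans ((r2 x hx).trans Ko)
    rwa [r0'.lat z _ e2 i hi, e1, Real.dist_eq] at this
  · exact (r4 z hz').2.congr η1
      (fun x hx k => ⟨(fl z x hx k).2, rfl, fun i _ => congrFun (fl z x hx k).1 i⟩)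
      fun φ hφ k => ⟨Ln.marked_congr (hm φ hφ) fun u hu i _ =>
        congrFun (fl z u (cell_sub φ hu) (k (mem_image_of_mem _ hu))).1 i, (hm φ hφ).cell⟩
  · have k1 := (hz z hz').1
    refine ((m6 z hz').2.2.2.mono (inter_subset_inter_right _ (lbox_mono N (by norm_num) z))
      (mul_le_mul_of_nonneg_right (min_le_left _ _) k1.le)).congr' fun x hx k => ?_
    obtain ⟨w, hw, k⟩ := mem_thickening_iff.1 k
    have k2 : min δ (1 / 200) * μ z ≤ 1 / 200 :=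
      (mul_le_of_le_one_right (le_min δ0.le (by norm_num)) (hz z hz').2.1).trans (min_le_right _ _)
    exact r1' x hx (Or.inr (far_planes hN
      (lbox_sub_int (by norm_num) (lbox_dist hw.2 (k.le.trans k2)))))

end P073.B
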