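import Vale.Agent.P073Y.B.Defs
import Vale.Agent.P073Y.Rd.Geo

/-!
# One parallel stage, from the stages at the sites
-/

open Set Metric Topology Filter
open scoped NNReal

namespace P073.B.R1

open P073.Top P073.Rd

variable {Ω Λ : Set E3}

theorem pstep {K C : ℝ≥0} {St : StT Ω Λ} {ℓ : E3}
    (hℓ : ∀ k, 1 ≤ ℓ k) {a b μ : ℝ} (hμ : 0 < μ) (ha : 0 < a)
    (h3 : a + μ + 1 / 100 ≤ b - μ) (h4 : a + μ ≤ 11 / 100) {W : Set Z3}
    (hW : W.Finite) (os : Z3 → ℝ) (g : ConHomeo Ω Λ)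
    (hw : ∀ w ∈ W, One K C St g (slo ℓ a b w) (shi ℓ a b w) μ (os w) (dirs w)) :
    ∃ g' Ψ, Rd.PS K C St ℓ a b (a + μ) (b - μ) W os g g' Ψ ∧
      ∀ w ∈ W, ∀ y ∈ cube ℓ a b w, ∀ i, i ∉ dirs w → Ψ y i = ctr ℓ w i := by
  classical
  have hex := fun w : W => hw w w.2
  choose h φ hC hoff herr hSt using hex
  have hsep : ∀ {w w' : Z3} {y y' : E3}, y ∈ cube ℓ (a + μ) (b - μ) w →
      y' ∈ cube ℓ (a + μ) (b - μ) w' → w ≠ w' → 1 / 100 ≤ dist y y' := fun hy hy' hne =>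
    sep hℓ (by linarith) (by norm_num) h3 (by linarith) hy hy' hne
  have huniq : ∀ {w w' : Z3} {y : E3}, y ∈ cube ℓ (a + μ) (b - μ) w →
      y ∈ cube ℓ (a + μ) (b - μ) w' → w = w' := by
    intro w w' y hy hy'
    by_contra hne
    have := hsep hy hy' hne
    rw [dist_self] at this
    norm_num at this
  have hoff' : ∀ w : W, ∀ x ∈ Ω, g.toFun x ∉ cube ℓ (a + μ) (b - μ) w →
      (h w).toFun x = g.toFun x := fun w x hx hn =>
    hoff w x hx fun hi => hn (by rw [← mbox_eq]; exact interior_subset hi)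
  have φoff : ∀ w : W, ∀ y, y ∉ cube ℓ (a + μ) (b - μ) w → φ w y = y := fun w y hn =>
    (hC w).off y fun hi => hn (by rw [← mbox_eq]; exact interior_subset hi)
  have : Finite W := hW.to_subtype
  obtain ⟨H, H0, H1⟩ := par g h (fun w : W => cube ℓ (a + μ) (b - μ) w)
    (fun w y _ hy => by rwa [isClosed_cube.closure_eq] at hy)
    (fun y _ => ⟨univ, univ_mem, toFinite _⟩)
    (fun i j hij => disjoint_left.2 fun y hy hy' => hij (Subtype.ext (huniq hy hy'))) hoff'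
  let Ψ : E3 → E3 := fun y =>
    if hy : ∃ w : W, y ∈ cube ℓ (a + μ) (b - μ) w then φ hy.choose y else y
  have Ψ0 : ∀ y, (∀ w ∈ W, y ∉ cube ℓ (a + μ) (b - μ) w) → Ψ y = y := by
    intro y hy
    simp only [Ψ]
    rw [dif_neg]
    rintro ⟨w, hw'⟩
    exact hy w w.2 hw'
  have Ψ1 : ∀ (w : W) y, y ∈ cube ℓ (a + μ) (b - μ) w → Ψ y = φ w y := by
    intro w y hy
    have hex : ∃ w : W, y ∈ cube ℓ (a + μ) (b - μ) w := ⟨w, hy⟩
    simp only [Ψ]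
    rw [dif_pos hex, show hex.choose = w from Subtype.ext (huniq hex.choose_spec hy)]
  have hmv : Mv ℓ (a + μ) Ψ := by
    intro y k
    by_cases hy : ∃ w : W, y ∈ cube ℓ (a + μ) (b - μ) w
    · obtain ⟨w, hy⟩ := hy
      rw [Ψ1 w y hy]
      by_cases p : Odd (w.1 k)
      · exact Or.inl ((hC w).fix y k (mem_dirs.2 p))
      · obtain ⟨n, -, c⟩ := even_ctr (ℓ := ℓ) p
        have e := hy k
        have e' := (hC w).mono y k fun hk => p (mem_dirs.1 hk)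
        rw [mid_eq, c] at e'
        simp only [rad, if_neg p, c] at e
        exact Or.inr ⟨n, e, e'⟩
    · left
      rw [Ψ0 y fun w hw' hy' => hy ⟨⟨w, hw'⟩, hy'⟩]
  have hC0 : (0:ℝ) ≤ C := C.2
  -- two points: one site or two different sites
  have two : ∀ y y', (Ψ y = y ∧ Ψ y' = y') ∨ (∃ w : W, Ψ y = φ w y ∧ Ψ y' = φ w y') ∨
      ∃ w w' : Z3, w ≠ w' ∧ y ∈ cube ℓ (a + μ) (b - μ) w ∧ y' ∈ cube ℓ (a + μ) (b - μ) w' := by
    intro y y'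
    by_cases hy : ∃ w : W, y ∈ cube ℓ (a + μ) (b - μ) w <;>
      by_cases hy' : ∃ w : W, y' ∈ cube ℓ (a + μ) (b - μ) w
    · obtain ⟨w, hy⟩ := hy
      obtain ⟨w', hy'⟩ := hy'
      by_cases hne : w = w'
      · subst hne
        exact Or.inr (Or.inl ⟨w, Ψ1 w y hy, Ψ1 w y' hy'⟩)
      · exact Or.inr (Or.inr ⟨w, w', fun e => hne (Subtype.ext e), hy, hy'⟩)
    · obtain ⟨w, hy⟩ := hy
      refine Or.inr (Or.inl ⟨w, Ψ1 w y hy, ?_⟩)
      rw [Ψ0 y' fun w hw' h' => hy' ⟨⟨w, hw'⟩, h'⟩, φoff w y' fun h' => hy' ⟨w, h'⟩]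
    · obtain ⟨w, hy'⟩ := hy'
      refine Or.inr (Or.inl ⟨w, ?_, Ψ1 w y' hy'⟩)
      rw [Ψ0 y fun w hw' h' => hy ⟨⟨w, hw'⟩, h'⟩, φoff w y fun h' => hy ⟨w, h'⟩]
    · exact Or.inl ⟨Ψ0 y fun w hw' h' => hy ⟨⟨w, hw'⟩, h'⟩,
        Ψ0 y' fun w hw' h' => hy' ⟨⟨w, hw'⟩, h'⟩⟩
  refine ⟨H, Ψ, ⟨fun x hx hn => H0 x hx fun w => hn w w.2, fun w hwW => ⟨h ⟨w, hwW⟩, hSt ⟨w, hwW⟩,
    fun x hx hn => H1 ⟨w, hwW⟩ x hx fun j hj => hn j j.2 fun e => hj (Subtype.ext e)⟩,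
    fun x hx t ht hn => ?_, Ψ0, hmv, fun y y' => ?_, fun z y y' hy hy' => ?_⟩,
    fun w hwW y hy i hi => ?_⟩
  · by_cases hy : ∃ w : W, g.toFun x ∈ cube ℓ (a + μ) (b - μ) w
    · obtain ⟨w, hy⟩ := hy
      rw [Ψ1 w _ hy, H1 w x hx fun j hj hy' => hj (Subtype.ext (huniq hy' hy))]
      exact (herr w x hx).trans (mul_le_mul_of_nonneg_left (hn w w.2 hy) K.2)
    · rw [Ψ0 _ fun w hw' h' => hy ⟨⟨w, hw'⟩, h'⟩, H0 x hx fun w h' => hy ⟨w, h'⟩, dist_self]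
      exact mul_nonneg K.2 ht
  · have d0 := dist_nonneg (x := y) (y := y')
    rcases two y y' with ⟨e, e'⟩ | ⟨w, e, e'⟩ | ⟨w, w', hne, e, e'⟩
    · rw [e, e']; nlinarith
    · rw [e, e']
      have := (hC w).lip.dist_le_mul y y'
      nlinarith
    · have d1 := hsep e e' hne
      have d2 := hmv.dist_le (by linarith) y
      have d3 := hmv.dist_le (by linarith) y'
      have d4 := dist_triangle4 (Ψ y) y y' (Ψ y')
      rw [dist_comm y' (Ψ y')] at d4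
      nlinarith
  · have d0 := dist_nonneg (x := Ψ y) (y := Ψ y')
    rcases two y y' with ⟨e, e'⟩ | ⟨w, e, e'⟩ | ⟨w, w', hne, e, e'⟩
    · rw [e, e'] at d0 ⊢; nlinarith
    · have := (hC w).inv y y' fun i hi => by
        obtain ⟨n, -, c⟩ := even_ctr (ℓ := ℓ) (w := w.1) (k := i) fun p => hi (mem_dirs.2 p)
        rw [mid_eq, c, ← e, ← e']
        exact sign_obox hℓ hy hy' i n
      rw [← e, ← e'] at this
      nlinarith
    · have s1 : Ψ y ∈ cube ℓ (a + μ) (b - μ) w :=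
        hmv.stay hℓ (by linarith) (by linarith) e
      have s2 : Ψ y' ∈ cube ℓ (a + μ) (b - μ) w' :=
        hmv.stay hℓ (by linarith) (by linarith) e'
      have d1 := hsep s1 s2 hne
      have d2 := hmv.dist_le (by linarith) y
      have d3 := hmv.dist_le (by linarith) y'
      have d4 := dist_triangle4 y (Ψ y) (Ψ y') y'
      rw [dist_comm y (Ψ y)] at d4
      nlinarith
  · rw [Ψ1 ⟨w, hwW⟩ y (cube_mono (by linarith) (by linarith) hy),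
      (hC ⟨w, hwW⟩).core y (mem_Icc_iff.2 hy) i hi, mid_eq]

/-- the stages with at most one family at the sites -/
theorem one_of {K C : ℝ≥0} {S : Src Ω} {St : StT Ω Λ} {o₀ o : ℝ} (hS : Stg1 K C S St o₀) {ℓ : E3}
    (hℓ : ∀ k, 1 ≤ ℓ k) {a b μ : ℝ} (h1 : μ ≤ 2 * a) (h2 : a ≤ 8 * μ) (h5 : b ≤ 1 / 4)
    (h6 : μ ≤ 1 / 2) {w : Z3} (g : ConHomeo Ω Λ) (e1 : (dirs w).card ≤ 1) (e2 : o₀ ≤ o)
    (e3 : K * o ≤ μ) (e4 : cube ℓ (a + μ) (b - μ) w ⊆ Λ)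
    (e5 : S.Osc g.toFun (cube ℓ (a + μ) (b - μ) w) o) :
    One K C St g (slo ℓ a b w) (shi ℓ a b w) μ o (dirs w) := by
  refine hS g _ _ μ o (dirs w) e1 e2 e3 (fun i => ?_) (fun i hi => ?_) ?_ ?_
  · have := hℓ i
    simp only [slo, shi, rad]
    split_ifs <;> linarith
  · have p : ¬ Odd (w i) := fun h => hi (mem_dirs.2 h)
    simp only [slo, shi, rad, if_neg p]
    linarith
  · rw [mbox_eq]; exact e4
  · rw [mbox_eq]; exact e5

theorem osc_mono {S : Src Ω} {g : E3 → E3} {U U' : Set E3} {t : ℝ} (h : S.Osc g U t)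
    (hU : U' ⊆ U) : S.Osc g U' t := fun c hc => h c (hc.mono (inter_subset_inter_right _ hU))

/-- the oscillation after a stage -/
theorem osc_step {K C : ℝ≥0} {S : Src Ω} {St : StT Ω Λ} {ℓ : E3} {a b A Bb t : ℝ} {W : Set Z3}
    {g g' : ConHomeo Ω Λ} {Ψ : E3 → E3} (h : Rd.PS K C St ℓ a b A Bb W (fun _ => t) g g' Ψ)
    {U : Set E3} (hU : ∀ w ∈ W, cube ℓ A Bb w ⊆ U) (ht : 0 ≤ t) (ho : S.Osc g.toFun U t) :
    S.Osc g'.toFun U ((C + 25 + 2 * K) * t) := by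
  rintro c ⟨_, ⟨x₀, hx₀, rfl⟩, hy⟩ x hx x' hx'
  have h0 : g.toFun x₀ ∈ U := by
    by_contra h0
    rw [h.off x₀ (cell_sub S c hx₀) fun w hw hc => h0 (hU w hw hc)] at hy
    exact h0 hy
  exact h.osc (cell_sub S c hx) (cell_sub S c hx') ht (fun _ _ _ => le_rfl) (fun _ _ _ => le_rfl)
    (ho c ⟨_, mem_image_of_mem _ hx₀, h0⟩ x hx x' hx')

end P073.B.R1
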