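import Vale.Agent.P073Y.B.Cer
import Vale.Agent.P073Y.Ln.Brg
import Vale.Agent.P073Y.Zn.Ncong
import Vale.Agent.P073Z.ACC.Tool

/-!
# Tools for one zone: the choice of the slabs, the push, the squeeze, volumes
-/

open Set Metric Topology Filter MeasureTheory
open scoped NNReal ENNReal

namespace P073.B

open P073.Top P073.Zn

namespace Zt

variable {Ω Λ : Set E3} {N : ℕ} {t q κ κ' : ℝ} {z z' : Z3} {y : E3} {B Bp : Set Z3}

/-! ### boxes -/

theorem mem_ubox : y ∈ ubox N κ B ↔ ∃ z ∈ B, y ∈ lbox N κ z := by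
  simp only [ubox, mem_iUnion, exists_prop]

theorem lbox_sub (h : z ∈ B) : lbox N κ z ⊆ ubox N κ B := subset_biUnion_of_mem (u := lbox N κ) h

theorem ubox_mono (h : κ' ≤ κ) (hB : B ⊆ Bp) : ubox N κ B ⊆ ubox N κ' Bp := fun _ hy =>
  let ⟨z, h1, h2⟩ := mem_ubox.1 hy
  mem_ubox.2 ⟨z, hB h1, lbox_mono N h z h2⟩

theorem isCompact_ubox (hB : B.Finite) : IsCompact (ubox N κ B) :=
  hB.isCompact_biUnion fun z _ => isCompact_lbox N κ z

theorem mem_int : y ∈ interior (lbox N κ z) ↔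
    ∀ i, z i * wd N i + κ < y i ∧ y i < (z i + 1) * wd N i - κ := by
  rw [lbox, ← pi_univ_Icc, interior_pi_set finite_univ]
  simp only [interior_Icc, mem_univ_pi, mem_Ioo]

theorem lbox_sub_int (h : κ' < κ) : lbox N κ z ⊆ interior (lbox N κ' z) := fun _ hy =>
  mem_int.2 fun i => ⟨by linarith [(mem_lbox.1 hy i).1], by linarith [(mem_lbox.1 hy i).2]⟩

theorem ubox_sub_int (h : 0 < κ) : ubox N κ B ⊆ interior (ubox N 0 B) :=
  iUnion₂_subset fun _ hz => (lbox_sub_int h).trans (interior_mono (lbox_sub hz))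

theorem eq_of_int (hN : 1 ≤ N) (h : 0 ≤ κ + κ') (h1 : y ∈ interior (lbox N κ z))
    (h2 : y ∈ lbox N κ' z') : z = z' := funext fun i => by
  have a := mem_int.1 h1 i
  have b := mem_lbox.1 h2 i
  have c := one_le_wd hN i
  have d : (z i : ℝ) < z' i + 1 := lt_of_mul_lt_mul_right (by linarith [a.1, b.2])
    (zero_le_one.trans c)
  have e : (z' i : ℝ) < z i + 1 := lt_of_mul_lt_mul_right (by linarith [a.2, b.1])
    (zero_le_one.trans c)
  have d' : z i < z' i + 1 := by exact_mod_cast d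
  have e' : z' i < z i + 1 := by exact_mod_cast e
  omega

theorem disj_int (hN : 1 ≤ N) (h : 0 ≤ κ) (hne : z ≠ z') :
    Disjoint (interior (lbox N κ z)) (interior (lbox N κ z')) :=
  disjoint_left.2 fun _ h1 h2 => hne (eq_of_int hN (add_nonneg h h) h1 (interior_subset h2))

/-- near a horizontal lattice plane -/
theorem notMem_lbox {n : ℤ} (h : |y 2 - n| < κ) (z : Z3) : y ∉ lbox N κ z := fun hy => by
  have a := mem_lbox.1 hy 2
  have b := abs_lt.1 h
  rw [show wd N 2 = 1 from rfl] at a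
  have d : (z 2 : ℝ) < n := by linarith [a.1, b.2]
  have e : (n : ℝ) < z 2 + 1 := by linarith [a.2, b.1]
  have d' : z 2 < n := by exact_mod_cast d
  have e' : n < z 2 + 1 := by exact_mod_cast e
  omega

theorem far_planes (hN : 1 ≤ N) (h : y ∈ interior (lbox N κ z)) (i : Fin 3) (n : ℤ) :
    κ < |y i - n * wd N i| := by
  have a := mem_int.1 h i
  have c := zero_le_one.trans (one_le_wd hN i)
  rcases le_or_gt n (z i) with e | e
  · have : (n : ℝ) ≤ z i := by exact_mod_cast e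
    exact lt_abs.2 (Or.inl (by nlinarith [a.1]))
  · have : (z i : ℝ) + 1 ≤ n := by exact_mod_cast e
    exact lt_abs.2 (Or.inr (by nlinarith [a.2]))

theorem mem_nbr (h : z ∈ B ∨ z - Pi.single 2 1 ∈ B) :
    z ∈ nbr 1 B ∧ z - Pi.single 2 1 ∈ nbr 1 B := by
  have k : ∀ i : Fin 3, |(Pi.single 2 1 : Fin 3 → ℤ) i| ≤ (1 : ℕ) := by decide
  rcases h with h | h
  · exact ⟨⟨z, h, by simp⟩, z, h, fun i => by simpa using k i⟩
  · exact ⟨⟨_, h, fun i => by simpa using k i⟩, _, h, by simp⟩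

/-- a homeomorphism of the space with support in `Λ` acts on `Λ` -/
theorem exists_post (g : ConHomeo Ω Λ) (Φ : Hom) (hΛ : IsOpen Λ) {U : Set E3} (hU : U ⊆ Λ)
    (h : ∀ y, y ∉ U → Φ.toFun y = y) : ∃ G : ConHomeo Ω Λ, G.toFun = Φ.toFun ∘ g.toFun := by
  have hi := injOn_univ.1 Φ.injOn
  have h1 : ∀ y, y ∉ Λ → Φ.toFun y = y := fun y hy => h y fun k => hy (hU k)
  have him : Φ.toFun '' Λ = Λ := Subset.antisymm (ACC.mapsTo_of_id hi h1).image_subset
    fun y hy => ⟨Φ.invFun y, by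
      by_contra k
      exact k (((h1 _ k).symm.trans (Φ.right_inv (mem_univ y))).symm ▸ hy),
      Φ.right_inv (mem_univ y)⟩
  exact ⟨g.trans ((Φ.restr (IsOpen.conicalSet hΛ) (subset_univ _)).cast rfl him), rfl⟩

/-! ### the choice of the slabs -/

theorem pigeon {α ι : Type} [Fintype ι] (J : ℕ) (A : ℕ → Set α) (U : Set α)
    (m : ι → α → ℝ≥0∞) (hU : ∀ j, A j ⊆ U)
    (hd : ∀ j ≤ J, ∀ j' ≤ J, j ≠ j' → Disjoint (A j) (A j')) :
    ∃ j ≤ J, ∀ i, (J + 1) * tot (A j) (m i) ≤ (Fintype.card ι + 1) * tot U (m i) := by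
  have h1 : ∀ i, ∑ j : Fin (J + 1), tot (A j) (m i) ≤ tot U (m i) := fun i =>
    (tsum_fintype (L := .unconditional _) _).ge.trans (tsum_tot_le (A := fun j : Fin (J + 1) => A j)
      (fun j => hU j) (fun j j' h => hd j (Nat.lt_succ_iff.1 j.2) j' (Nat.lt_succ_iff.1 j'.2)
        fun e => h (Fin.ext e)) _)
  obtain ⟨j, -, hj⟩ := ENNReal.exists_le_of_sum_le (s := Finset.univ) Finset.univ_nonempty
    (f := fun j : Fin (J + 1) => (J + 1) * ∑ i, tot (A j) (m i) / tot U (m i))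
    (g := fun _ => Fintype.card ι) (by
      rw [← Finset.mul_sum, Finset.sum_comm, Finset.sum_const, Finset.card_univ, Fintype.card_fin,
        nsmul_eq_mul, Nat.cast_succ]
      refine mul_le_mul_right ((Finset.sum_le_card_nsmul _ _ 1 fun i _ => ?_).trans_eq
        (nsmul_one _)) _
      simp only [div_eq_mul_inv, ← Finset.sum_mul]
      exact (mul_le_mul_left (h1 i) _).trans ENNReal.div_self_le_one)
  refine ⟨j, Nat.lt_succ_iff.1 j.2, fun i => ?_⟩
  rcases eq_or_ne (tot U (m i)) ⊤ with h | h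
  · rw [h, ENNReal.mul_top (by positivity)]
    exact le_top
  rcases eq_or_ne (tot U (m i)) 0 with h' | h'
  · rw [le_zero_iff.1 ((tot_subset (hU j) _).trans h'.le), mul_zero]
    exact zero_le
  have h2 := (mul_le_mul_right (Finset.single_le_sum (f := fun i => tot (A j) (m i) / tot U (m i))
    (fun _ _ => zero_le) (Finset.mem_univ i)) _).trans (hj.trans (le_self_add (b := 1)))
  rwa [← mul_div_assoc, ENNReal.div_le_iff h' h] at h2

/-- the centres at height `q` -/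
noncomputable def ctr (N : ℕ) (q : ℝ) (z : Z3) : E3 :=
  fun i => (z i + if i = 2 then q else 1 / 2) * wd N i

theorem ctr_two (N : ℕ) (q : ℝ) (z : Z3) : ctr N q z 2 = z 2 + q := mul_one _

theorem ctr_mem (hN : 1 ≤ N) (hq : 1 / 3 ≤ q) (hq' : q ≤ 2 / 3) (z : Z3) : ctr N q z ∈ mid N z :=
  ⟨fun i => mul_le_mul_of_nonneg_right (by split_ifs <;> linarith)
    (zero_le_one.trans (one_le_wd hN i)), fun i => mul_le_mul_of_nonneg_right
      (by split_ifs <;> linarith) (zero_le_one.trans (one_le_wd hN i))⟩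

/-- the admissible heights -/
noncomputable def hts (t : ℝ) : Set ℝ := (fun j : ℕ => 1 / 3 + 5 * t * j) '' Iic ⌊1 / (15 * t)⌋₊

theorem hts_finite (t : ℝ) : (hts t).Finite := (finite_Iic _).image _

theorem hts_mem (ht : 0 < t) (h : q ∈ hts t) : 1 / 3 ≤ q ∧ q ≤ 2 / 3 := by
  obtain ⟨j, hj, rfl⟩ := h
  have h1 := (le_div_iff₀ (by positivity)).1
    ((Nat.cast_le.2 hj).trans (Nat.floor_le (a := 1 / (15 * t)) (by positivity)))
  exact ⟨le_add_of_nonneg_right (by positivity), by linarith⟩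

/-- one of the heights has light slabs -/
theorem exists_height (S : Src Ω) (g : E3 → E3) (N : ℕ) (B : Set Z3) {o : ℝ} (ht : 0 < t)
    (ho : o < t) (hO : S.Osc g (ubox N 0 (nbr 1 B)) o) {ι : Type} [Fintype ι]
    (m : ι → S.Q.ι → ℝ≥0∞) : ∃ q ∈ hts t, ∀ i, tot (hit S g (slabs N t B (ctr N q))) (m i) ≤
      (Fintype.card ι + 1) * 15 * ENNReal.ofReal t * tot (hit S g (ubox N 0 (nbr 1 B))) (m i) := by
  have sub : ∀ c, slabs N t B c ⊆ ubox N 0 (nbr 1 B) := fun c y ⟨z, h1, h2, _⟩ => lbox_sub h1 h2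
  obtain ⟨j, hj, h⟩ := pigeon ⌊1 / (15 * t)⌋₊
    (fun j => hit S g (slabs N t B (ctr N (1 / 3 + 5 * t * j)))) _ m (fun _ => hit_mono (sub _))
    fun j hj j' hj' hne => disjoint_left.2 fun φ h1 h2 => by
      obtain ⟨x, hx, z, z1, z2, z3⟩ := mem_hit.1 h1
      obtain ⟨x', hx', z', -, -, z3'⟩ := mem_hit.1 h2
      have a := abs_le.1 ((dist_le_pi_dist _ _ 2).trans (hO φ (hit_mono (sub _) h1) x hx x' hx'))
      have b := hts_mem ht ⟨j, hj, rfl⟩
      have b' := hts_mem ht ⟨j', hj', rfl⟩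
      rw [ctr_two, abs_le] at z3 z3'
      have c : (j : ℝ) + 1 ≤ j' ∨ (j' : ℝ) + 1 ≤ j := by
        norm_cast
        omega
      have d : z 2 = z' 2 ∨ (z 2 : ℝ) + 1 ≤ z' 2 ∨ (z' 2 : ℝ) + 1 ≤ z 2 := by
        norm_cast
        omega
      simp only at b b'
      rcases d with d | d | d
      · rw [d] at z3
        rcases c with c | c <;> nlinarith [a.1, a.2, z3.1, z3.2, z3'.1, z3'.2]
      all_goals rcases c with c | c <;> nlinarith [a.1, a.2, z3.1, z3.2, z3'.1, z3'.2]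
  refine ⟨_, ⟨j, hj, rfl⟩, fun i => ?_⟩
  have h1 : 1 ≤ 15 * ENNReal.ofReal t * (⌊1 / (15 * t)⌋₊ + 1) := by
    have := (div_lt_iff₀ (by positivity)).1 (Nat.lt_floor_add_one (1 / (15 * t)))
    rw [← Nat.cast_succ, ← ENNReal.ofReal_natCast, ← ENNReal.ofReal_ofNat,
      ← ENNReal.ofReal_mul (by positivity), ← ENNReal.ofReal_mul (by positivity)]
    exact ENNReal.one_le_ofReal.2 (by push_cast; linarith)
  refine (le_mul_of_one_le_left' h1).trans ?_
  rw [mul_assoc]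
  exact (mul_le_mul_right (h i) _).trans_eq (by ring)

/-! ### diagonal affine maps -/

/-- the diagonal affine map -/
def dia (v s y : E3) : E3 := fun i => v i + s i * y i

/-- the same map as an affine equivalence -/
noncomputable def diaE (v s : E3) (h : ∀ i, s i ≠ 0) : E3 ≃ᵃ[ℝ] E3 :=
  (LinearEquiv.piCongrRight fun i => LinearEquiv.smulOfNeZero ℝ ℝ (s i) (h i)).toAffineEquiv.trans
    (AffineEquiv.constVAdd ℝ E3 v)

theorem diaE_apply (v s : E3) (h : ∀ i, s i ≠ 0) (y : E3) : diaE v s h y = dia v s y :=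
  funext fun i => by simp [diaE, dia]

theorem dist_le_dia (v : E3) {s : E3} (h : ∀ i, 1 ≤ s i) (y y' : E3) :
    dist y y' ≤ dist (dia v s y) (dia v s y') := (dist_pi_le_iff dist_nonneg).2 fun i => by
  refine le_trans ?_ (dist_le_pi_dist _ _ i)
  rw [dia, dia, dist_add_left, Real.dist_eq, Real.dist_eq, ← mul_sub, abs_mul]
  exact le_mul_of_one_le_left (abs_nonneg _) ((h i).trans (le_abs_self _))

theorem vol_dia (v : E3) {s : E3} (h : ∀ i, 0 ≤ s i) (X : Set E3) :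
    volume (dia v s '' X) = ENNReal.ofReal (∏ i, s i) * volume X := by
  have e : dia v s '' X = (fun x => v + x) '' (Matrix.toLin' (Matrix.diagonal s) '' X) := by
    rw [image_image]
    exact image_congr fun y _ => funext fun i => by simp [dia, Matrix.mulVec_diagonal]
  rw [e, image_add_left, measure_preimage_add, Measure.addHaar_image_linearMap,
    LinearMap.det_toLin', Matrix.det_diagonal, abs_of_nonneg (Finset.prod_nonneg fun i _ => h i)]

theorem isOpen_pre (Φ : Hom) {G : Set E3} (hG : IsOpen G) : IsOpen (Φ.invFun ⁻¹' G) :=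
  hG.preimage (continuousOn_univ.1 Φ.cont_inv)

/-- on the preimage of the interior of a box, `Φ` is an expanding diagonal map -/
structure Aff (Φ : Hom) (N : ℕ) (κ : ℝ) (z : Z3) (v s : E3) (X : Set E3) : Prop where
  one_le : ∀ i, 1 ≤ s i
  eq : ∀ y, Φ.toFun y ∈ interior (lbox N κ z) → y ∈ X ∧ dia v s y = Φ.toFun y

namespace Aff

variable {Φ : Hom} {v s : E3} {X G : Set E3} (H : Aff Φ N κ z v s X)
include H

theorem inv (hκ : κ < κ') {w : E3} (hw : w ∈ lbox N κ' z) :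
    Φ.invFun w ∈ X ∧ dia v s (Φ.invFun w) = w := by
  have e := Φ.right_inv (mem_univ w)
  have h := H.eq (Φ.invFun w) (e.symm ▸ lbox_sub_int hκ hw)
  exact ⟨h.1, h.2.trans e⟩

theorem vol (hκ : κ < κ') : volume (lbox N κ' z \ Φ.invFun ⁻¹' G) ≤
    ENNReal.ofReal (∏ i, s i) * volume (X \ G) := by
  rw [← vol_dia v fun i => zero_le_one.trans (H.one_le i)]
  exact measure_mono fun w hw => ⟨_, ⟨(H.inv hκ hw.1).1, hw.2⟩, (H.inv hκ hw.1).2⟩

theorem near {ρ : ℝ} (hκ : κ + ρ < κ') {w u : E3} (hw : w ∈ lbox N κ' z)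
    (hu : Φ.toFun u ∈ ball w ρ) : u ∈ ball (Φ.invFun w) ρ ∧ Φ.toFun u = dia v s u := by
  have h0 : 0 < ρ := dist_nonneg.trans_lt hu
  have h1 := (H.eq u (lbox_sub_int (by linarith) (lbox_dist hw (mem_ball.1 hu).le))).2
  refine ⟨(dist_le_dia v H.one_le _ _).trans_lt ?_, h1.symm⟩
  rwa [h1, (H.inv (by linarith) hw).2]

theorem cer {S : Src Ω} {g : E3 → E3} {μ ρ : ℝ} (hC : Cer S g (G ∩ X) μ) (h0 : 0 ≤ ρ)
    (hρ : ρ ≤ μ) (hκ : κ + ρ < κ') : Cer S (Φ.toFun ∘ g) (Φ.invFun ⁻¹' G ∩ lbox N κ' z) ρ :=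
  hC.push fun _ hw => ⟨_, ⟨hw.1, (H.inv (by linarith) hw.2).1⟩,
    diaE v s fun i => (one_pos.trans_le (H.one_le i)).ne', fun _ _ hb =>
      ⟨ball_subset_ball hρ (H.near hκ hw.2 hb).1,
        (H.near hκ hw.2 hb).2.trans (diaE_apply _ _ _ _).symm⟩⟩

theorem thick {μ ρ : ℝ} (hρ : ρ ≤ μ) (hκ : κ + ρ < κ') :
    Φ.toFun ⁻¹' thickening ρ (Φ.invFun ⁻¹' G ∩ lbox N κ' z) ⊆ thickening μ G := fun u hu => by
  obtain ⟨w, hw, hb⟩ := mem_thickening_iff.1 (mem_preimage.1 hu)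
  exact mem_thickening_iff.2 ⟨_, hw.1, ball_subset_ball hρ (H.near hκ hw.2 hb).1⟩

end Aff

/-- thin shells have small volume -/
theorem vol_shell (N : ℕ) (hN : 1 ≤ N) {ε : ℝ} (hε : 0 < ε) : ∀ᶠ κ in 𝓝[>] (0 : ℝ),
    ∀ z, volume (lbox N 0 z \ lbox N κ z) ≤ ENNReal.ofReal ε := by
  have h1 : Tendsto (fun κ : ℝ => ∏ i, (wd N i - 2 * κ)) (𝓝[>] 0) (𝓝 (∏ i, wd N i)) :=
    ((by fun_prop : Continuous fun κ : ℝ => ∏ i, (wd N i - 2 * κ)).tendsto' 0 _
      (by simp)).mono_left nhdsWithin_le_nhds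
  have h2 : ∀ κ ≤ 1 / 2, ∀ z, volume (lbox N κ z) = ENNReal.ofReal (∏ i, (wd N i - 2 * κ)) :=
    fun κ hκ z => by
      rw [lbox, Real.volume_Icc_pi, ENNReal.ofReal_prod_of_nonneg fun i _ => by
        linarith [one_le_wd hN i]]
      exact Finset.prod_congr rfl fun i _ => congrArg _ (by ring)
  filter_upwards [h1.eventually_const_le (sub_lt_self _ hε), Ioc_mem_nhdsGT one_half_pos]
    with κ k1 k2 z
  rw [measure_sdiff (lbox_mono N k2.1.le z) measurableSet_Icc.nullMeasurableSet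
    (isCompact_lbox N κ z).measure_lt_top.ne, h2 κ k2.2, h2 0 one_half_pos.le,
    ← ENNReal.ofReal_sub _ (Finset.prod_nonneg fun i _ => by linarith [one_le_wd hN i, k2.2])]
  exact ENNReal.ofReal_le_ofReal (by simp only [mul_zero, sub_zero]; linarith)

/-! ### the push -/

/-- the properties of the push -/
structure Psh (N : ℕ) (t q : ℝ) (Bp : Set Z3) (C : ℝ≥0) (Φ : Hom) : Prop where
  off : ∀ y, y ∉ interior (ubox N 0 Bp) → Φ.toFun y = y
  box : ∀ z, Φ.toFun '' lbox N 0 z = lbox N 0 z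
  lat : ∀ y i, i ≠ 2 → Φ.toFun y i = y i
  lip : ∀ y y', dist (Φ.toFun y) (Φ.toFun y') ≤ C * dist (vst N t y) (vst N t y')
  ver : ∀ z ∈ Bp, ∀ y ∈ lbox N 0 z,
    (∀ i, i ≠ 2 → z i * wd N i + 1 / 1600 ≤ y i ∧ y i ≤ (z i + 1) * wd N i - 1 / 1600) →
    (y 2 ≤ z 2 + q - t → Φ.toFun y 2 ≤ z 2 + 1 / 1600) ∧
    (z 2 + q + t ≤ y 2 → z 2 + 1 - 1 / 1600 ≤ Φ.toFun y 2) ∧
    (|y 2 - (z 2 + q)| ≤ t →
      Φ.toFun y 2 = z 2 + 1 / 2 + (1 / 2 - 1 / 1600) / t * (y 2 - (z 2 + q)))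

/-- the stretch of the slabs -/
noncomputable def ps (t : ℝ) : E3 := fun i => if i = 2 then (1 / 2 - 1 / 1600) / t else 1

/-- the translation of the slabs -/
noncomputable def pv (t q : ℝ) (z : Z3) : E3 :=
  fun i => if i = 2 then z 2 + 1 / 2 - (1 / 2 - 1 / 1600) / t * (z 2 + q) else 0

theorem one_le_ps (ht : 0 < t) (ht' : t ≤ 1 / 4) (i : Fin 3) : 1 ≤ ps t i := by
  unfold ps
  split_ifs
  exacts [(one_le_div ht).2 (by linarith), le_rfl]

theorem ps_prod (ht : 0 < t) : (∏ i, ps t i) * t ≤ 1 := by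
  rw [Fin.prod_univ_three]
  simp only [ps, Fin.reduceEq, if_false, if_true, one_mul, div_mul_cancel₀ _ ht.ne']
  norm_num

namespace Psh

variable {C : ℝ≥0} {Φ : Hom} (H : Psh N t q Bp C Φ)
include H

theorem maps (h : y ∈ lbox N 0 z) : Φ.toFun y ∈ lbox N 0 z := (H.box z).le ⟨y, h, rfl⟩

theorem back (h : Φ.toFun y ∈ lbox N 0 z) : y ∈ lbox N 0 z := by
  obtain ⟨u, hu, e⟩ := (H.box z).ge h
  exact Φ.injOn (mem_univ u) (mem_univ y) e ▸ hu

/-- the preimages of the holes lie in the slabs -/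
theorem slab (hz : z ∈ Bp) (h : Φ.toFun y ∈ interior (lbox N (1 / 1600) z)) :
    y ∈ lbox N 0 z ∧ |y 2 - (z 2 + q)| ≤ t ∧ dia (pv t q z) (ps t) y = Φ.toFun y := by
  have h1 := H.back (lbox_mono N (by norm_num) z (interior_subset h))
  have h2 := mem_int.1 h
  obtain ⟨k1, k2, k3⟩ := H.ver z hz y h1 fun i hi => H.lat y i hi ▸ ⟨(h2 i).1.le, (h2 i).2.le⟩
  have h3 := h2 2
  rw [show wd N 2 = 1 from rfl, mul_one, mul_one] at h3
  have h4 : |y 2 - (z 2 + q)| ≤ t := abs_le.2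
    ⟨le_of_not_gt fun k => by linarith [k1 (by linarith), h3.1],
      le_of_not_gt fun k => by linarith [k2 (by linarith), h3.2]⟩
  refine ⟨h1, h4, funext fun i => ?_⟩
  by_cases hi : i = 2
  · subst hi
    simp only [dia, pv, ps, if_true, k3 h4]
    ring
  · simp only [dia, pv, ps, if_neg hi, H.lat y i hi, zero_add, one_mul]

theorem aff (ht : 0 < t) (ht' : t ≤ 1 / 4) (hz : z ∈ Bp) :
    Aff Φ N (1 / 1600) z (pv t q z) (ps t) (lbox N 0 z) :=
  ⟨one_le_ps ht ht', fun _ h => ⟨(H.slab hz h).1, (H.slab hz h).2.2⟩⟩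

/-- the region between the slabs is pushed to the lattice plane -/
theorem flat (ht : 0 ≤ t) (hq : 0 ≤ q) (hq' : q ≤ 1) (hz : z ∈ Bp) (hz' : z - Pi.single 2 1 ∈ Bp)
    (hy : y ∈ shp N t (ctr N q) z) : |Φ.toFun y 2 - z 2| ≤ 1 / 1600 := by
  obtain ⟨h1, h2, h3⟩ := hy
  have w2 : wd N 2 = 1 := rfl
  have e2 : (((z - Pi.single 2 1 : Z3) 2 : ℤ) : ℝ) = z 2 - 1 := by simp
  have e3 : ∀ i, i ≠ 2 → (z - Pi.single 2 1 : Z3) i = z i := fun i hi => by simp [hi]
  rw [ctr_two] at h2 h3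
  rw [e2] at h2
  rcases le_total (z 2 : ℝ) (y 2) with e | e
  · have hm : y ∈ lbox N 0 z := mem_lbox.2 fun i => by
      by_cases hi : i = 2
      · subst hi
        constructor <;> rw [w2] <;> linarith
      · constructor <;> linarith [(h1 i hi).1, (h1 i hi).2]
    have a3 := (H.ver z hz y hm fun i hi =>
      ⟨by linarith [(h1 i hi).1], by linarith [(h1 i hi).2]⟩).1 h3
    have a4 := (mem_lbox.1 (H.maps hm) 2).1
    rw [w2] at a4
    exact abs_le.2 ⟨by linarith, by linarith⟩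
  · have hm : y ∈ lbox N 0 (z - Pi.single 2 1) := mem_lbox.2 fun i => by
      by_cases hi : i = 2
      · subst hi
        constructor <;> rw [w2, e2] <;> linarith
      · constructor <;> rw [e3 i hi] <;> linarith [(h1 i hi).1, (h1 i hi).2]
    have a3 := (H.ver _ hz' y hm fun i hi => by
      rw [e3 i hi]
      exact ⟨by linarith [(h1 i hi).1], by linarith [(h1 i hi).2]⟩).2.1 (by rw [e2]; linarith)
    have a4 := (mem_lbox.1 (H.maps hm) 2).2
    rw [w2, e2] at a4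
    rw [e2] at a3
    exact abs_le.2 ⟨by linarith, by linarith⟩

end Psh

theorem exists_psh (h : PUSH3) : ∃ C : ℝ≥0, 1 ≤ C ∧ ∀ (N : ℕ) (t q : ℝ) (Bp : Set Z3), 1 ≤ N →
    0 < t → t ≤ 1 / 4 → 1 / 3 ≤ q → q ≤ 2 / 3 → Bp.Finite → ∃ Φ, Psh N t q Bp C Φ :=
  let ⟨C, h1, h2⟩ := h
  ⟨C, h1, fun N t q Bp a b c d e f =>
    let ⟨Φ, k1, k2, k3, k4, k5⟩ := h2 N t q Bp a b c d e f
    ⟨Φ, k1, k2, k3, k4, k5⟩⟩

/-! ### the squeeze -/

/-- the stretch of the inner boxes -/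
noncomputable def qs (N : ℕ) (a ε : ℝ) : E3 :=
  fun i => (wd N i - 4 * ε) / (wd N i - 2 * ε - 2 * a)

/-- the translation of the inner boxes -/
noncomputable def qv (N : ℕ) (a ε : ℝ) (z : Z3) : E3 :=
  fun i => z i * wd N i + 2 * ε - qs N a ε i * (z i * wd N i + ε + a)

theorem qs_mem (hN : 1 ≤ N) {a ε : ℝ} (hε : 0 < ε) (h : ε ≤ a) (ha : a ≤ 1 / 8)
    (i : Fin 3) : 1 ≤ qs N a ε i ∧ qs N a ε i ≤ 2 := by
  have h1 := one_le_wd hN i
  exact ⟨(one_le_div (by linarith)).2 (by linarith), (div_le_iff₀ (by linarith)).2 (by linarith)⟩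

/-- the squeeze in all boxes -/
theorem squeeze (hS : SQZ) (hN : 1 ≤ N) (hB : Bp.Finite) {a ε : ℝ} (hε : 0 < ε) (h : ε ≤ a)
    (ha : a ≤ 1 / 8) : ∃ Φ : Hom, LipschitzWith 9 Φ.toFun ∧
      (∀ y, (∀ z ∈ Bp, y ∉ interior (lbox N ε z)) → Φ.toFun y = y) ∧
      (∀ z ∈ Bp, ∀ y, Φ.toFun y ∈ interior (lbox N ε z) ↔ y ∈ interior (lbox N ε z)) ∧
      ∀ z ∈ Bp, Aff Φ N (2 * ε) z (qv N a ε z) (qs N a ε) (lbox N (ε + a) z) := by
  choose Θ h1 h2 h3 using fun z : Z3 => hS (fun i => z i * wd N i + ε)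
    (fun i => (z i + 1) * wd N i - ε) a ε hε h fun i => by linarith [one_le_wd hN i]
  have hd : ∀ z z', z ≠ z' → Disjoint (interior (lbox N ε z)) (interior (lbox N ε z')) :=
    fun z z' => disj_int hN hε.le
  obtain ⟨Φ, e1, e2⟩ := ACC.patch hB.toFinset Θ (fun z => interior (lbox N ε z))
    (fun z _ z' _ => hd z z') fun z _ => h2 z
  simp only [Finite.mem_toFinset] at e1 e2
  have m2 : ∀ y, (∃ z ∈ Bp, y ∈ interior (lbox N ε z)) ∨ ∀ z ∈ Bp, y ∉ interior (lbox N ε z) :=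
    fun y => by simpa only [not_exists, not_and] using em (∃ z ∈ Bp, y ∈ interior (lbox N ε z))
  have m1 : ∀ z ∈ Bp, ∀ y ∈ interior (lbox N ε z), Φ.toFun y ∈ interior (lbox N ε z) :=
    fun z hz y hy => e1 z hz hy ▸ ACC.mapsTo_of_id (injOn_univ.1 (Θ z).injOn) (h2 z) hy
  have m3 : ∀ z ∈ Bp, ∀ y, Φ.toFun y ∈ interior (lbox N ε z) → y ∈ interior (lbox N ε z) :=
    fun z hz y hy => by
      rcases m2 y with ⟨z', hz', k⟩ | k
      · rwa [eq_of_int hN (by linarith) hy (interior_subset (m1 z' hz' y k))]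
      · rwa [e2 y k] at hy
  refine ⟨Φ, LipschitzWith.of_dist_le_mul fun y y' => ?_, e2,
    fun z hz y => ⟨m3 z hz y, m1 z hz y⟩,
    fun z hz => ⟨fun i => (qs_mem hN hε h ha i).1, fun y hy => ?_⟩⟩
  · have lip := fun z => (h1 z).dist_le_mul y y'
    have n0 := dist_nonneg (x := y) (y := y')
    push_cast at lip ⊢
    rcases m2 y with ⟨z, hz, k⟩ | k <;> rcases m2 y' with ⟨z', hz', k'⟩ | k'
    · rw [e1 z hz k, e1 z' hz' k']
      by_cases e : z = z'
      · subst e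
        linarith [lip z]
      · have a1 := lip z
        have a2 := lip z'
        rw [h2 z y' (disjoint_right.1 (hd z z' e) k')] at a1
        rw [h2 z' y (disjoint_left.1 (hd z z' e) k)] at a2
        linarith [dist_triangle4 ((Θ z).toFun y) y' y ((Θ z').toFun y'), dist_comm y y']
    · have a1 := lip z
      rw [h2 z y' (k' z hz)] at a1
      rw [e1 z hz k, e2 y' k']
      linarith
    · have a1 := lip z'
      rw [h2 z' y (k z' hz')] at a1
      rw [e1 z' hz' k', e2 y k]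
      linarith
    · rw [e2 y k, e2 y' k']
      linarith
  · replace hy := interior_subset hy
    have k1 := e1 z hz (m3 z hz y (lbox_sub_int (by linarith) hy))
    have k2 := (h3 z y).1.1 (k1 ▸ ⟨fun i => by linarith [(mem_lbox.1 hy i).1],
      fun i => by linarith [(mem_lbox.1 hy i).2]⟩)
    refine ⟨mem_lbox.2 fun i => ⟨by linarith [k2.1 i], by linarith [k2.2 i]⟩, funext fun i => ?_⟩
    rw [k1, (h3 z y).2 k2 i, dia, qv, qs,
      show (z i + 1) * wd N i - ε - (z i * wd N i + ε) - 2 * ε = wd N i - 4 * ε by ring,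
      show (z i + 1) * wd N i - ε - (z i * wd N i + ε) - 2 * a = wd N i - 2 * ε - 2 * a by ring]
    ring

end Zt

end P073.B
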